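import Vale.Agent.P262F.Fresh

/-!
TASK I0 and I1. Existence of the subdivision, formulas, and the block invariants at level `b + 1`.
-/

open Finset

namespace Vale.Agent.P262F

namespace Fam

variable {V κ : Type} [Fintype V] [DecidableEq V] [Fintype κ] [DecidableEq κ] (S : Fam V κ)

theorem ca_x_big (b : ℕ) : (10 : ℝ) ^ 9 ≤ S.x b := by
  have h := S.x_ge b
  have h2 : (10 : ℝ) ^ 9 ≤ x0 := by
    unfold x0
    calc (10 : ℝ) ^ 9 ≤ 2 ^ 30 := by norm_num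
      _ ≤ 2 ^ (1000 : ℕ) := pow_le_pow_right₀ (by norm_num) (by norm_num)
  linarith

theorem ca_x_one (b : ℕ) : 1 ≤ S.x b := by
  have h := S.ca_x_big b
  norm_num at h
  linarith

theorem ca_x_posi (b : ℕ) : 0 < S.x b := lt_of_lt_of_le one_pos (S.ca_x_one b)

/-- Absorb a constant. -/
theorem ca_cx_le (b : ℕ) {C : ℝ} {a c : ℕ} (hC : C ≤ (10 : ℝ) ^ 9) (h : a + 1 ≤ c) :
    C * S.x b ^ a ≤ S.x b ^ c := by
  have h1 : C * S.x b ^ a ≤ S.x b * S.x b ^ a :=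
    mul_le_mul_of_nonneg_right (hC.trans (S.ca_x_big b)) (pow_nonneg (S.ca_x_posi b).le _)
  have h2 : S.x b * S.x b ^ a = S.x b ^ (a + 1) := by ring
  have h3 : S.x b ^ (a + 1) ≤ S.x b ^ c := pow_le_pow_right₀ (S.ca_x_one b) h
  linarith

theorem ca_g_posR (b : ℕ) : (0 : ℝ) < (S.g b : ℝ) := by
  have := S.g_ge b
  have h2 : 0 < S.x b ^ 75 := pow_pos (S.ca_x_posi b) _
  linarith

theorem ca_g_posN (b : ℕ) : 0 < S.g b := by
  have := S.ca_g_posR b
  exact_mod_cast this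

theorem ca_g_pow_le (b m : ℕ) : (S.g b : ℝ) ^ m ≤ 2 ^ m * S.x b ^ (75 * m) := by
  have h := pow_le_pow_left₀ (S.ca_g_posR b).le (S.g_le b) m
  rw [mul_pow, ← pow_mul] at h
  exact h

theorem ca_g_pow_ge (b m : ℕ) : S.x b ^ (75 * m) ≤ (S.g b : ℝ) ^ m := by
  have h := pow_le_pow_left₀ (pow_nonneg (S.ca_x_posi b).le 75) (S.g_ge b) m
  rw [← pow_mul] at h
  exact h

theorem ca_om_nonneg (b : ℕ) (k : κ) : 0 ≤ S.om b k := by
  unfold om
  exact inv_nonneg.2 (pow_nonneg (S.q_pos b k).le _)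

theorem exists_crossW {L b : ℕ} {s sR : St V κ} {Kb : ℝ} (hR : S.InvR L b s sR Kb) :
    ∃ w : V → ℕ, S.CrossW L b sR w := by
  classical
  have hdis : ∀ z, Disjoint (Bl sR z \ S.H b) (S.H b) := fun z => sdiff_disjoint
  choose wl hwl1 hwl2 using fun z => S.cross_fresh L b (Bl sR z \ S.H b) (hdis z)
  -- heavy elements
  have hheavy : ∀ z, ∃ f : V → ℕ, z < S.N b → (∀ e ∈ Bl sR z ∩ S.H b, f e < S.g b ^ 8) ∧
      ∀ e ∈ Bl sR z ∩ S.H b, ∀ e' ∈ Bl sR z ∩ S.H b, f e = f e' → e = e' := by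
    intro z
    by_cases hz : z < S.N b
    · have hc := hR.cnt0 z hz
      have hc2 : (Bl sR z ∩ S.H b).card ≤ S.g b ^ 8 := by
        have h1 : 2 * S.x b ≤ ((S.g b ^ 8 : ℕ) : ℝ) := by
          push_cast
          have h2 := S.ca_g_pow_ge b 8
          have h3 := S.ca_cx_le b (C := 2) (a := 1) (c := 75 * 8) (by norm_num) (by norm_num)
          rw [pow_one] at h3
          linarith
        exact_mod_cast hc.trans h1
      have he := (Bl sR z ∩ S.H b).equivFin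
      refine ⟨fun e => if h : e ∈ Bl sR z ∩ S.H b then (he ⟨e, h⟩ : ℕ) else 0, fun _ => ⟨?_, ?_⟩⟩
      · intro e hh
        simp only [hh, dif_pos]
        exact lt_of_lt_of_le (he ⟨e, hh⟩).2 hc2
      · intro e hh e' hh' heq
        simp only [hh, hh', dif_pos] at heq
        have := he.injective (Fin.ext heq)
        simpa using this
    · exact ⟨fun _ => 0, fun h => absurd h hz⟩
  choose wh hwh using hheavy
  have hmem : ∀ e z, e ∈ Bl sR z ↔ sR.pos e = z := by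
    intro e z
    simp [Bl]
  refine ⟨fun e => if e ∈ S.H b then wh (sR.pos e) e else wl (sR.pos e) e, ?_, ?_, ?_⟩
  · intro e
    by_cases he : e ∈ S.H b
    · simp only [he, if_pos]
      exact (hwh (sR.pos e) (hR.pos_lt e)).1 e (mem_inter.2 ⟨(hmem e _).2 rfl, he⟩)
    · simp only [he, if_false]
      exact hwl1 (sR.pos e) e (mem_sdiff.2 ⟨(hmem e _).2 rfl, he⟩)
  · intro z hz e he e' he' heq
    have h1 := (mem_inter.1 he).2
    have h1' := (mem_inter.1 he').2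
    have h2 := (hmem e z).1 (mem_inter.1 he).1
    have h2' := (hmem e' z).1 (mem_inter.1 he').1
    simp only [h1, h1', if_pos, h2, h2'] at heq
    exact (hwh z hz).2 e he e' he' heq
  · intro z hz i hi
    obtain ⟨ξ, ξ2, ξ3, hf, ha, hb, hc⟩ := hwl2 z i hi
    have hfil : (Bl sR z \ S.H b).filter
        (fun e => (if e ∈ S.H b then wh (sR.pos e) e else wl (sR.pos e) e) < i) =
        (Bl sR z \ S.H b).filter (fun e => wl z e < i) := by
      apply filter_congr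
      intro e he
      have h1 := (mem_sdiff.1 he).2
      have h2 := (hmem e z).1 (mem_sdiff.1 he).1
      simp only [h1, if_false, h2]
    refine ⟨ξ, ξ2, ξ3, hf, ?_, ?_, ?_⟩
    · intro k
      rw [hfil]
      exact ha k
    · intro i' k
      rw [hfil]
      exact hb i' k
    · intro l hl hl'
      rw [hfil]
      exact hc l hl hl'

theorem P_N {b : ℕ} {s : St V κ} (h : ∀ e, s.pos e < S.N b) (k : κ) :
    S.P s (S.N b) k = S.P s 0 k := by
  unfold P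
  rw [filter_true_of_mem (fun e _ => h e), S.hsum k]
  simp

theorem P_succ (s : St V κ) (z : ℕ) (k : κ) :
    S.P s (z + 1) k = S.P s z k + ∑ e ∈ Bl s z, S.v e k := by
  unfold P Bl
  have : univ.filter (fun e => s.pos e < z + 1) =
      univ.filter (fun e => s.pos e < z) ∪ univ.filter (fun e => s.pos e = z) := by
    ext e
    simp only [mem_filter, mem_univ, true_and, mem_union]
    omega
  rw [this, sum_union, add_assoc]
  rw [disjoint_left]
  intro e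
  simp only [mem_filter, mem_univ, true_and]
  omega

/-- Every position of level `b + 1` is `z * g ^ 8 + i`. -/
theorem pos_split {b z' : ℕ} (hz : z' < S.N (b + 1)) :
    ∃ z < S.N b, ∃ i < S.g b ^ 8, z' = z * S.g b ^ 8 + i := by
  have hg : 0 < S.g b ^ 8 := pow_pos (S.ca_g_posN b) _
  rw [S.N_succ] at hz
  refine ⟨z' / S.g b ^ 8, (Nat.div_lt_iff_lt_mul hg).2 hz, z' % S.g b ^ 8, Nat.mod_lt _ hg, ?_⟩
  exact (Nat.div_add_mod' z' _).symm

theorem cross_pos_lt {L b : ℕ} {s sR : St V κ} {Kb : ℝ} {w : V → ℕ}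
    (hR : S.InvR L b s sR Kb) (hW : S.CrossW L b sR w) (e : V) :
    (S.crossSt b sR w).pos e < S.N (b + 1) := by
  rw [S.N_succ]
  show sR.pos e * S.g b ^ 8 + w e < S.N b * S.g b ^ 8
  have h1 := hR.pos_lt e
  have h2 := hW.lt e
  calc sR.pos e * S.g b ^ 8 + w e < sR.pos e * S.g b ^ 8 + S.g b ^ 8 := by omega
    _ = (sR.pos e + 1) * S.g b ^ 8 := by ring
    _ ≤ S.N b * S.g b ^ 8 := Nat.mul_le_mul_right _ h1

theorem ca_crossSt_pos (b : ℕ) (sR : St V κ) (w : V → ℕ) (e : V) :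
    (S.crossSt b sR w).pos e = sR.pos e * S.g b ^ 8 + w e := rfl

theorem ca_mem_Bl (s : St V κ) (z : ℕ) (e : V) : e ∈ Bl s z ↔ s.pos e = z := by
  simp [Bl]

theorem cross_Bl {L b : ℕ} {s sR : St V κ} {Kb : ℝ} {w : V → ℕ}
    (hR : S.InvR L b s sR Kb) (hW : S.CrossW L b sR w) {z i : ℕ} (hi : i < S.g b ^ 8) :
    Bl (S.crossSt b sR w) (z * S.g b ^ 8 + i) = (Bl sR z).filter fun e => w e = i := by
  ext e
  rw [ca_mem_Bl, mem_filter, ca_mem_Bl, ca_crossSt_pos]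
  have hw := hW.lt e
  have hg : 0 < S.g b ^ 8 := by omega
  constructor
  · intro h
    have h1 : (sR.pos e * S.g b ^ 8 + w e) / S.g b ^ 8 = sR.pos e := by
      rw [mul_comm, Nat.mul_add_div hg, Nat.div_eq_of_lt hw, add_zero]
    have h2 : (z * S.g b ^ 8 + i) / S.g b ^ 8 = z := by
      rw [mul_comm, Nat.mul_add_div hg, Nat.div_eq_of_lt hi, add_zero]
    have h3 : sR.pos e = z := by rw [← h1, ← h2, h]
    rw [h3] at h
    exact ⟨h3, by omega⟩
  · rintro ⟨h1, h2⟩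
    rw [h1, h2]

theorem cross_P {L b : ℕ} {s sR : St V κ} {Kb : ℝ} {w : V → ℕ}
    (hR : S.InvR L b s sR Kb) (hW : S.CrossW L b sR w) {z i : ℕ} (hi : i ≤ S.g b ^ 8) (k : κ) :
    S.P (S.crossSt b sR w) (z * S.g b ^ 8 + i) k =
      S.P sR z k + ∑ e ∈ (Bl sR z).filter (fun e => w e < i), S.v e k := by
  have key : univ.filter (fun e => (S.crossSt b sR w).pos e < z * S.g b ^ 8 + i) =
      univ.filter (fun e => sR.pos e < z) ∪ (Bl sR z).filter (fun e => w e < i) := by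
    ext e
    rw [mem_filter, mem_union, mem_filter, mem_filter, ca_mem_Bl, ca_crossSt_pos]
    simp only [mem_univ, true_and]
    have hw := hW.lt e
    rcases lt_trichotomy (sR.pos e) z with h | h | h
    · have h1 : (sR.pos e + 1) * S.g b ^ 8 ≤ z * S.g b ^ 8 := Nat.mul_le_mul_right _ h
      have h2 : (sR.pos e + 1) * S.g b ^ 8 = sR.pos e * S.g b ^ 8 + S.g b ^ 8 := by ring
      constructor
      · intro _
        exact Or.inl h
      · intro _
        omega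
    · subst h
      constructor
      · intro h
        exact Or.inr ⟨rfl, by omega⟩
      · rintro (h | h)
        · omega
        · omega
    · have h1 : (z + 1) * S.g b ^ 8 ≤ sR.pos e * S.g b ^ 8 := Nat.mul_le_mul_right _ h
      have h2 : (z + 1) * S.g b ^ 8 = z * S.g b ^ 8 + S.g b ^ 8 := by ring
      constructor
      · intro _
        omega
      · rintro (h | h)
        · omega
        · omega
  show sR.P0 k + ∑ e ∈ univ.filter (fun e => (S.crossSt b sR w).pos e < z * S.g b ^ 8 + i),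
      S.v e k = _
  rw [key, sum_union, ← add_assoc]
  · rfl
  · rw [disjoint_left]
    intro e
    simp only [Bl, mem_filter, mem_univ, true_and]
    omega

/-! ### Differences of prefixes -/

/-- The new block minus the heavy elements, as a difference of prefixes. -/
theorem ca_sum_new {b : ℕ} (B : Finset V) (w : V → ℕ) (i : ℕ) (f : V → ℝ) :
    ∑ e ∈ (B.filter fun e => w e = i) \ S.H b, f e =
      ∑ e ∈ (B \ S.H b).filter (fun e => w e < i + 1), f e -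
      ∑ e ∈ (B \ S.H b).filter (fun e => w e < i), f e := by
  have h1 : (B \ S.H b).filter (fun e => w e < i + 1) =
      (B \ S.H b).filter (fun e => w e < i) ∪ (B.filter fun e => w e = i) \ S.H b := by
    ext e
    simp only [mem_filter, mem_sdiff, mem_union]
    constructor
    · rintro ⟨⟨h1, h2⟩, h3⟩
      by_cases h : w e < i
      · exact Or.inl ⟨⟨h1, h2⟩, h⟩
      · exact Or.inr ⟨⟨h1, by omega⟩, h2⟩
    · rintro (⟨⟨h1, h2⟩, h3⟩ | ⟨⟨h1, h3⟩, h2⟩)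
      · exact ⟨⟨h1, h2⟩, by omega⟩
      · exact ⟨⟨h1, h2⟩, by omega⟩
  have h2 : Disjoint ((B \ S.H b).filter (fun e => w e < i))
      ((B.filter fun e => w e = i) \ S.H b) := by
    rw [disjoint_left]
    intro e
    simp only [mem_filter, mem_sdiff]
    omega
  rw [h1, sum_union h2]
  ring

/-! ### Weighted norms -/

theorem ca_NX_succ (b : ℕ) (X : κ → κ → ℝ) :
    S.NX (b + 1) X = (S.g b : ℝ) ^ 8 * S.NX b X := by
  unfold NX
  rw [mul_sum]
  apply sum_congr rfl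
  intro i _
  rw [mul_sum]
  apply sum_congr rfl
  intro k _
  rw [S.om_succ, S.om_succ]
  ring

theorem ca_NX_smul (b : ℕ) (c : ℝ) (X : κ → κ → ℝ) :
    S.NX b (fun i k => c * X i k) = c ^ 2 * S.NX b X := by
  unfold NX
  rw [mul_sum]
  apply sum_congr rfl
  intro i _
  rw [mul_sum]
  apply sum_congr rfl
  intro k _
  ring

theorem ca_NX_add4 (b : ℕ) (X Y Y' Z : κ → κ → ℝ) :
    S.NX b (fun i k => X i k + Y i k - Y' i k - Z i k) ≤
      4 * (S.NX b X + S.NX b Y + S.NX b Y' + S.NX b Z) := by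
  unfold NX
  rw [← sum_add_distrib, ← sum_add_distrib, ← sum_add_distrib, mul_sum]
  apply sum_le_sum
  intro i _
  rw [← sum_add_distrib, ← sum_add_distrib, ← sum_add_distrib, mul_sum]
  apply sum_le_sum
  intro k _
  have h := mul_nonneg (S.ca_om_nonneg b i) (S.ca_om_nonneg b k)
  have h2 : (X i k + Y i k - Y' i k - Z i k) ^ 2 ≤
      4 * (X i k ^ 2 + Y i k ^ 2 + Y' i k ^ 2 + Z i k ^ 2) := by
    nlinarith [sq_nonneg (X i k - Y i k), sq_nonneg (X i k + Y' i k), sq_nonneg (X i k + Z i k),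
      sq_nonneg (Y i k + Y' i k), sq_nonneg (Y i k + Z i k), sq_nonneg (Y' i k - Z i k)]
  calc S.om b i * S.om b k * (X i k + Y i k - Y' i k - Z i k) ^ 2 ≤
      S.om b i * S.om b k * (4 * (X i k ^ 2 + Y i k ^ 2 + Y' i k ^ 2 + Z i k ^ 2)) :=
        mul_le_mul_of_nonneg_left h2 h
    _ = _ := by ring

/-- A sum of rank one matrices. -/
theorem ca_NX_rank (b : ℕ) (M : Finset V) {c : ℝ} (hc : 0 ≤ c)
    (h : ∀ e ∈ M, ∑ k, S.om b k * S.v e k ^ 2 ≤ c) :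
    S.NX b (fun i k => ∑ e ∈ M, S.v e i * S.v e k) ≤ (M.card : ℝ) ^ 2 * c ^ 2 := by
  have h1 : S.NX b (fun i k => ∑ e ∈ M, S.v e i * S.v e k) ≤
      ∑ i, ∑ k, S.om b i * S.om b k * ((M.card : ℝ) * ∑ e ∈ M, (S.v e i * S.v e k) ^ 2) := by
    unfold NX
    apply sum_le_sum
    intro i _
    apply sum_le_sum
    intro k _
    exact mul_le_mul_of_nonneg_left (sq_sum_le_card_mul_sum_sq)
      (mul_nonneg (S.ca_om_nonneg b i) (S.ca_om_nonneg b k))
  have h2 : ∑ i, ∑ k, S.om b i * S.om b k * ((M.card : ℝ) * ∑ e ∈ M, (S.v e i * S.v e k) ^ 2) =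
      (M.card : ℝ) * ∑ e ∈ M, (∑ k, S.om b k * S.v e k ^ 2) ^ 2 := by
    have h3 : ∀ e : V, (∑ k, S.om b k * S.v e k ^ 2) ^ 2 =
        ∑ i, ∑ k, S.om b i * S.om b k * (S.v e i * S.v e k) ^ 2 := by
      intro e
      rw [sq, sum_mul_sum]
      apply sum_congr rfl
      intro i _
      apply sum_congr rfl
      intro k _
      ring
    simp_rw [h3]
    calc ∑ i, ∑ k, S.om b i * S.om b k * ((M.card : ℝ) * ∑ e ∈ M, (S.v e i * S.v e k) ^ 2) =
        ∑ i, ∑ k, ∑ e ∈ M, (M.card : ℝ) * (S.om b i * S.om b k * (S.v e i * S.v e k) ^ 2) := by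
          apply sum_congr rfl
          intro i _
          apply sum_congr rfl
          intro k _
          rw [mul_sum, mul_sum]
          apply sum_congr rfl
          intro e _
          ring
      _ = ∑ i, ∑ e ∈ M, ∑ k, (M.card : ℝ) * (S.om b i * S.om b k * (S.v e i * S.v e k) ^ 2) :=
          sum_congr rfl fun i _ => sum_comm
      _ = ∑ e ∈ M, ∑ i, ∑ k, (M.card : ℝ) * (S.om b i * S.om b k * (S.v e i * S.v e k) ^ 2) :=
          sum_comm
      _ = (M.card : ℝ) * ∑ e ∈ M, ∑ i, ∑ k, S.om b i * S.om b k * (S.v e i * S.v e k) ^ 2 := by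
          simp_rw [mul_sum]
  rw [h2] at h1
  refine h1.trans ?_
  have h3 : ∑ e ∈ M, (∑ k, S.om b k * S.v e k ^ 2) ^ 2 ≤ (M.card : ℝ) * c ^ 2 := by
    calc ∑ e ∈ M, (∑ k, S.om b k * S.v e k ^ 2) ^ 2 ≤ ∑ e ∈ M, c ^ 2 := by
          apply sum_le_sum
          intro e he
          apply pow_le_pow_left₀ _ (h e he)
          exact sum_nonneg fun k _ => mul_nonneg (S.ca_om_nonneg b k) (sq_nonneg _)
      _ = (M.card : ℝ) * c ^ 2 := by simp
  calc (M.card : ℝ) * ∑ e ∈ M, (∑ k, S.om b k * S.v e k ^ 2) ^ 2 ≤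
      (M.card : ℝ) * ((M.card : ℝ) * c ^ 2) := mul_le_mul_of_nonneg_left h3 (Nat.cast_nonneg _)
    _ = _ := by ring

/-- A sum of vectors, weighted norm. -/
theorem ca_lin_rank (T : Finset κ) (o : κ → ℝ) (ho : ∀ k, 0 ≤ o k) (M : Finset V) {c : ℝ}
    (h : ∀ e ∈ M, ∑ k ∈ T, o k * S.v e k ^ 2 ≤ c) :
    ∑ k ∈ T, o k * (∑ e ∈ M, S.v e k) ^ 2 ≤ (M.card : ℝ) ^ 2 * c := by
  calc ∑ k ∈ T, o k * (∑ e ∈ M, S.v e k) ^ 2 ≤
      ∑ k ∈ T, o k * ((M.card : ℝ) * ∑ e ∈ M, S.v e k ^ 2) := by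
        apply sum_le_sum
        intro k _
        exact mul_le_mul_of_nonneg_left sq_sum_le_card_mul_sum_sq (ho k)
    _ = (M.card : ℝ) * ∑ e ∈ M, ∑ k ∈ T, o k * S.v e k ^ 2 := by
        rw [sum_comm, mul_sum]
        apply sum_congr rfl
        intro k _
        rw [mul_sum, mul_sum, mul_sum]
        apply sum_congr rfl
        intro e _
        ring
    _ ≤ (M.card : ℝ) * ∑ e ∈ M, c :=
        mul_le_mul_of_nonneg_left (sum_le_sum h) (Nat.cast_nonneg _)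
    _ = (M.card : ℝ) ^ 2 * c := by
        rw [sum_const, nsmul_eq_mul]
        ring

/-! ### Block differences -/

theorem ca_card_inter (T H : Finset V) :
    ((T ∩ H).card : ℝ) = ∑ e ∈ T, if e ∈ H then (1 : ℝ) else 0 := by
  rw [sum_boole, filter_mem_eq_inter]

theorem ca_diff {L b : ℕ} {s sR : St V κ} {Kb : ℝ} {w : V → ℕ}
    (hR : S.InvR L b s sR Kb) (hW : S.CrossW L b sR w) {z i : ℕ} (hz : z < S.N b)
    (hi : i < S.g b ^ 8) {W : Finset V} (hWd : W = (Bl sR z).filter fun e => w e = i) :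
    ∃ (ξ ξ' : κ → ℝ) (ξ2 ξ2' : κ → κ → ℝ) (ξ3 ξ3' : ℕ → ℝ),
      S.Fresh L b ξ ξ2 ξ3 ∧ S.Fresh L b ξ' ξ2' ξ3' ∧
      (∀ k, ∑ e ∈ W \ S.H b, S.v e k =
        1 / (S.g b : ℝ) ^ 8 * S.Ls b (Bl sR z) k + ξ' k - ξ k) ∧
      (∀ i' k, ∑ e ∈ W \ S.H b, S.v e i' * S.v e k =
        1 / (S.g b : ℝ) ^ 8 * S.Qs b (Bl sR z) i' k + ξ2' i' k - ξ2 i' k) ∧
      (∀ l, b < l → l ≤ L → (((W \ S.H b) ∩ S.H l).card : ℝ) =
        1 / (S.g b : ℝ) ^ 8 * (((Bl sR z \ S.H b) ∩ S.H l).card : ℝ) + ξ3' l - ξ3 l) := by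
  obtain ⟨ξ, ξ2, ξ3, hf, ha, hb, hc⟩ := hW.pre z hz i hi.le
  obtain ⟨ξ', ξ2', ξ3', hf', ha', hb', hc'⟩ := hW.pre z hz (i + 1) hi
  subst hWd
  refine ⟨ξ, ξ', ξ2, ξ2', ξ3, ξ3', hf, hf', ?_, ?_, ?_⟩
  · intro k
    rw [S.ca_sum_new, ha k, ha' k]
    push_cast
    ring
  · intro i' k
    rw [S.ca_sum_new, hb i' k, hb' i' k]
    push_cast
    ring
  · intro l hl hl'
    rw [ca_card_inter, S.ca_sum_new, ← ca_card_inter, ← ca_card_inter, hc l hl hl', hc' l hl hl']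
    push_cast
    ring

theorem ca_split {b : ℕ} (W : Finset V) (f : V → ℝ) :
    ∑ e ∈ W \ S.H (b + 1), f e =
      ∑ e ∈ W \ S.H b, f e - ∑ e ∈ (W \ S.H b) ∩ S.H (b + 1), f e := by
  have h1 : W \ S.H (b + 1) = (W \ S.H b) \ S.H (b + 1) := by
    ext e
    simp only [mem_sdiff]
    have hm : e ∈ S.H b → e ∈ S.H (b + 1) := fun h => S.H_mono (Nat.le_succ b) h
    tauto
  have h2 : (W \ S.H b) \ S.H (b + 1) = (W \ S.H b) \ ((W \ S.H b) ∩ S.H (b + 1)) := by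
    ext e
    simp only [mem_sdiff, mem_inter]
    tauto
  rw [h1, h2, ← sum_sdiff (inter_subset_left : (W \ S.H b) ∩ S.H (b + 1) ⊆ W \ S.H b)]
  ring

theorem ca_nu_posR (b : ℕ) : (0 : ℝ) < S.nu b := by exact_mod_cast S.nu_pos b

theorem ca_nu_succR (b : ℕ) : (S.nu (b + 1) : ℝ) = S.nu b * S.g b := by
  rw [S.nu_succ]
  push_cast
  ring

theorem ca_x_sqrt (b : ℕ) : Real.sqrt (S.x b) ≤ S.x b :=
  by
  rw [Real.sqrt_le_left (S.ca_x_posi b).le]
  have := S.ca_x_one b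
  nlinarith

/-- Number of light elements of a new block that are heavy at a later level. -/
theorem ca_cntM {L b : ℕ} {s sR : St V κ} {Kb : ℝ} {w : V → ℕ}
    (hR : S.InvR L b s sR Kb) (hW : S.CrossW L b sR w) {z i : ℕ} (hz : z < S.N b)
    (hi : i < S.g b ^ 8) {W : Finset V} (hWd : W = (Bl sR z).filter fun e => w e = i)
    {l : ℕ} (hl : b < l) (hl' : l ≤ L) :
    (((W \ S.H b) ∩ S.H l).card : ℝ) ≤ (S.H l).card / (S.N (b + 1) : ℝ) +
      (1 + 2 * Real.sqrt (S.x b)) * ((S.nu l : ℝ) / S.nu (b + 1)) ^ 6 := by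
  obtain ⟨ξ, ξ', ξ2, ξ2', ξ3, ξ3', hf, hf', -, -, hc⟩ := S.ca_diff hR hW hz hi hWd
  rw [hc l hl hl']
  have hg := S.ca_g_posR b
  have hnu := S.ca_nu_posR (b + 1)
  have hnul := S.ca_nu_posR l
  set r : ℝ := (S.nu l : ℝ) / S.nu (b + 1) with hr
  have hr1 : 1 ≤ r := by
    rw [hr, one_le_div hnu]
    exact_mod_cast S.nu_mono (by omega : b + 1 ≤ l)
  have hr0 : 0 ≤ r := by linarith
  have hx := S.ca_x_posi b
  -- the fresh errors
  have hx3 : ∀ t : ℕ → ℝ, t l ^ 2 ≤ S.x b * r ^ 8 → |t l| ≤ Real.sqrt (S.x b) * r ^ 4 := by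
    intro t ht
    apply abs_le_of_sq_le_sq _ (by positivity)
    rw [mul_pow, Real.sq_sqrt hx.le, ← pow_mul]
    exact ht
  have h3 := hx3 ξ3 (hf.c7 l hl hl')
  have h3' := hx3 ξ3' (hf'.c7 l hl hl')
  have h46 : r ^ 4 ≤ r ^ 6 := pow_le_pow_right₀ hr1 (by norm_num)
  have h46' : Real.sqrt (S.x b) * r ^ 4 ≤ Real.sqrt (S.x b) * r ^ 6 :=
    mul_le_mul_of_nonneg_left h46 (Real.sqrt_nonneg _)
  -- the main part
  have hcn := hR.cnt z hz l hl.le hl'
  have hsub : (((Bl sR z \ S.H b) ∩ S.H l).card : ℝ) ≤ ((Bl sR z ∩ S.H l).card : ℝ) := by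
    exact_mod_cast card_le_card (inter_subset_inter_right sdiff_subset)
  have hratio : (S.nu l : ℝ) / S.nu b = r * S.g b := by
    rw [hr, S.ca_nu_succR b]
    have := S.ca_nu_posR b
    field_simp
  have hN : (S.N (b + 1) : ℝ) = S.N b * (S.g b : ℝ) ^ 8 := by
    rw [S.N_succ]
    push_cast
    ring
  have hNb : (0 : ℝ) < S.N b := by exact_mod_cast S.N_pos b
  have hmain : 1 / (S.g b : ℝ) ^ 8 * (((Bl sR z \ S.H b) ∩ S.H l).card : ℝ) ≤
      (S.H l).card / (S.N (b + 1) : ℝ) + r ^ 6 := by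
    calc 1 / (S.g b : ℝ) ^ 8 * (((Bl sR z \ S.H b) ∩ S.H l).card : ℝ) ≤
        1 / (S.g b : ℝ) ^ 8 * ((S.H l).card / (S.N b : ℝ) +
          3 * S.x b * ((S.nu l : ℝ) / S.nu b) ^ 6) :=
          mul_le_mul_of_nonneg_left (hsub.trans hcn) (by positivity)
      _ = (S.H l).card / (S.N (b + 1) : ℝ) + (3 * S.x b / (S.g b : ℝ) ^ 2) * r ^ 6 := by
          rw [hratio, hN]
          field_simp
      _ ≤ (S.H l).card / (S.N (b + 1) : ℝ) + 1 * r ^ 6 := by
          have h1 : 3 * S.x b / (S.g b : ℝ) ^ 2 ≤ 1 := by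
            rw [div_le_one (by positivity)]
            have h2 := S.ca_g_pow_ge b 2
            have h3 := S.ca_cx_le b (C := 3) (a := 1) (c := 75 * 2) (by norm_num) (by norm_num)
            rw [pow_one] at h3
            linarith
          have h2 : (3 * S.x b / (S.g b : ℝ) ^ 2) * r ^ 6 ≤ 1 * r ^ 6 :=
            mul_le_mul_of_nonneg_right h1 (by positivity)
          linarith
      _ = _ := by ring
  have h5 := (abs_le.1 h3).1
  have h5' := (abs_le.1 h3').2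
  have : (1 + 2 * Real.sqrt (S.x b)) * r ^ 6 = r ^ 6 + Real.sqrt (S.x b) * r ^ 6 +
    Real.sqrt (S.x b) * r ^ 6 := by ring
  rw [this]
  linarith

/-- Heavy light ones, crude. -/
theorem ca_cntM' {L b : ℕ} {s sR : St V κ} {Kb : ℝ} {w : V → ℕ} (hb : b + 1 ≤ L)
    (hR : S.InvR L b s sR Kb) (hW : S.CrossW L b sR w) {z i : ℕ} (hz : z < S.N b)
    (hi : i < S.g b ^ 8) {W : Finset V} (hWd : W = (Bl sR z).filter fun e => w e = i) :
    (((W \ S.H b) ∩ S.H (b + 1)).card : ℝ) ≤ 4 * S.x b := by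
  have h := S.ca_cntM hR hW hz hi hWd (Nat.lt_succ_self b) hb
  have hH := S.H_card (b + 1)
  have hN : (0 : ℝ) < S.N (b + 1) := by exact_mod_cast S.N_pos (b + 1)
  have h1 : ((S.H (b + 1)).card : ℝ) / (S.N (b + 1) : ℝ) ≤ 1 := by
    rw [div_le_one hN]
    have h2 : 1 ≤ S.x (b + 1) ^ 10 := one_le_pow₀ (S.ca_x_one _)
    have h3 : (0 : ℝ) ≤ ((S.H (b + 1)).card : ℝ) := Nat.cast_nonneg _
    nlinarith
  rw [Nat.succ_eq_add_one, div_self (S.ca_nu_posR (b + 1)).ne'] at h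
  have h2 := S.ca_x_sqrt b
  have h3 := S.ca_x_big b
  norm_num at h h3
  linarith

theorem ca_lin4 (T : Finset κ) (o a b c d : κ → ℝ) (ho : ∀ k, 0 ≤ o k) :
    ∑ k ∈ T, o k * (a k + b k - c k - d k) ^ 2 ≤
      4 * (∑ k ∈ T, o k * a k ^ 2 + ∑ k ∈ T, o k * b k ^ 2 + ∑ k ∈ T, o k * c k ^ 2 +
        ∑ k ∈ T, o k * d k ^ 2) := by
  rw [← sum_add_distrib, ← sum_add_distrib, ← sum_add_distrib, mul_sum]
  apply sum_le_sum
  intro k _
  have h2 : (a k + b k - c k - d k) ^ 2 ≤ 4 * (a k ^ 2 + b k ^ 2 + c k ^ 2 + d k ^ 2) := by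
    nlinarith [sq_nonneg (a k - b k), sq_nonneg (a k + c k), sq_nonneg (a k + d k),
      sq_nonneg (b k + c k), sq_nonneg (b k + d k), sq_nonneg (c k - d k)]
  calc o k * (a k + b k - c k - d k) ^ 2 ≤ o k * (4 * (a k ^ 2 + b k ^ 2 + c k ^ 2 + d k ^ 2)) :=
        mul_le_mul_of_nonneg_left h2 (ho k)
    _ = _ := by ring

theorem ca_om_succ_sum (b : ℕ) (T : Finset κ) (f : κ → ℝ) :
    ∑ k ∈ T, S.om (b + 1) k * f k = (S.g b : ℝ) ^ 4 * ∑ k ∈ T, S.om b k * f k := by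
  rw [mul_sum]
  apply sum_congr rfl
  intro k _
  rw [S.om_succ]
  ring

/-- The boundary value after the last position. -/
theorem ca_P_wrap {L b : ℕ} {s sR : St V κ} {Kb : ℝ} (hR : S.InvR L b s sR Kb)
    {z : ℕ} (hz : z < S.N b) : ∃ z' < S.N b, ∀ k, S.P sR (z + 1) k = S.P sR z' k := by
  by_cases h : z + 1 < S.N b
  · exact ⟨z + 1, h, fun k => rfl⟩
  · have h1 : z + 1 = S.N b := by omega
    exact ⟨0, S.N_pos b, fun k => by rw [h1]; exact S.P_N hR.pos_lt k⟩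

theorem ca_x_next (b : ℕ) : S.x (b + 1) ≤ S.x b ^ 2 := by
  have := S.x_dn b (a := 1) (c := 2) (by norm_num)
  simpa using this

theorem ca_not_D {b : ℕ} {k : κ} (h : k ∈ S.F b) : k ∉ S.D (b + 1) := by
  intro hD
  simp only [F, D, mem_filter, mem_univ, true_and] at h hD
  have hg := S.ca_g_posR b
  have h1 := S.q_succ b k
  have hq := S.q_pos (b + 1) k
  have h2 := S.g_le b
  have h3 : 1 ≤ S.x (b + 1) ^ 20 := one_le_pow₀ (S.ca_x_one _)
  have h4 : S.q (b + 1) k ≤ 1 := by nlinarith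
  have h5 : S.q b k ≤ 2 * S.x b ^ 75 := by
    rw [← h1]
    nlinarith
  have h6 := S.ca_cx_le b (C := 3) (a := 75) (c := 120) (by norm_num) (by norm_num)
  have h7 : 0 < S.x b ^ 75 := pow_pos (S.ca_x_posi b) _
  linarith

/-- Directions neither live at level `b + 1` nor dead at level `b` have a large kernel. -/
theorem ca_kap_lb {b : ℕ} {k : κ} (h1 : k ∉ S.F (b + 1)) (h2 : k ∉ S.D b) :
    1 ≤ S.x b ^ 3 * kap (S.q b k) := by
  have hx := S.ca_x_one b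
  have hk := kap_pos (S.q_pos b k)
  by_cases h : k ∈ S.F b
  · have h3 := S.kap_mid h1 (S.ca_not_D h)
    have h4 := S.kap_succ b k
    have h5 := S.ca_x_next b
    have hx' := S.ca_x_posi (b + 1)
    have h6 : (1 : ℝ) ≤ S.x (b + 1) * kap (S.q (b + 1) k) := by
      have := mul_le_mul_of_nonneg_left h3 hx'.le
      rwa [mul_inv_cancel₀ hx'.ne'] at this
    calc (1 : ℝ) ≤ S.x (b + 1) * kap (S.q (b + 1) k) := h6
      _ ≤ S.x (b + 1) * (S.x b * kap (S.q b k)) := mul_le_mul_of_nonneg_left h4 hx'.le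
      _ ≤ S.x b ^ 2 * (S.x b * kap (S.q b k)) :=
        mul_le_mul_of_nonneg_right h5 (by positivity)
      _ = _ := by ring
  · have h3 := S.kap_mid h h2
    have hx' := S.ca_x_posi b
    have h6 : (1 : ℝ) ≤ S.x b * kap (S.q b k) := by
      have := mul_le_mul_of_nonneg_left h3 hx'.le
      rwa [mul_inv_cancel₀ hx'.ne'] at this
    have h7 : S.x b * kap (S.q b k) ≤ S.x b ^ 3 * kap (S.q b k) := by
      apply mul_le_mul_of_nonneg_right _ hk.le
      calc S.x b = S.x b ^ 1 := (pow_one _).symm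
        _ ≤ S.x b ^ 3 := pow_le_pow_right₀ hx (by norm_num)
    linarith

/-- Sum over middle directions from the kernel weighted sum. -/
theorem ca_mid_sum {b : ℕ} (T : Finset κ) (hT : ∀ k ∈ T, k ∉ S.F (b + 1) ∧ k ∉ S.D b)
    (f : κ → ℝ) (hf : ∀ k, 0 ≤ f k) :
    ∑ k ∈ T, f k ≤ S.x b ^ 3 * ∑ k ∈ T, kap (S.q b k) * f k := by
  rw [mul_sum]
  apply sum_le_sum
  intro k hk
  have h := S.ca_kap_lb (hT k hk).1 (hT k hk).2
  calc f k = 1 * f k := (one_mul _).symm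
    _ ≤ (S.x b ^ 3 * kap (S.q b k)) * f k := mul_le_mul_of_nonneg_right h (hf k)
    _ = _ := by ring

theorem ca_sum_v_sq (M : Finset V) (T : Finset κ) :
    ∑ k ∈ T, (∑ e ∈ M, S.v e k) ^ 2 ≤ (M.card : ℝ) ^ 2 := by
  have h := S.ca_lin_rank T (fun _ => 1) (fun _ => zero_le_one) M (c := 1) (by
    intro e _
    calc ∑ k ∈ T, 1 * S.v e k ^ 2 = ∑ k ∈ T, S.v e k ^ 2 := by simp
      _ ≤ ∑ k, S.v e k ^ 2 := sum_le_sum_of_subset_of_nonneg (subset_univ _)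
          (fun _ _ _ => sq_nonneg _)
      _ ≤ 1 := S.hv e)
  simpa using h

theorem ca_Ls_eq (b : ℕ) (B : Finset V) (k : κ) :
    S.Ls b B k = ∑ e ∈ B, S.v e k - ∑ e ∈ B ∩ S.H b, S.v e k := by
  unfold Ls
  have h2 : B \ S.H b = B \ (B ∩ S.H b) := by
    ext e
    simp only [mem_sdiff, mem_inter]
    tauto
  rw [h2, ← sum_sdiff (inter_subset_left : B ∩ S.H b ⊆ B)]
  ring

/-- Light sums of a refreshed block, in all directions not live at the next level. -/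
theorem ca_LsB {L b : ℕ} {s sR : St V κ} {Kb : ℝ} (hR : S.InvR L b s sR Kb) {z : ℕ}
    (hz : z < S.N b) :
    ∑ k ∈ univ \ S.F (b + 1), S.om b k * S.Ls b (Bl sR z) k ^ 2 ≤ S.x b ^ 413 := by
  have hx1 := S.ca_x_one b
  have hsub : univ \ S.F (b + 1) = (univ \ S.F b) ∪ (S.F b \ S.F (b + 1)) := by
    ext k
    simp only [mem_sdiff, mem_union, mem_univ, true_and]
    constructor
    · intro h
      by_cases hk : k ∈ S.F b
      · exact Or.inr ⟨hk, h⟩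
      · exact Or.inl hk
    · rintro (h | h)
      · exact fun h' => h (S.F_anti b h')
      · exact h.2
  have hdis : Disjoint (univ \ S.F b) (S.F b \ S.F (b + 1)) := by
    rw [disjoint_left]
    intro k h1 h2
    exact (mem_sdiff.1 h1).2 (mem_sdiff.1 h2).1
  rw [hsub, sum_union hdis]
  have h1 := hR.Lf z hz
  obtain ⟨z', hz', hP⟩ := S.ca_P_wrap hR hz
  have hT : ∀ k ∈ S.F b \ S.F (b + 1), k ∉ S.F (b + 1) ∧ k ∉ S.D b := by
    intro k hk
    rw [mem_sdiff] at hk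
    exact ⟨hk.2, disjoint_left.1 (S.disj_FD b) hk.1⟩
  have hmid : ∀ z < S.N b, ∑ k ∈ S.F b \ S.F (b + 1), S.P sR z k ^ 2 ≤ S.x b ^ 15 := by
    intro z hz
    have h2 := S.ca_mid_sum (b := b) (S.F b \ S.F (b + 1)) hT (fun k => S.P sR z k ^ 2)
      (fun _ => sq_nonneg _)
    have h3 : ∑ k ∈ S.F b \ S.F (b + 1), kap (S.q b k) * S.P sR z k ^ 2 ≤ S.x b ^ 12 := by
      refine le_trans ?_ (hR.PF2 z hz)
      exact sum_le_sum_of_subset_of_nonneg sdiff_subset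
        (fun k _ _ => mul_nonneg (kap_pos (S.q_pos b k)).le (sq_nonneg _))
    calc _ ≤ _ := h2
      _ ≤ S.x b ^ 3 * S.x b ^ 12 := mul_le_mul_of_nonneg_left h3 (by positivity)
      _ = _ := by ring
  have h2 : ∑ k ∈ S.F b \ S.F (b + 1), S.om b k * S.Ls b (Bl sR z) k ^ 2 ≤
      3 * (S.x b ^ 15 + S.x b ^ 15 + 4 * S.x b ^ 2) := by
    have h3 : ∀ k ∈ S.F b \ S.F (b + 1), S.om b k * S.Ls b (Bl sR z) k ^ 2 ≤
        3 * (S.P sR z' k ^ 2 + S.P sR z k ^ 2 + (∑ e ∈ Bl sR z ∩ S.H b, S.v e k) ^ 2) := by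
      intro k hk
      have hom : S.om b k ≤ 1 := by
        unfold om
        apply inv_le_one_of_one_le₀
        apply one_le_pow₀
        have hF := (mem_sdiff.1 hk).1
        simp only [F, mem_filter, mem_univ, true_and] at hF
        exact (one_le_pow₀ hx1).trans hF
      have hL : S.Ls b (Bl sR z) k = S.P sR z' k - S.P sR z k -
          ∑ e ∈ Bl sR z ∩ S.H b, S.v e k := by
        rw [S.ca_Ls_eq, ← hP k, S.P_succ]
        ring
      have h4 : S.Ls b (Bl sR z) k ^ 2 ≤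
        3 * (S.P sR z' k ^ 2 + S.P sR z k ^ 2 + (∑ e ∈ Bl sR z ∩ S.H b, S.v e k) ^ 2) := by
        rw [hL]
        nlinarith [sq_nonneg (S.P sR z' k + S.P sR z k),
          sq_nonneg (S.P sR z' k + ∑ e ∈ Bl sR z ∩ S.H b, S.v e k),
          sq_nonneg (S.P sR z k - ∑ e ∈ Bl sR z ∩ S.H b, S.v e k)]
      calc S.om b k * S.Ls b (Bl sR z) k ^ 2 ≤ 1 * S.Ls b (Bl sR z) k ^ 2 :=
            mul_le_mul_of_nonneg_right hom (sq_nonneg _)
        _ ≤ _ := by rw [one_mul]; exact h4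
    refine (sum_le_sum h3).trans ?_
    rw [← mul_sum, sum_add_distrib, sum_add_distrib]
    have h5 : ∑ k ∈ S.F b \ S.F (b + 1), (∑ e ∈ Bl sR z ∩ S.H b, S.v e k) ^ 2 ≤
        4 * S.x b ^ 2 := by
      refine (S.ca_sum_v_sq _ _).trans ?_
      have h6 := hR.cnt0 z hz
      have h7 : (0 : ℝ) ≤ ((Bl sR z ∩ S.H b).card : ℝ) := Nat.cast_nonneg _
      calc ((Bl sR z ∩ S.H b).card : ℝ) ^ 2 ≤ (2 * S.x b) ^ 2 := pow_le_pow_left₀ h7 h6 2
        _ = _ := by ring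
    have h8 := hmid z hz
    have h9 := hmid z' hz'
    linarith
  have h3 := S.ca_cx_le b (C := 10) (a := 15) (c := 412) (by norm_num) (by norm_num)
  have h4 := S.ca_cx_le b (C := 20) (a := 2) (c := 412) (by norm_num) (by norm_num)
  have h5 := S.ca_cx_le b (C := 10) (a := 412) (c := 413) (by norm_num) (by norm_num)
  have h6 : 0 ≤ S.x b ^ 412 := by positivity
  linarith

/-- Fresh errors in the directions not live at the next level. -/
theorem ca_fresh_mid {L b : ℕ} {ξ : κ → ℝ} {ξ2 : κ → κ → ℝ} {ξ3 : ℕ → ℝ}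
    (hf : S.Fresh L b ξ ξ2 ξ3) :
    ∑ k ∈ univ \ S.F (b + 1), S.om b k * ξ k ^ 2 ≤ 2 * S.x b ^ 95 := by
  have hx1 := S.ca_x_one b
  have h0 : ∑ k ∈ univ \ S.F (b + 1), S.om b k * ξ k ^ 2 ≤
      ∑ k ∈ S.D b, S.om b k * ξ k ^ 2 +
      ∑ k ∈ (univ \ S.F (b + 1)) \ S.D b, S.om b k * ξ k ^ 2 := by
    have hdis : Disjoint (S.D b) ((univ \ S.F (b + 1)) \ S.D b) := disjoint_sdiff
    rw [← sum_union hdis]
    apply sum_le_sum_of_subset_of_nonneg
    · intro k hk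
      simp only [mem_union, mem_sdiff, mem_univ, true_and] at *
      tauto
    · intro k _ _
      exact mul_nonneg (S.ca_om_nonneg b k) (sq_nonneg _)
  have h1 := hf.c5
  have h2 : ∑ k ∈ (univ \ S.F (b + 1)) \ S.D b, S.om b k * ξ k ^ 2 ≤ S.x b ^ 95 := by
    have h3 : ∑ k ∈ (univ \ S.F (b + 1)) \ S.D b, S.om b k * ξ k ^ 2 ≤
        S.x b ^ 80 * ∑ k ∈ (univ \ S.F (b + 1)) \ S.D b, ξ k ^ 2 := by
      rw [mul_sum]
      apply sum_le_sum
      intro k hk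
      exact mul_le_mul_of_nonneg_right (S.om_le (mem_sdiff.1 hk).2) (sq_nonneg _)
    have h4 : ∑ k ∈ (univ \ S.F (b + 1)) \ S.D b, ξ k ^ 2 ≤ S.x b ^ 15 := by
      have h5 := S.ca_mid_sum (b := b) ((univ \ S.F (b + 1)) \ S.D b)
        (fun k hk => ⟨(mem_sdiff.1 (mem_sdiff.1 hk).1).2, (mem_sdiff.1 hk).2⟩)
        (fun k => ξ k ^ 2) (fun _ => sq_nonneg _)
      have h6 : ∑ k ∈ (univ \ S.F (b + 1)) \ S.D b, kap (S.q b k) * ξ k ^ 2 ≤ S.x b ^ 12 := by
        refine le_trans ?_ hf.c3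
        exact sum_le_sum_of_subset_of_nonneg (subset_univ _)
          (fun k _ _ => mul_nonneg (kap_pos (S.q_pos b k)).le (sq_nonneg _))
      calc _ ≤ _ := h5
        _ ≤ S.x b ^ 3 * S.x b ^ 12 := mul_le_mul_of_nonneg_left h6 (by positivity)
        _ = _ := by ring
    calc _ ≤ _ := h3
      _ ≤ S.x b ^ 80 * S.x b ^ 15 := mul_le_mul_of_nonneg_left h4 (by positivity)
      _ = _ := by ring
  have h3 : S.x b ≤ S.x b ^ 95 := by
    calc S.x b = S.x b ^ 1 := (pow_one _).symm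
      _ ≤ S.x b ^ 95 := pow_le_pow_right₀ hx1 (by norm_num)
  linarith

/-- Decomposition of the new light sums. -/
theorem ca_Ls_new {b : ℕ} {ξ ξ' : κ → ℝ} {B W : Finset V} (k : κ)
    (h : ∑ e ∈ W \ S.H b, S.v e k = 1 / (S.g b : ℝ) ^ 8 * S.Ls b B k + ξ' k - ξ k) :
    S.Ls (b + 1) W k = 1 / (S.g b : ℝ) ^ 8 * S.Ls b B k + ξ' k - ξ k -
      ∑ e ∈ (W \ S.H b) ∩ S.H (b + 1), S.v e k := by
  unfold Ls at *
  rw [S.ca_split, h]

theorem cross_X {L b : ℕ} {s sR : St V κ} {Kb : ℝ} {w : V → ℕ} (hb : b + 1 ≤ L)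
    (hR : S.InvR L b s sR Kb) (hW : S.CrossW L b sR w) :
    ∀ z < S.N (b + 1), S.NX (b + 1) (S.Xd (b + 1) (Bl (S.crossSt b sR w) z)) ≤
      S.x (b + 1) ^ 800 := by
  intro z' hz'
  obtain ⟨z, hz, i, hi, rfl⟩ := S.pos_split hz'
  set W := Bl (S.crossSt b sR w) (z * S.g b ^ 8 + i) with hWdef
  have hWd : W = (Bl sR z).filter fun e => w e = i := S.cross_Bl hR hW hi
  obtain ⟨ξ, ξ', ξ2, ξ2', ξ3, ξ3', hf, hf', -, hq, -⟩ := S.ca_diff hR hW hz hi hWd
  have hg := S.ca_g_posR b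
  have hx := S.ca_x_posi b
  have hx1 := S.ca_x_one b
  have hXd : S.Xd (b + 1) W = fun i' k => (1 / (S.g b : ℝ) ^ 8 * S.Xd b (Bl sR z) i' k) +
      ξ2' i' k - ξ2 i' k - ∑ e ∈ (W \ S.H b) ∩ S.H (b + 1), S.v e i' * S.v e k := by
    funext i' k
    have h1 : S.Qs (b + 1) W i' k = ∑ e ∈ W \ S.H b, S.v e i' * S.v e k -
        ∑ e ∈ (W \ S.H b) ∩ S.H (b + 1), S.v e i' * S.v e k := by
      unfold Qs
      rw [S.ca_split]
    unfold Xd
    rw [h1, hq i' k]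
    have h2 : S.q b i' ^ 8 = S.q (b + 1) i' ^ 8 * (S.g b : ℝ) ^ 8 := by
      rw [← S.q_succ b i', mul_pow]
    split_ifs
    · rw [h2]
      field_simp
      ring
    · ring
  rw [hXd]
  refine (S.ca_NX_add4 (b + 1) _ _ _ _).trans ?_
  rw [S.ca_NX_succ, S.ca_NX_succ, S.ca_NX_succ, S.ca_NX_succ, S.ca_NX_smul]
  have hA : (S.g b : ℝ) ^ 8 * ((1 / (S.g b : ℝ) ^ 8) ^ 2 * S.NX b (S.Xd b (Bl sR z))) ≤
      S.x b ^ 202 := by
    have h1 : (S.g b : ℝ) ^ 8 * ((1 / (S.g b : ℝ) ^ 8) ^ 2 * S.NX b (S.Xd b (Bl sR z))) =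
        S.NX b (S.Xd b (Bl sR z)) / (S.g b : ℝ) ^ 8 := by
      field_simp
    rw [h1, div_le_iff₀ (by positivity)]
    calc S.NX b (S.Xd b (Bl sR z)) ≤ S.x b ^ 802 := hR.X z hz
      _ = S.x b ^ 202 * S.x b ^ (75 * 8) := by rw [← pow_add]
      _ ≤ S.x b ^ 202 * (S.g b : ℝ) ^ 8 :=
        mul_le_mul_of_nonneg_left (S.ca_g_pow_ge b 8) (by positivity)
  have hg8 := S.ca_g_pow_le b 8
  have hFr : ∀ X : κ → κ → ℝ, S.NX b X ≤ S.x b ^ 185 →
      (S.g b : ℝ) ^ 8 * S.NX b X ≤ 256 * S.x b ^ 785 := by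
    intro X hX
    calc (S.g b : ℝ) ^ 8 * S.NX b X ≤ (S.g b : ℝ) ^ 8 * S.x b ^ 185 :=
          mul_le_mul_of_nonneg_left hX (by positivity)
      _ ≤ (2 ^ 8 * S.x b ^ (75 * 8)) * S.x b ^ 185 :=
          mul_le_mul_of_nonneg_right hg8 (by positivity)
      _ = 256 * S.x b ^ 785 := by
          rw [mul_assoc, ← pow_add]
          norm_num
  have hB := hFr _ hf'.c6
  have hC := hFr _ hf.c6
  have hD : (S.g b : ℝ) ^ 8 * S.NX b (fun i' k => ∑ e ∈ (W \ S.H b) ∩ S.H (b + 1),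
      S.v e i' * S.v e k) ≤ 16384 * S.x b ^ 762 := by
    have h1 := S.ca_NX_rank b ((W \ S.H b) ∩ S.H (b + 1)) (c := 2 * S.x b ^ 80) (by positivity)
      (fun e he => S.light_om (mem_sdiff.1 (mem_inter.1 he).1).2)
    have h2 := S.ca_cntM' hb hR hW hz hi hWd
    have h3 : (((W \ S.H b) ∩ S.H (b + 1)).card : ℝ) ^ 2 ≤ (4 * S.x b) ^ 2 :=
      pow_le_pow_left₀ (Nat.cast_nonneg _) h2 2
    calc _ ≤ (2 ^ 8 * S.x b ^ (75 * 8)) * ((4 * S.x b) ^ 2 * (2 * S.x b ^ 80) ^ 2) := by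
          apply mul_le_mul hg8 (h1.trans (mul_le_mul_of_nonneg_right h3 (by positivity)))
          · unfold NX
            exact sum_nonneg fun i _ => sum_nonneg fun k _ =>
              mul_nonneg (mul_nonneg (S.ca_om_nonneg b i) (S.ca_om_nonneg b k)) (sq_nonneg _)
          · positivity
      _ = 16384 * S.x b ^ 762 := by ring
  have h1 := S.ca_cx_le b (C := 4) (a := 202) (c := 786) (by norm_num) (by norm_num)
  have h2 := S.ca_cx_le b (C := 2048) (a := 785) (c := 786) (by norm_num) (by norm_num)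
  have h3 := S.ca_cx_le b (C := 65536) (a := 762) (c := 786) (by norm_num) (by norm_num)
  have h4 := S.ca_cx_le b (C := 3) (a := 786) (c := 787) (by norm_num) (by norm_num)
  have h5 := S.x_up b (a := 787) (c := 800) (by norm_num)
  linarith

theorem cross_Lf {L b : ℕ} {s sR : St V κ} {Kb : ℝ} {w : V → ℕ} (hb : b + 1 ≤ L)
    (hR : S.InvR L b s sR Kb) (hW : S.CrossW L b sR w) :
    ∀ z < S.N (b + 1), ∑ k ∈ univ \ S.F (b + 1), S.om (b + 1) k *
      S.Ls (b + 1) (Bl (S.crossSt b sR w) z) k ^ 2 ≤ S.x (b + 1) ^ 410 := by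
  intro z' hz'
  obtain ⟨z, hz, i, hi, rfl⟩ := S.pos_split hz'
  set W := Bl (S.crossSt b sR w) (z * S.g b ^ 8 + i) with hWdef
  have hWd : W = (Bl sR z).filter fun e => w e = i := S.cross_Bl hR hW hi
  obtain ⟨ξ, ξ', ξ2, ξ2', ξ3, ξ3', hf, hf', hl, -, -⟩ := S.ca_diff hR hW hz hi hWd
  have hg := S.ca_g_posR b
  have hx := S.ca_x_posi b
  simp_rw [S.ca_Ls_new _ (hl _)]
  refine (ca_lin4 _ _ _ _ _ _ (S.ca_om_nonneg (b + 1))).trans ?_
  rw [S.ca_om_succ_sum, S.ca_om_succ_sum, S.ca_om_succ_sum, S.ca_om_succ_sum]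
  have hg4 := S.ca_g_pow_le b 4
  have hA : (S.g b : ℝ) ^ 4 * ∑ k ∈ univ \ S.F (b + 1), S.om b k *
      (1 / (S.g b : ℝ) ^ 8 * S.Ls b (Bl sR z) k) ^ 2 ≤ 1 := by
    have h1 : (S.g b : ℝ) ^ 4 * ∑ k ∈ univ \ S.F (b + 1), S.om b k *
      (1 / (S.g b : ℝ) ^ 8 * S.Ls b (Bl sR z) k) ^ 2 =
        (∑ k ∈ univ \ S.F (b + 1), S.om b k * S.Ls b (Bl sR z) k ^ 2) / (S.g b : ℝ) ^ 12 := by
      rw [eq_div_iff (by positivity), mul_sum, sum_mul]
      apply sum_congr rfl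
      intro k _
      field_simp
    rw [h1, div_le_one (by positivity)]
    calc _ ≤ S.x b ^ 413 := S.ca_LsB hR hz
      _ ≤ S.x b ^ (75 * 12) := pow_le_pow_right₀ (S.ca_x_one b) (by norm_num)
      _ ≤ _ := S.ca_g_pow_ge b 12
  have hFr : ∀ X : ℝ, X ≤ 2 * S.x b ^ 95 → (S.g b : ℝ) ^ 4 * X ≤ 32 * S.x b ^ 395 := by
    intro X hX
    calc (S.g b : ℝ) ^ 4 * X ≤ (S.g b : ℝ) ^ 4 * (2 * S.x b ^ 95) :=
          mul_le_mul_of_nonneg_left hX (by positivity)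
      _ ≤ (2 ^ 4 * S.x b ^ (75 * 4)) * (2 * S.x b ^ 95) :=
          mul_le_mul_of_nonneg_right hg4 (by positivity)
      _ = 32 * S.x b ^ 395 := by ring
  have hB := hFr _ (S.ca_fresh_mid hf')
  have hC := hFr _ (S.ca_fresh_mid hf)
  have hD : (S.g b : ℝ) ^ 4 * ∑ k ∈ univ \ S.F (b + 1), S.om b k *
      (∑ e ∈ (W \ S.H b) ∩ S.H (b + 1), S.v e k) ^ 2 ≤ 512 * S.x b ^ 382 := by
    have h1 := S.ca_lin_rank (univ \ S.F (b + 1)) (S.om b) (S.ca_om_nonneg b)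
      ((W \ S.H b) ∩ S.H (b + 1)) (c := 2 * S.x b ^ 80) (by
        intro e he
        refine le_trans ?_ (S.light_om (mem_sdiff.1 (mem_inter.1 he).1).2)
        exact sum_le_sum_of_subset_of_nonneg (subset_univ _)
          (fun k _ _ => mul_nonneg (S.ca_om_nonneg b k) (sq_nonneg _)))
    have h2 := S.ca_cntM' hb hR hW hz hi hWd
    have h3 : (((W \ S.H b) ∩ S.H (b + 1)).card : ℝ) ^ 2 ≤ (4 * S.x b) ^ 2 :=
      pow_le_pow_left₀ (Nat.cast_nonneg _) h2 2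
    calc _ ≤ (2 ^ 4 * S.x b ^ (75 * 4)) * ((4 * S.x b) ^ 2 * (2 * S.x b ^ 80)) := by
          apply mul_le_mul hg4 (h1.trans (mul_le_mul_of_nonneg_right h3 (by positivity)))
          · exact sum_nonneg fun k _ => mul_nonneg (S.ca_om_nonneg b k) (sq_nonneg _)
          · positivity
      _ = 512 * S.x b ^ 382 := by ring
  have h1 := S.ca_cx_le b (C := 4) (a := 0) (c := 396) (by norm_num) (by norm_num)
  have h2 := S.ca_cx_le b (C := 256) (a := 395) (c := 396) (by norm_num) (by norm_num)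
  have h3 := S.ca_cx_le b (C := 2048) (a := 382) (c := 396) (by norm_num) (by norm_num)
  have h4 := S.ca_cx_le b (C := 3) (a := 396) (c := 397) (by norm_num) (by norm_num)
  have h5 := S.x_up b (a := 397) (c := 410) (by norm_num)
  rw [pow_zero] at h1
  linarith

theorem cross_LD {L b : ℕ} {s sR : St V κ} {Kb : ℝ} {w : V → ℕ} (hb : b + 1 ≤ L)
    (hR : S.InvR L b s sR Kb) (hW : S.CrossW L b sR w) :
    ∀ z < S.N (b + 1), ∑ k ∈ S.Dm (b + 1), S.om (b + 1) k *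
      S.Ls (b + 1) (Bl (S.crossSt b sR w) z) k ^ 2 ≤ S.x (b + 1) ^ 310 := by
  intro z' hz'
  obtain ⟨z, hz, i, hi, rfl⟩ := S.pos_split hz'
  set W := Bl (S.crossSt b sR w) (z * S.g b ^ 8 + i) with hWdef
  have hWd : W = (Bl sR z).filter fun e => w e = i := S.cross_Bl hR hW hi
  obtain ⟨ξ, ξ', ξ2, ξ2', ξ3, ξ3', hf, hf', hl, -, -⟩ := S.ca_diff hR hW hz hi hWd
  have hg := S.ca_g_posR b
  have hx := S.ca_x_posi b
  show ∑ k ∈ S.D b, S.om (b + 1) k * S.Ls (b + 1) W k ^ 2 ≤ S.x (b + 1) ^ 310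
  simp_rw [S.ca_Ls_new _ (hl _)]
  refine (ca_lin4 _ _ _ _ _ _ (S.ca_om_nonneg (b + 1))).trans ?_
  rw [S.ca_om_succ_sum, S.ca_om_succ_sum, S.ca_om_succ_sum, S.ca_om_succ_sum]
  have hg4 := S.ca_g_pow_le b 4
  have hA : (S.g b : ℝ) ^ 4 * ∑ k ∈ S.D b, S.om b k *
      (1 / (S.g b : ℝ) ^ 8 * S.Ls b (Bl sR z) k) ^ 2 ≤ 1 := by
    have h1 : (S.g b : ℝ) ^ 4 * ∑ k ∈ S.D b, S.om b k *
      (1 / (S.g b : ℝ) ^ 8 * S.Ls b (Bl sR z) k) ^ 2 =
        (∑ k ∈ S.D b, S.om b k * S.Ls b (Bl sR z) k ^ 2) / (S.g b : ℝ) ^ 12 := by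
      rw [eq_div_iff (by positivity), mul_sum, sum_mul]
      apply sum_congr rfl
      intro k _
      field_simp
    rw [h1, div_le_one (by positivity)]
    have hsub : S.D b ⊆ univ \ S.F b := by
      intro k hk
      rw [mem_sdiff]
      exact ⟨mem_univ _, fun h => disjoint_left.1 (S.disj_FD b) h hk⟩
    calc _ ≤ ∑ k ∈ univ \ S.F b, S.om b k * S.Ls b (Bl sR z) k ^ 2 :=
          sum_le_sum_of_subset_of_nonneg hsub
            (fun k _ _ => mul_nonneg (S.ca_om_nonneg b k) (sq_nonneg _))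
      _ ≤ S.x b ^ 412 := hR.Lf z hz
      _ ≤ S.x b ^ (75 * 12) := pow_le_pow_right₀ (S.ca_x_one b) (by norm_num)
      _ ≤ _ := S.ca_g_pow_ge b 12
  have hFr : ∀ X : ℝ, X ≤ S.x b → (S.g b : ℝ) ^ 4 * X ≤ 16 * S.x b ^ 301 := by
    intro X hX
    calc (S.g b : ℝ) ^ 4 * X ≤ (S.g b : ℝ) ^ 4 * S.x b :=
          mul_le_mul_of_nonneg_left hX (by positivity)
      _ ≤ (2 ^ 4 * S.x b ^ (75 * 4)) * S.x b :=
          mul_le_mul_of_nonneg_right hg4 hx.le
      _ = 16 * S.x b ^ 301 := by ring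
  have hB := hFr _ hf'.c5
  have hC := hFr _ hf.c5
  have hD : (S.g b : ℝ) ^ 4 * ∑ k ∈ S.D b, S.om b k *
      (∑ e ∈ (W \ S.H b) ∩ S.H (b + 1), S.v e k) ^ 2 ≤ 256 * S.x b ^ 302 := by
    have h1 := S.ca_lin_rank (S.D b) (S.om b) (S.ca_om_nonneg b)
      ((W \ S.H b) ∩ S.H (b + 1)) (c := 1) (fun e he =>
        S.light_om_D (mem_sdiff.1 (mem_inter.1 he).1).2)
    have h2 := S.ca_cntM' hb hR hW hz hi hWd
    have h3 : (((W \ S.H b) ∩ S.H (b + 1)).card : ℝ) ^ 2 ≤ (4 * S.x b) ^ 2 :=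
      pow_le_pow_left₀ (Nat.cast_nonneg _) h2 2
    calc _ ≤ (2 ^ 4 * S.x b ^ (75 * 4)) * ((4 * S.x b) ^ 2 * 1) := by
          apply mul_le_mul hg4 (h1.trans (mul_le_mul_of_nonneg_right h3 (by positivity)))
          · exact sum_nonneg fun k _ => mul_nonneg (S.ca_om_nonneg b k) (sq_nonneg _)
          · positivity
      _ = 256 * S.x b ^ 302 := by ring
  have h1 := S.ca_cx_le b (C := 4) (a := 0) (c := 303) (by norm_num) (by norm_num)
  have h2 := S.ca_cx_le b (C := 128) (a := 301) (c := 303) (by norm_num) (by norm_num)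
  have h3 := S.ca_cx_le b (C := 1024) (a := 302) (c := 303) (by norm_num) (by norm_num)
  have h4 := S.ca_cx_le b (C := 3) (a := 303) (c := 304) (by norm_num) (by norm_num)
  have h5 := S.x_up b (a := 304) (c := 310) (by norm_num)
  rw [pow_zero] at h1
  linarith

theorem ca_inj {L b : ℕ} {sR : St V κ} {w : V → ℕ} (hW : S.CrossW L b sR w) {z i : ℕ}
    (hz : z < S.N b) {W : Finset V} (hWd : W = (Bl sR z).filter fun e => w e = i) :
    (W ∩ S.H b).card ≤ 1 := by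
  rw [card_le_one]
  intro e he e' he'
  rw [hWd, mem_inter, mem_filter] at he he'
  exact hW.inj z hz e (mem_inter.2 ⟨he.1.1, he.2⟩) e' (mem_inter.2 ⟨he'.1.1, he'.2⟩)
    (he.1.2.trans he'.1.2.symm)

theorem cross_cnt {L b : ℕ} {s sR : St V κ} {Kb : ℝ} {w : V → ℕ}
    (hR : S.InvR L b s sR Kb) (hW : S.CrossW L b sR w) :
    ∀ z < S.N (b + 1), ∀ l, b + 1 ≤ l → l ≤ L →
      ((Bl (S.crossSt b sR w) z ∩ S.H l).card : ℝ) ≤ (S.H l).card / (S.N (b + 1) : ℝ) +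
        S.x (b + 1) * ((S.nu l : ℝ) / S.nu (b + 1)) ^ 6 := by
  intro z' hz' l hl hl'
  obtain ⟨z, hz, i, hi, rfl⟩ := S.pos_split hz'
  set W := Bl (S.crossSt b sR w) (z * S.g b ^ 8 + i) with hWdef
  have hWd : W = (Bl sR z).filter fun e => w e = i := S.cross_Bl hR hW hi
  have h1 := S.ca_cntM hR hW hz hi hWd (l := l) (by omega) hl'
  have h2 := S.ca_inj hW hz hWd
  have h3 : ((W ∩ S.H l).card : ℝ) ≤ (((W \ S.H b) ∩ S.H l).card : ℝ) + 1 := by
    have h4 : (W ∩ S.H l).card ≤ ((W \ S.H b) ∩ S.H l).card + (W ∩ S.H b).card := by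
      refine (card_le_card ?_).trans (card_union_le _ _)
      intro e he
      simp only [mem_union, mem_inter, mem_sdiff] at *
      tauto
    have h5 : (W ∩ S.H l).card ≤ ((W \ S.H b) ∩ S.H l).card + 1 := by omega
    exact_mod_cast h5
  have hnu := S.ca_nu_posR (b + 1)
  have hr1 : 1 ≤ ((S.nu l : ℝ) / S.nu (b + 1)) := by
    rw [one_le_div hnu]
    exact_mod_cast S.nu_mono hl
  have hr6 : 1 ≤ ((S.nu l : ℝ) / S.nu (b + 1)) ^ 6 := one_le_pow₀ hr1
  have hx := S.ca_x_posi b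
  have hy := S.ca_x_posi (b + 1)
  have hy1 := S.ca_x_big (b + 1)
  have h6 : 16 * S.x b ≤ S.x (b + 1) ^ 2 := by
    have h7 := S.x_up b (a := 3) (c := 4) (by norm_num)
    have h8 := S.ca_cx_le (b + 1) (C := 4096) (a := 4) (c := 6) (by norm_num) (by norm_num)
    have h9 : (16 * S.x b) ^ 3 ≤ (S.x (b + 1) ^ 2) ^ 3 := by
      calc (16 * S.x b) ^ 3 = 4096 * S.x b ^ 3 := by ring
        _ ≤ 4096 * S.x (b + 1) ^ 4 := by linarith
        _ ≤ S.x (b + 1) ^ 6 := h8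
        _ = _ := by ring
    exact le_of_pow_le_pow_left₀ (by norm_num) (by positivity) h9
  have h7 : 4 * Real.sqrt (S.x b) ≤ S.x (b + 1) := by
    have h8 : (4 * Real.sqrt (S.x b)) ^ 2 ≤ S.x (b + 1) ^ 2 := by
      rw [mul_pow, Real.sq_sqrt hx.le]
      linarith
    exact le_of_pow_le_pow_left₀ (by norm_num) hy.le h8
  have h8 : 1 ≤ Real.sqrt (S.x b) := by
    rw [Real.one_le_sqrt]
    exact S.ca_x_one b
  have h9 : 1 + (1 + 2 * Real.sqrt (S.x b)) ≤ S.x (b + 1) := by linarith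
  have h10 := mul_le_mul_of_nonneg_right h9 (le_trans zero_le_one hr6)
  have h11 : (1 + (1 + 2 * Real.sqrt (S.x b))) * ((S.nu l : ℝ) / S.nu (b + 1)) ^ 6 =
    ((S.nu l : ℝ) / S.nu (b + 1)) ^ 6 +
      (1 + 2 * Real.sqrt (S.x b)) * ((S.nu l : ℝ) / S.nu (b + 1)) ^ 6 := by ring
  rw [h11] at h10
  linarith

theorem cross_one {L b : ℕ} {s sR : St V κ} {Kb : ℝ} {w : V → ℕ}
    (hR : S.InvR L b s sR Kb) (hW : S.CrossW L b sR w) :
    ∀ z < S.N (b + 1), (Bl (S.crossSt b sR w) z ∩ S.Hm (b + 1)).card ≤ 1 := by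
  intro z' hz'
  obtain ⟨z, hz, i, hi, rfl⟩ := S.pos_split hz'
  exact S.ca_inj hW hz (S.cross_Bl hR hW hi)

end Fam

end Vale.Agent.P262F
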