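import Vale.Agent.P262F.CrossA

/-!
TASK I2. Boundary values at level `b + 1` in the live and the paying directions.
-/

open Finset

namespace Vale.Agent.P262F

namespace Fam

variable {V κ : Type} [Fintype V] [DecidableEq V] [Fintype κ] [DecidableEq κ] (S : Fam V κ)

namespace XB

theorem x_big (b : ℕ) : (10 : ℝ) ^ 7 ≤ S.x b := by
  have h : (10 : ℝ) ^ 7 ≤ x0 := by
    have h1 : (10 : ℝ) ^ 7 ≤ 2 ^ 24 := by norm_num
    have h2 : (2 : ℝ) ^ 24 ≤ 2 ^ 1000 := pow_le_pow_right₀ (by norm_num) (by norm_num)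
    exact h1.trans h2
  exact h.trans (S.x_ge b)

theorem x_one (b : ℕ) : 1 ≤ S.x b := le_trans (by norm_num) (x_big S b)

theorem x_pos (b : ℕ) : 0 < S.x b := lt_of_lt_of_le one_pos (x_one S b)

/-- weighted square norm of a sum with coefficients at most one -/
theorem heavy_sum (T : Finset V) (c : V → ℝ) (hc : ∀ e ∈ T, |c e| ≤ 1) (K : Finset κ) (a : κ → ℝ)
    (ha : ∀ k ∈ K, 0 ≤ a k) (M : ℝ) (hv : ∀ e ∈ T, ∑ k ∈ K, a k * S.v e k ^ 2 ≤ M) :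
    ∑ k ∈ K, a k * (∑ e ∈ T, c e * S.v e k) ^ 2 ≤ (T.card : ℝ) ^ 2 * M := by
  calc ∑ k ∈ K, a k * (∑ e ∈ T, c e * S.v e k) ^ 2
      ≤ ∑ k ∈ K, a k * (T.card * ∑ e ∈ T, S.v e k ^ 2) := by
        refine Finset.sum_le_sum fun k hk => mul_le_mul_of_nonneg_left ?_ (ha k hk)
        refine (sq_sum_le_card_mul_sum_sq).trans ?_
        refine mul_le_mul_of_nonneg_left (Finset.sum_le_sum fun e he => ?_) (by positivity)
        rw [mul_pow]
        have : c e ^ 2 ≤ 1 := (sq_le_one_iff_abs_le_one _).2 (hc e he)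
        nlinarith [sq_nonneg (S.v e k)]
    _ = T.card * ∑ e ∈ T, ∑ k ∈ K, a k * S.v e k ^ 2 := by
        rw [Finset.sum_comm, Finset.mul_sum]
        refine Finset.sum_congr rfl fun k _ => ?_
        rw [← Finset.mul_sum]
        ring
    _ ≤ T.card * ∑ e ∈ T, M := by
        refine mul_le_mul_of_nonneg_left (Finset.sum_le_sum hv) (by positivity)
    _ = _ := by
        rw [Finset.sum_const, nsmul_eq_mul]
        ring

/-- the next block, cyclically -/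
noncomputable def nx (b z : ℕ) : ℕ := if z + 1 < S.N b then z + 1 else 0

theorem nx_lt {b z : ℕ} (hz : z < S.N b) : nx S b z < S.N b := by
  unfold nx
  split_ifs with h
  · exact h
  · omega

theorem P_nx {b z : ℕ} {s : St V κ} (h : ∀ e, s.pos e < S.N b) (hz : z < S.N b) (k : κ) :
    S.P s (nx S b z) k = S.P s z k + ∑ e ∈ Bl s z, S.v e k := by
  rw [← S.P_succ]
  unfold nx
  split_ifs with h1
  · rfl
  · have : z + 1 = S.N b := by omega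
    rw [this, S.P_N h]

theorem sum_split (b : ℕ) (B : Finset V) (k : κ) :
    ∑ e ∈ B, S.v e k = S.Ls b B k + ∑ e ∈ B ∩ S.H b, S.v e k := by
  unfold Ls
  rw [add_comm, ← Finset.sum_union (Finset.disjoint_left.2 fun e h1 h2 =>
    (Finset.mem_sdiff.1 h2).2 (Finset.mem_inter.1 h1).2)]
  congr 1
  ext e
  simp only [Finset.mem_union, Finset.mem_inter, Finset.mem_sdiff]
  tauto

theorem rep {L b : ℕ} {s sR : St V κ} {Kb : ℝ} {w : V → ℕ}
    (hR : S.InvR L b s sR Kb) (hW : S.CrossW L b sR w) {z i : ℕ} (hi : i < S.g b ^ 8) (k : κ) :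
    S.P (S.crossSt b sR w) (z * S.g b ^ 8 + i) k = S.P sR z k +
      (∑ e ∈ (Bl sR z \ S.H b).filter (fun e => w e < i), S.v e k) +
      ∑ e ∈ (Bl sR z ∩ S.H b).filter (fun e => w e < i), S.v e k := by
  rw [S.cross_P hR hW hi.le, add_assoc]
  congr 1
  rw [← Finset.sum_union]
  · congr 1
    ext e
    simp only [Finset.mem_union, Finset.mem_inter, Finset.mem_sdiff, Finset.mem_filter]
    tauto
  · rw [Finset.disjoint_left]
    intro e h1 h2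
    simp only [Finset.mem_inter, Finset.mem_sdiff, Finset.mem_filter] at h1 h2
    exact h1.1.2 h2.1.2

/-- the relative position inside the block -/
noncomputable def tt (b i : ℕ) : ℝ := (i : ℝ) / (S.g b : ℝ) ^ 8

theorem tt_mem {b i : ℕ} (hi : i < S.g b ^ 8) : 0 ≤ tt S b i ∧ tt S b i ≤ 1 := by
  unfold tt
  have h : (i : ℝ) < (S.g b : ℝ) ^ 8 := by exact_mod_cast hi
  have hi0 : (0 : ℝ) ≤ i := by positivity
  exact ⟨by positivity, (div_le_one (by linarith)).2 h.le⟩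

/-- correction from the heavy elements -/
noncomputable def hd (b : ℕ) (sR : St V κ) (w : V → ℕ) (z i : ℕ) (k : κ) : ℝ :=
  ∑ e ∈ Bl sR z ∩ S.H b, ((if w e < i then 1 else 0) - tt S b i) * S.v e k

theorem rep2 {L b : ℕ} {s sR : St V κ} {Kb : ℝ} {w : V → ℕ}
    (hR : S.InvR L b s sR Kb) (hW : S.CrossW L b sR w) {z i : ℕ} (hz : z < S.N b)
    (hi : i < S.g b ^ 8) :
    ∃ (ξ : κ → ℝ) (ξ2 : κ → κ → ℝ) (ξ3 : ℕ → ℝ), S.Fresh L b ξ ξ2 ξ3 ∧
      ∀ k, S.P (S.crossSt b sR w) (z * S.g b ^ 8 + i) k =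
        ((1 - tt S b i) * S.P sR z k + tt S b i * S.P sR (nx S b z) k) +
          hd S b sR w z i k + ξ k := by
  obtain ⟨ξ, ξ2, ξ3, hF, h1, -, -⟩ := hW.pre z hz i hi.le
  refine ⟨ξ, ξ2, ξ3, hF, fun k => ?_⟩
  rw [rep S hR hW hi k, h1 k, P_nx S hR.pos_lt hz k, sum_split S b (Bl sR z)]
  have h2 : ∑ e ∈ (Bl sR z ∩ S.H b).filter (fun e => w e < i), S.v e k =
      hd S b sR w z i k + tt S b i * ∑ e ∈ Bl sR z ∩ S.H b, S.v e k := by
    unfold hd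
    rw [Finset.mul_sum, ← Finset.sum_add_distrib, Finset.sum_filter]
    refine Finset.sum_congr rfl fun e _ => ?_
    split_ifs <;> ring
  rw [h2]
  have h3 : (i : ℝ) / (S.g b : ℝ) ^ 8 = tt S b i := rfl
  rw [h3]
  ring

theorem hd_bound {L b : ℕ} {s sR : St V κ} {Kb : ℝ} {w : V → ℕ}
    (hR : S.InvR L b s sR Kb) {z i : ℕ} (hz : z < S.N b)
    (hi : i < S.g b ^ 8) (K : Finset κ) (a : κ → ℝ) (ha : ∀ k ∈ K, 0 ≤ a k ∧ a k ≤ 1) :
    ∑ k ∈ K, a k * hd S b sR w z i k ^ 2 ≤ 4 * S.x b ^ 2 := by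
  have ht := tt_mem S hi
  have h := heavy_sum S (Bl sR z ∩ S.H b) (fun e => (if w e < i then 1 else 0) - tt S b i)
    (fun e _ => by
      rw [abs_le]
      split_ifs <;> constructor <;> linarith [ht.1, ht.2]) K a (fun k hk => (ha k hk).1) 1
    (fun e _ => by
      refine le_trans ?_ (S.hv e)
      refine le_trans (Finset.sum_le_sum (g := fun k => S.v e k ^ 2) fun k hk => ?_)
        (Finset.sum_le_univ_sum_of_nonneg fun k => sq_nonneg _)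
      exact mul_le_of_le_one_left (sq_nonneg _) (ha k hk).2)
  refine h.trans ?_
  rw [mul_one]
  have h1 := hR.cnt0 z hz
  have h2 : (0 : ℝ) ≤ ((Bl sR z ∩ S.H b).card : ℝ) := by positivity
  nlinarith

/-- square of a sum of three terms, the first one a convex combination -/
theorem sq3 (t p p1 h ξ : ℝ) (h0 : 0 ≤ t) (h1 : t ≤ 1) :
    (((1 - t) * p + t * p1) + h + ξ) ^ 2 ≤
      3 * ((1 - t) * p ^ 2 + t * p1 ^ 2) + 3 * h ^ 2 + 3 * ξ ^ 2 := by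
  have e1 : ((1 - t) * p + t * p1) ^ 2 ≤ (1 - t) * p ^ 2 + t * p1 ^ 2 := by
    nlinarith [mul_nonneg (mul_nonneg h0 (sub_nonneg.2 h1)) (sq_nonneg (p - p1))]
  nlinarith [sq_nonneg (((1 - t) * p + t * p1) - h), sq_nonneg (((1 - t) * p + t * p1) - ξ),
    sq_nonneg (h - ξ)]

theorem gen_bound {L b : ℕ} {s sR : St V κ} {Kb : ℝ} {w : V → ℕ}
    (hR : S.InvR L b s sR Kb) (hW : S.CrossW L b sR w) {z i : ℕ} (hz : z < S.N b)
    (hi : i < S.g b ^ 8) (K : Finset κ) (a : κ → ℝ) (ha : ∀ k ∈ K, 0 ≤ a k ∧ a k ≤ 1)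
    (M Mx : ℝ) (hM : ∀ z < S.N b, ∑ k ∈ K, a k * S.P sR z k ^ 2 ≤ M)
    (hMx : ∀ (ξ : κ → ℝ) (ξ2 : κ → κ → ℝ) (ξ3 : ℕ → ℝ), S.Fresh L b ξ ξ2 ξ3 →
      ∑ k ∈ K, a k * ξ k ^ 2 ≤ Mx) :
    ∑ k ∈ K, a k * S.P (S.crossSt b sR w) (z * S.g b ^ 8 + i) k ^ 2 ≤
      3 * M + 12 * S.x b ^ 2 + 3 * Mx := by
  obtain ⟨ξ, ξ2, ξ3, hF, hrep⟩ := rep2 S hR hW hz hi
  have ht := tt_mem S hi
  have h1 := hM z hz
  have h2 := hM _ (nx_lt S hz)
  have h3 := hd_bound S hR (w := w) hz hi K a ha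
  have h4 := hMx ξ ξ2 ξ3 hF
  set t := tt S b i with htd
  calc ∑ k ∈ K, a k * S.P (S.crossSt b sR w) (z * S.g b ^ 8 + i) k ^ 2
      ≤ ∑ k ∈ K, (3 * ((1 - t) * (a k * S.P sR z k ^ 2) +
          t * (a k * S.P sR (nx S b z) k ^ 2)) + 3 * (a k * hd S b sR w z i k ^ 2) +
          3 * (a k * ξ k ^ 2)) := by
        refine Finset.sum_le_sum fun k hk => ?_
        rw [hrep k]
        have := mul_le_mul_of_nonneg_left (sq3 t (S.P sR z k) (S.P sR (nx S b z) k)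
          (hd S b sR w z i k) (ξ k) ht.1 ht.2) (ha k hk).1
        refine this.trans (le_of_eq ?_)
        ring
    _ = 3 * ((1 - t) * ∑ k ∈ K, a k * S.P sR z k ^ 2 +
          t * ∑ k ∈ K, a k * S.P sR (nx S b z) k ^ 2) +
          3 * ∑ k ∈ K, a k * hd S b sR w z i k ^ 2 + 3 * ∑ k ∈ K, a k * ξ k ^ 2 := by
        rw [Finset.sum_add_distrib, Finset.sum_add_distrib, ← Finset.mul_sum, ← Finset.mul_sum,
          ← Finset.mul_sum, Finset.sum_add_distrib, ← Finset.mul_sum, ← Finset.mul_sum]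
    _ ≤ 3 * ((1 - t) * M + t * M) + 3 * (4 * S.x b ^ 2) + 3 * Mx := by
        have e1 := mul_le_mul_of_nonneg_left h1 (sub_nonneg.2 ht.2)
        have e2 := mul_le_mul_of_nonneg_left h2 ht.1
        linarith
    _ = _ := by ring

end XB

open XB

theorem cross_PF1 {L b : ℕ} {s sR : St V κ} {Kb : ℝ} {w : V → ℕ}
    (hR : S.InvR L b s sR Kb) (hW : S.CrossW L b sR w) :
    ∀ z < S.N (b + 1), ∑ k ∈ S.F (b + 1), S.P (S.crossSt b sR w) z k ^ 2 ≤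
      10 ^ 6 * (Fintype.card κ + S.x (b + 1) ^ 10) := by
  intro z' hz'
  obtain ⟨z, hz, i, hi, rfl⟩ := S.pos_split hz'
  have h := gen_bound S hR hW hz hi (S.F b) (fun _ => 1) (fun _ _ => ⟨zero_le_one, le_rfl⟩)
    (131072 * Fintype.card κ + S.x b) (131072 * Fintype.card κ + S.x b)
    (fun z hz => by simpa using hR.PF1 z hz)
    (fun ξ ξ2 ξ3 hF => by
      refine le_trans ?_ hF.c2
      simp only [one_mul]
      exact Finset.sum_le_univ_sum_of_nonneg fun k => sq_nonneg _)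
  simp only [one_mul] at h
  have h1 : ∑ k ∈ S.F (b + 1), S.P (S.crossSt b sR w) (z * S.g b ^ 8 + i) k ^ 2 ≤
      ∑ k ∈ S.F b, S.P (S.crossSt b sR w) (z * S.g b ^ 8 + i) k ^ 2 :=
    Finset.sum_le_sum_of_subset_of_nonneg (S.F_anti b) fun k _ _ => sq_nonneg _
  have h2 : S.x b ^ 2 ≤ S.x (b + 1) ^ 10 := S.x_up b (by norm_num)
  have h3 : S.x b ≤ S.x b ^ 2 := by
    have := x_one S b
    nlinarith
  have h4 : (0 : ℝ) ≤ Fintype.card κ := by positivity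
  have h5 : 0 < S.x b := x_pos S b
  nlinarith

theorem cross_PF2 {L b : ℕ} {s sR : St V κ} {Kb : ℝ} {w : V → ℕ}
    (hR : S.InvR L b s sR Kb) (hW : S.CrossW L b sR w) :
    ∀ z < S.N (b + 1), ∑ k ∈ S.F (b + 1), kap (S.q (b + 1) k) *
      S.P (S.crossSt b sR w) z k ^ 2 ≤ S.x (b + 1) ^ 15 := by
  intro z' hz'
  obtain ⟨z, hz, i, hi, rfl⟩ := S.pos_split hz'
  have hka : ∀ k, 0 ≤ kap (S.q b k) ∧ kap (S.q b k) ≤ 1 := fun k =>
    ⟨(kap_pos (S.q_pos b k)).le, kap_le_one (S.q_pos b k)⟩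
  have h := gen_bound S hR hW hz hi (S.F b) (fun k => kap (S.q b k)) (fun k _ => hka k)
    (S.x b ^ 12) (S.x b ^ 12) hR.PF2
    (fun ξ ξ2 ξ3 hF => le_trans (Finset.sum_le_univ_sum_of_nonneg fun k =>
      mul_nonneg (hka k).1 (sq_nonneg _)) hF.c3)
  have hx := x_big S b
  have hx0 := x_pos S b
  have h1 : ∑ k ∈ S.F (b + 1), kap (S.q (b + 1) k) *
      S.P (S.crossSt b sR w) (z * S.g b ^ 8 + i) k ^ 2 ≤
      S.x b * ∑ k ∈ S.F b, kap (S.q b k) * S.P (S.crossSt b sR w) (z * S.g b ^ 8 + i) k ^ 2 := by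
    rw [Finset.mul_sum]
    refine (Finset.sum_le_sum_of_subset_of_nonneg (S.F_anti b) fun k _ _ =>
      mul_nonneg (kap_pos (S.q_pos _ k)).le (sq_nonneg _)).trans ?_
    refine Finset.sum_le_sum fun k _ => ?_
    rw [← mul_assoc]
    exact mul_le_mul_of_nonneg_right (S.kap_succ b k) (sq_nonneg _)
  have h2 : S.x b ^ 14 ≤ S.x (b + 1) ^ 15 := S.x_up b (by norm_num)
  refine h1.trans (le_trans ?_ h2)
  refine (mul_le_mul_of_nonneg_left h hx0.le).trans ?_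
  have h3 : S.x b ^ 2 ≤ S.x b ^ 12 := pow_le_pow_right₀ (x_one S b) (by norm_num)
  have h4 : 18 * S.x b ^ 12 ≤ S.x b ^ 13 := by
    have h5 : 0 < S.x b ^ 12 := by positivity
    rw [pow_succ]
    nlinarith
  calc S.x b * (3 * S.x b ^ 12 + 12 * S.x b ^ 2 + 3 * S.x b ^ 12)
      ≤ S.x b * (18 * S.x b ^ 12) := by
        refine mul_le_mul_of_nonneg_left ?_ hx0.le
        linarith
    _ ≤ S.x b * S.x b ^ 13 := mul_le_mul_of_nonneg_left h4 hx0.le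
    _ = S.x b ^ 14 := by ring

namespace XB

theorem U_sub (b : ℕ) : S.U b ⊆ S.Sx b := by
  intro k hk
  simp only [U, Sx, Finset.mem_sdiff, Finset.mem_union, Finset.mem_univ, true_and, not_or] at hk ⊢
  exact ⟨fun h => hk.1 (S.F_anti b h), hk.2⟩

theorem Sx_sub (b : ℕ) : S.Sx b ⊆ S.U b ∪ (S.F b ∩ S.Sx b) := by
  intro k hk
  by_cases hF : k ∈ S.F b
  · exact Finset.mem_union_right _ (Finset.mem_inter.2 ⟨hF, hk⟩)
  · refine Finset.mem_union_left _ ?_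
    simp only [U, Sx, Finset.mem_sdiff, Finset.mem_union, Finset.mem_univ, true_and, not_or]
      at hk ⊢
    exact ⟨hF, hk.2⟩

theorem Sx_nF {b : ℕ} {k : κ} (hk : k ∈ S.Sx b) : k ∉ S.F (b + 1) := by
  simp only [Sx, Finset.mem_sdiff, Finset.mem_union, Finset.mem_univ, true_and, not_or] at hk
  exact hk.1

theorem U_disj (b : ℕ) : Disjoint (S.U b) (S.F b ∩ S.Sx b) := by
  rw [Finset.disjoint_left]
  intro k hk hk2
  simp only [U, Finset.mem_sdiff, Finset.mem_union, Finset.mem_univ, true_and, not_or] at hk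
  exact hk.1 (Finset.mem_inter.1 hk2).1

theorem PS_F {L b : ℕ} {s sR : St V κ} {Kb : ℝ} {w : V → ℕ}
    (hR : S.InvR L b s sR Kb) (hW : S.CrossW L b sR w) {z i : ℕ} (hz : z < S.N b)
    (hi : i < S.g b ^ 8) :
    ∑ k ∈ S.F b ∩ S.Sx b, S.w (b + 1) k * S.P (S.crossSt b sR w) (z * S.g b ^ 8 + i) k ^ 2 ≤
      1 / 4 * (3 * (131072 * (S.Sx b).card + S.x b) + 12 * S.x b ^ 2 +
        3 * (131072 * (S.Sx b).card + S.x b)) := by
  have h := gen_bound S hR hW hz hi (S.F b ∩ S.Sx b) (fun _ => 1)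
    (fun _ _ => ⟨zero_le_one, le_rfl⟩)
    (131072 * (S.Sx b).card + S.x b) (131072 * (S.Sx b).card + S.x b)
    (fun z hz => by simpa using hR.PFS z hz)
    (fun ξ ξ2 ξ3 hF => by
      refine le_trans ?_ hF.c1
      simp only [one_mul]
      exact Finset.sum_le_sum_of_subset_of_nonneg Finset.inter_subset_right
        fun k _ _ => sq_nonneg _)
  simp only [one_mul] at h
  have h2 : ∑ k ∈ S.F b ∩ S.Sx b, S.w (b + 1) k *
      S.P (S.crossSt b sR w) (z * S.g b ^ 8 + i) k ^ 2 =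
      1 / 4 * ∑ k ∈ S.F b ∩ S.Sx b, S.P (S.crossSt b sR w) (z * S.g b ^ 8 + i) k ^ 2 := by
    rw [Finset.mul_sum]
    refine Finset.sum_congr rfl fun k hk => ?_
    rw [S.w_succ (Sx_nF S (Finset.mem_inter.1 hk).2), S.w_F (Finset.mem_inter.1 hk).1]
  rw [h2]
  exact mul_le_mul_of_nonneg_left h (by norm_num)

/-- the pointwise inequality in the paying directions -/
theorem PS_pt (t w c c1 e e1 h ξ X : ℝ) (ht : 0 ≤ t ∧ t ≤ 1) (hw : 0 ≤ w) (hw1 : w ≤ 1)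
    (hX : X = ((1 - t) * (c + e) + t * (c1 + e1)) + h + ξ) :
    w / 4 * X ^ 2 ≤ 1 / 2 * ((1 - t) * (w * c ^ 2) + t * (w * c1 ^ 2)) +
      1 / 2 * (3 * ((1 - t) * e ^ 2 + t * e1 ^ 2) + 3 * h ^ 2 + 3 * ξ ^ 2) := by
  have ht1 := sub_nonneg.2 ht.2
  have e2 := sq3 t e e1 h ξ ht.1 ht.2
  have e3 : ((1 - t) * c + t * c1) ^ 2 ≤ (1 - t) * c ^ 2 + t * c1 ^ 2 := by
    nlinarith [mul_nonneg (mul_nonneg ht.1 ht1) (sq_nonneg (c - c1))]
  have e4 : X ^ 2 ≤ 2 * ((1 - t) * c + t * c1) ^ 2 +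
      2 * (((1 - t) * e + t * e1) + h + ξ) ^ 2 := by
    have e0 : X = ((1 - t) * c + t * c1) + (((1 - t) * e + t * e1) + h + ξ) := by
      rw [hX]
      ring
    rw [e0]
    nlinarith [sq_nonneg (((1 - t) * c + t * c1) - (((1 - t) * e + t * e1) + h + ξ))]
  have e5 : X ^ 2 ≤ 2 * ((1 - t) * c ^ 2 + t * c1 ^ 2) +
      2 * (3 * ((1 - t) * e ^ 2 + t * e1 ^ 2) + 3 * h ^ 2 + 3 * ξ ^ 2) := by linarith
  have hY : 0 ≤ 3 * ((1 - t) * e ^ 2 + t * e1 ^ 2) + 3 * h ^ 2 + 3 * ξ ^ 2 := by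
    have := ht.1
    positivity
  have e6 : w * (3 * ((1 - t) * e ^ 2 + t * e1 ^ 2) + 3 * h ^ 2 + 3 * ξ ^ 2) ≤
      3 * ((1 - t) * e ^ 2 + t * e1 ^ 2) + 3 * h ^ 2 + 3 * ξ ^ 2 := mul_le_of_le_one_left hY hw1
  have e7 := mul_le_mul_of_nonneg_left e5 hw
  linarith

theorem PS_U {L b : ℕ} {s sR : St V κ} {Kb : ℝ} {w : V → ℕ}
    (hR : S.InvR L b s sR Kb) (hW : S.CrossW L b sR w) {z i : ℕ} (hz : z < S.N b)
    (hi : i < S.g b ^ 8) :
    ∑ k ∈ S.U b, S.w (b + 1) k * S.P (S.crossSt b sR w) (z * S.g b ^ 8 + i) k ^ 2 ≤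
      Kb / 2 + 1 / 2 * (3 * (393216 * (S.Sx b).card + S.x b ^ 3) + 12 * S.x b ^ 2 +
        3 * (131072 * (S.Sx b).card + S.x b)) := by
  obtain ⟨ξ, ξ2, ξ3, hF, hrep⟩ := rep2 S hR hW hz hi
  have ht := tt_mem S hi
  obtain ⟨c, e, hce, hc, he⟩ := hR.PU z hz
  obtain ⟨c1, e1, hce1, hc1, he1⟩ := hR.PU _ (nx_lt S hz)
  have h3 := hd_bound S hR (w := w) hz hi (S.U b) (fun _ => 1)
    (fun _ _ => ⟨zero_le_one, le_rfl⟩)
  simp only [one_mul] at h3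
  have h4 : ∑ k ∈ S.U b, ξ k ^ 2 ≤ 131072 * (S.Sx b).card + S.x b :=
    le_trans (Finset.sum_le_sum_of_subset_of_nonneg (U_sub S b) fun k _ _ => sq_nonneg _) hF.c1
  have ht1 := sub_nonneg.2 ht.2
  have hpt : ∀ k ∈ S.U b, S.w (b + 1) k *
      S.P (S.crossSt b sR w) (z * S.g b ^ 8 + i) k ^ 2 ≤
      1 / 2 * ((1 - tt S b i) * (S.w b k * c k ^ 2) + tt S b i * (S.w b k * c1 k ^ 2)) +
      1 / 2 * (3 * ((1 - tt S b i) * e k ^ 2 + tt S b i * e1 k ^ 2) +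
        3 * hd S b sR w z i k ^ 2 + 3 * ξ k ^ 2) := by
    intro k hk
    rw [S.w_succ (Sx_nF S (U_sub S b hk))]
    refine PS_pt _ _ _ _ _ _ _ _ _ ht (S.w_pos b k).le (S.w_le_one b k) ?_
    rw [hrep k, hce k hk, hce1 k hk]
  refine (Finset.sum_le_sum hpt).trans ?_
  have hsum : ∑ k ∈ S.U b,
      (1 / 2 * ((1 - tt S b i) * (S.w b k * c k ^ 2) + tt S b i * (S.w b k * c1 k ^ 2)) +
      1 / 2 * (3 * ((1 - tt S b i) * e k ^ 2 + tt S b i * e1 k ^ 2) +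
        3 * hd S b sR w z i k ^ 2 + 3 * ξ k ^ 2)) =
      1 / 2 * ((1 - tt S b i) * ∑ k ∈ S.U b, S.w b k * c k ^ 2 +
        tt S b i * ∑ k ∈ S.U b, S.w b k * c1 k ^ 2) +
      1 / 2 * (3 * ((1 - tt S b i) * ∑ k ∈ S.U b, e k ^ 2 +
        tt S b i * ∑ k ∈ S.U b, e1 k ^ 2) +
        3 * ∑ k ∈ S.U b, hd S b sR w z i k ^ 2 + 3 * ∑ k ∈ S.U b, ξ k ^ 2) := by
    simp only [Finset.mul_sum, ← Finset.sum_add_distrib]
  rw [hsum]
  have a1 := mul_le_mul_of_nonneg_left hc ht1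
  have a2 := mul_le_mul_of_nonneg_left hc1 ht.1
  have a3 := mul_le_mul_of_nonneg_left he ht1
  have a4 := mul_le_mul_of_nonneg_left he1 ht.1
  linarith

end XB

theorem cross_PS {L b : ℕ} {s sR : St V κ} {Kb : ℝ} {w : V → ℕ}
    (hR : S.InvR L b s sR Kb) (hW : S.CrossW L b sR w) :
    ∀ z < S.N (b + 1), ∑ k ∈ S.Sx b, S.w (b + 1) k * S.P (S.crossSt b sR w) z k ^ 2 ≤
      Kb / 2 + 10 ^ 6 * S.cost b := by
  intro z' hz'
  obtain ⟨z, hz, i, hi, rfl⟩ := S.pos_split hz'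
  have hw0 : ∀ b k, 0 ≤ S.w b k := fun b k => (S.w_pos b k).le
  have hKb : 0 ≤ Kb := by
    obtain ⟨c, e, -, h, -⟩ := hR.PU z hz
    exact le_trans (Finset.sum_nonneg fun k _ => mul_nonneg (hw0 b k) (sq_nonneg _)) h
  unfold cost
  split_ifs with hS
  · rw [hS]
    simp only [Finset.sum_empty]
    linarith
  have hx := x_big S b
  have hx0 := x_pos S b
  have hFp := PS_F S hR hW hz hi
  have hUp := PS_U S hR hW hz hi
  have hsum : ∑ k ∈ S.Sx b, S.w (b + 1) k *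
      S.P (S.crossSt b sR w) (z * S.g b ^ 8 + i) k ^ 2 ≤
      ∑ k ∈ S.U b, S.w (b + 1) k * S.P (S.crossSt b sR w) (z * S.g b ^ 8 + i) k ^ 2 +
        ∑ k ∈ S.F b ∩ S.Sx b, S.w (b + 1) k *
          S.P (S.crossSt b sR w) (z * S.g b ^ 8 + i) k ^ 2 := by
    rw [← Finset.sum_union (U_disj S b)]
    exact Finset.sum_le_sum_of_subset_of_nonneg (Sx_sub S b) fun k _ _ =>
      mul_nonneg (hw0 _ k) (sq_nonneg _)
  have hn : (0 : ℝ) ≤ (S.Sx b).card := by positivity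
  have p1 : S.x b ≤ S.x b ^ 10 := le_self_pow₀ (x_one S b) (by norm_num)
  have p2 : S.x b ^ 2 ≤ S.x b ^ 10 := pow_le_pow_right₀ (x_one S b) (by norm_num)
  have p3 : S.x b ^ 3 ≤ S.x b ^ 10 := pow_le_pow_right₀ (x_one S b) (by norm_num)
  have p4 : 0 < S.x b ^ 10 := by positivity
  refine hsum.trans ?_
  linarith

end Fam

end Vale.Agent.P262F
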