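import Vale.Agent.P262F.CrossB

/-!
TASK I3. Boundary values at level `b + 1` in the accounted directions.
-/

open Finset

namespace Vale.Agent.P262F

namespace Fam

variable {V κ : Type} [Fintype V] [DecidableEq V] [Fintype κ] [DecidableEq κ] (S : Fam V κ)

namespace XC

open XB

theorem sq4 (a b c d : ℝ) : (a + b + c + d) ^ 2 ≤ 4 * (a ^ 2 + b ^ 2 + c ^ 2 + d ^ 2) := by
  nlinarith [sq_nonneg (a - b), sq_nonneg (a - c), sq_nonneg (a - d), sq_nonneg (b - c),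
    sq_nonneg (b - d), sq_nonneg (c - d)]

/-- representation with the right parent -/
theorem rep3 {L b : ℕ} {s sR : St V κ} {Kb : ℝ} {w : V → ℕ}
    (hR : S.InvR L b s sR Kb) (hW : S.CrossW L b sR w) {z i : ℕ} (hz : z < S.N b)
    (hi : i < S.g b ^ 8) :
    ∃ (ξ : κ → ℝ) (ξ2 : κ → κ → ℝ) (ξ3 : ℕ → ℝ), S.Fresh L b ξ ξ2 ξ3 ∧
      ∃ z1 < S.N b, ∃ τ : ℝ, |τ| ≤ 1 ∧ ∃ (T : Finset V) (c : V → ℝ),
        T ⊆ Bl sR z ∩ S.H b ∧ (∀ e ∈ T, e ∉ S.Hm b) ∧ (∀ e ∈ T, |c e| ≤ 1) ∧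
        ∀ k, S.P (S.crossSt b sR w) (z * S.g b ^ 8 + i) k = S.P sR z1 k +
          (τ * S.Ls b (Bl sR z) k + ξ k + ∑ e ∈ T, c e * S.v e k) := by
  obtain ⟨ξ, ξ2, ξ3, hF, h1, -, -⟩ := hW.pre z hz i hi.le
  refine ⟨ξ, ξ2, ξ3, hF, ?_⟩
  have ht := tt_mem S hi
  have h3 : (i : ℝ) / (S.g b : ℝ) ^ 8 = tt S b i := rfl
  by_cases hc : ∃ e ∈ Bl sR z ∩ S.Hm b, w e < i
  · obtain ⟨e0, he0, hwe0⟩ := hc
    refine ⟨nx S b z, nx_lt S hz, -(1 - tt S b i), ?_,
      (Bl sR z ∩ S.H b).filter (fun e => ¬ w e < i), fun _ => -1, Finset.filter_subset _ _,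
      ?_, ?_, ?_⟩
    · rw [abs_neg, abs_le]
      constructor <;> linarith [ht.1, ht.2]
    · intro e he hem
      have h5 := Finset.mem_filter.1 he
      have h6 : e ∈ Bl sR z ∩ S.Hm b :=
        Finset.mem_inter.2 ⟨(Finset.mem_inter.1 h5.1).1, hem⟩
      have h7 := Finset.card_le_one.1 (hR.one z hz) e h6 e0 he0
      rw [h7] at h5
      exact h5.2 hwe0
    · intro e _
      simp
    · intro k
      rw [rep S hR hW hi k, h1 k, P_nx S hR.pos_lt hz k, sum_split S b (Bl sR z), h3]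
      have h8 := Finset.sum_filter_add_sum_filter_not (Bl sR z ∩ S.H b) (fun e => w e < i)
        (fun e => S.v e k)
      simp only [neg_one_mul, Finset.sum_neg_distrib]
      rw [← h8]
      ring
  · push Not at hc
    refine ⟨z, hz, tt S b i, ?_, (Bl sR z ∩ S.H b).filter (fun e => w e < i), fun _ => 1,
      Finset.filter_subset _ _, ?_, ?_, ?_⟩
    · rw [abs_le]
      constructor <;> linarith [ht.1, ht.2]
    · intro e he hem
      have h5 := Finset.mem_filter.1 he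
      have h6 : e ∈ Bl sR z ∩ S.Hm b :=
        Finset.mem_inter.2 ⟨(Finset.mem_inter.1 h5.1).1, hem⟩
      exact absurd h5.2 (not_lt.2 (hc e h6))
    · intro e _
      simp
    · intro k
      rw [rep S hR hW hi k, h1 k, h3]
      simp only [one_mul]
      ring

theorem om_pos (b : ℕ) (k : κ) : 0 < S.om b k := by
  unfold om
  have := S.q_pos b k
  positivity

/-- the total deviation from the parent value, in the accounted directions -/
theorem rep4 {L b : ℕ} {s sR : St V κ} {Kb : ℝ} {w : V → ℕ}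
    (hR : S.InvR L b s sR Kb) (hW : S.CrossW L b sR w) {z i : ℕ} (hz : z < S.N b)
    (hi : i < S.g b ^ 8) :
    ∃ z1 < S.N b, ∃ d : κ → ℝ,
      (∀ k ∈ S.A b, S.P (S.crossSt b sR w) (z * S.g b ^ 8 + i) k = S.P s z1 k + d k) ∧
      ∑ k ∈ S.A b, S.om b k * d k ^ 2 ≤ S.x b ^ 314 := by
  obtain ⟨ξ, ξ2, ξ3, hF, z1, hz1, τ, hτ, T, c, hT, hTm, hc, hrep⟩ := rep3 S hR hW hz hi
  obtain ⟨δ, hδ, hδ2⟩ := hR.PD z1 hz1
  refine ⟨z1, hz1, fun k => δ k + τ * S.Ls b (Bl sR z) k + ξ k + ∑ e ∈ T, c e * S.v e k,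
    fun k hk => by rw [hrep k, hδ k hk]; ring, ?_⟩
  have hsub := S.A_sub_Dm b
  have hom : ∀ k, 0 ≤ S.om b k := fun k => (om_pos S b k).le
  have e1 : ∑ k ∈ S.A b, S.om b k * (τ * S.Ls b (Bl sR z) k) ^ 2 ≤ S.x b ^ 312 := by
    refine le_trans ?_ (hR.LD z hz)
    refine le_trans (Finset.sum_le_sum fun k _ => ?_)
      (Finset.sum_le_sum_of_subset_of_nonneg hsub fun k _ _ => mul_nonneg (hom k) (sq_nonneg _))
    refine mul_le_mul_of_nonneg_left ?_ (hom k)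
    rw [mul_pow]
    exact mul_le_of_le_one_left (sq_nonneg _) ((sq_le_one_iff_abs_le_one _).2 hτ)
  have e2 : ∑ k ∈ S.A b, S.om b k * ξ k ^ 2 ≤ S.x b :=
    le_trans (Finset.sum_le_sum_of_subset_of_nonneg (hsub.trans (S.Dm_sub_D b)) fun k _ _ =>
      mul_nonneg (hom k) (sq_nonneg _)) hF.c5
  have e3 : ∑ k ∈ S.A b, S.om b k * (∑ e ∈ T, c e * S.v e k) ^ 2 ≤
      (T.card : ℝ) ^ 2 * S.x b ^ 305 := by
    refine heavy_sum S T c hc (S.A b) (S.om b) (fun k _ => hom k) _ fun e he => ?_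
    exact le_trans (Finset.sum_le_sum_of_subset_of_nonneg hsub fun k _ _ =>
      mul_nonneg (hom k) (sq_nonneg _)) (S.light_omm (hTm e he))
  have hTc : (T.card : ℝ) ≤ 2 * S.x b :=
    le_trans (by exact_mod_cast Finset.card_le_card hT) (hR.cnt0 z hz)
  have hx := x_big S b
  have hx0 := x_pos S b
  have hx1 := x_one S b
  have e4 : (T.card : ℝ) ^ 2 * S.x b ^ 305 ≤ 4 * S.x b ^ 307 := by
    have h0 : (0 : ℝ) ≤ T.card := by positivity
    have : (T.card : ℝ) ^ 2 ≤ (2 * S.x b) ^ 2 := by gcongr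
    calc (T.card : ℝ) ^ 2 * S.x b ^ 305 ≤ (2 * S.x b) ^ 2 * S.x b ^ 305 :=
          mul_le_mul_of_nonneg_right this (pow_nonneg hx0.le _)
      _ = 4 * S.x b ^ 307 := by ring
  have hpt : ∀ k ∈ S.A b, S.om b k *
      (δ k + τ * S.Ls b (Bl sR z) k + ξ k + ∑ e ∈ T, c e * S.v e k) ^ 2 ≤
      4 * (S.om b k * δ k ^ 2 + S.om b k * (τ * S.Ls b (Bl sR z) k) ^ 2 +
        S.om b k * ξ k ^ 2 + S.om b k * (∑ e ∈ T, c e * S.v e k) ^ 2) := by
    intro k _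
    have := mul_le_mul_of_nonneg_left (sq4 (δ k) (τ * S.Ls b (Bl sR z) k) (ξ k)
      (∑ e ∈ T, c e * S.v e k)) (hom k)
    linarith
  refine (Finset.sum_le_sum hpt).trans ?_
  rw [← Finset.mul_sum, Finset.sum_add_distrib, Finset.sum_add_distrib, Finset.sum_add_distrib]
  have p1 : S.x b ≤ S.x b ^ 313 := le_self_pow₀ hx1 (by norm_num)
  have p2 : S.x b ^ 312 ≤ S.x b ^ 313 := pow_le_pow_right₀ hx1 (by norm_num)
  have p3 : S.x b ^ 307 ≤ S.x b ^ 313 := pow_le_pow_right₀ hx1 (by norm_num)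
  have p4 : 28 * S.x b ^ 313 ≤ S.x b ^ 314 := by
    have : 0 < S.x b ^ 313 := pow_pos hx0 _
    rw [pow_succ (S.x b) 313]
    nlinarith
  linarith

theorem PD_pt (q q' P d : ℝ) (hq : 0 < q) (hq1 : q ≤ 1) (hq' : 0 < q') (hqq : q' ≤ q / 2)
    (hd : d ^ 2 ≤ q ^ 2) : (1 + q') * (P + d) ^ 2 ≤ (1 + q) * P ^ 2 + 8 * q := by
  have h1 : |d| ≤ q := abs_le_of_sq_le_sq hd hq.le
  have h2 : P * d ≤ |P| * q := by
    refine (le_abs_self _).trans ?_
    rw [abs_mul]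
    exact mul_le_mul_of_nonneg_left h1 (abs_nonneg _)
  have h3 : 2 * |P| ≤ P ^ 2 / 4 + 4 := by
    have : P ^ 2 = |P| ^ 2 := (sq_abs P).symm
    nlinarith [sq_nonneg (|P| / 2 - 2)]
  have h4 : (P + d) ^ 2 ≤ (1 + q / 4) * P ^ 2 + (4 * q + q ^ 2) := by
    have := mul_le_mul_of_nonneg_right h3 hq.le
    nlinarith
  have h5 : 0 ≤ (P + d) ^ 2 := sq_nonneg _
  have h6 : (1 + q') * (P + d) ^ 2 ≤ (1 + q / 2) * (P + d) ^ 2 :=
    mul_le_mul_of_nonneg_right (by linarith) h5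
  have h7 : (1 + q / 2) * (P + d) ^ 2 ≤
      (1 + q / 2) * ((1 + q / 4) * P ^ 2 + (4 * q + q ^ 2)) :=
    mul_le_mul_of_nonneg_left h4 (by linarith)
  have h8 : (1 + q / 2) * (1 + q / 4) ≤ 1 + q := by nlinarith
  have h9 := mul_le_mul_of_nonneg_right h8 (sq_nonneg P)
  have h10 : (1 + q / 2) * (4 * q + q ^ 2) ≤ 8 * q := by
    have a1 : q ^ 2 ≤ q := by nlinarith
    have a2 : q ^ 3 ≤ q := by nlinarith
    nlinarith
  nlinarith

theorem q_half (b : ℕ) (k : κ) : S.q (b + 1) k ≤ S.q b k / 2 := by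
  have h1 := S.q_succ b k
  have h2 : (2 : ℝ) ≤ S.g b := by
    refine le_trans ?_ (S.g_ge b)
    have h3 : S.x b ≤ S.x b ^ 75 := le_self_pow₀ (x_one S b) (by norm_num)
    have := x_big S b
    linarith
  have h3 := S.q_pos (b + 1) k
  rw [← h1]
  nlinarith

theorem A_sq {b : ℕ} {k : κ} (h : k ∈ S.A b) : S.q b k ≤ 1 ∧ S.q b k ^ 2 * S.x b ^ 314 ≤ 1 := by
  have h1 := S.A_small h
  have hq := S.q_pos b k
  have hx1 := x_one S b
  have h2 : (S.q b k * S.x b ^ 160) ^ 2 ≤ 1 := by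
    have : 0 ≤ S.q b k * S.x b ^ 160 := by
      have := x_pos S b
      positivity
    nlinarith
  constructor
  · refine le_trans ?_ h1
    exact le_mul_of_one_le_right hq.le (one_le_pow₀ hx1)
  · refine le_trans ?_ h2
    have h3 : S.x b ^ 314 ≤ S.x b ^ 320 := pow_le_pow_right₀ hx1 (by norm_num)
    calc S.q b k ^ 2 * S.x b ^ 314 ≤ S.q b k ^ 2 * S.x b ^ 320 := by gcongr
      _ = (S.q b k * S.x b ^ 160) ^ 2 := by ring

end XC

open XB XC

theorem cross_PD {L b : ℕ} {s sR : St V κ} {Kb Bb K' : ℝ} {w : V → ℕ}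
    (hI : S.Inv L b s Kb Bb) (hR : S.InvR L b s sR Kb) (hW : S.CrossW L b sR w)
    (hK : ∀ z < S.N (b + 1), ∑ k ∈ S.Sx b, S.w (b + 1) k * S.P (S.crossSt b sR w) z k ^ 2 ≤ K') :
    ∀ z < S.N (b + 1), ∑ k ∈ S.A (b + 1), (1 + S.q (b + 1) k) *
      S.P (S.crossSt b sR w) z k ^ 2 ≤ Bb + 8 * ∑ k ∈ S.A b, S.q b k + 2048 * K' := by
  intro z' hz'
  have hK' := hK z' hz'
  obtain ⟨z, hz, i, hi, rfl⟩ := S.pos_split hz'
  obtain ⟨z1, hz1, d, hd, hd2⟩ := rep4 S hR hW hz hi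
  have hold : ∑ k ∈ S.A b, (1 + S.q (b + 1) k) *
      S.P (S.crossSt b sR w) (z * S.g b ^ 8 + i) k ^ 2 ≤ Bb + 8 * ∑ k ∈ S.A b, S.q b k := by
    refine le_trans (Finset.sum_le_sum (g := fun k => (1 + S.q b k) * S.P s z1 k ^ 2 +
      8 * S.q b k) fun k hk => ?_) ?_
    · rw [hd k hk]
      obtain ⟨h1, h2⟩ := A_sq S hk
      have hq := S.q_pos b k
      refine PD_pt _ _ _ _ hq h1 (S.q_pos _ k) (q_half S b k) ?_
      have h3 : S.om b k * d k ^ 2 ≤ S.x b ^ 314 :=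
        le_trans (Finset.single_le_sum (f := fun k => S.om b k * d k ^ 2)
          (fun k _ => mul_nonneg (om_pos S b k).le (sq_nonneg _)) hk) hd2
      have h4 : d k ^ 2 = S.q b k ^ 4 * (S.om b k * d k ^ 2) := by
        unfold om
        field_simp
      rw [h4]
      calc S.q b k ^ 4 * (S.om b k * d k ^ 2) ≤ S.q b k ^ 4 * S.x b ^ 314 := by gcongr
        _ = S.q b k ^ 2 * (S.q b k ^ 2 * S.x b ^ 314) := by ring
        _ ≤ S.q b k ^ 2 * 1 := by gcongr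
        _ = S.q b k ^ 2 := by ring
    · rw [Finset.sum_add_distrib, ← Finset.mul_sum]
      have := hI.PD z1 hz1
      linarith
  have hnew : ∑ k ∈ S.A (b + 1) \ S.A b, (1 + S.q (b + 1) k) *
      S.P (S.crossSt b sR w) (z * S.g b ^ 8 + i) k ^ 2 ≤ 2048 * K' := by
    refine le_trans ?_ (mul_le_mul_of_nonneg_left hK' (by norm_num))
    rw [Finset.mul_sum]
    have hsub : S.A (b + 1) \ S.A b ⊆ S.Sx b := by
      intro k hk
      rw [Finset.mem_sdiff] at hk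
      have h1 : k ∈ S.D (b + 1) := S.Dm_sub_D (b + 1) (S.A_sub_Dm (b + 1) hk.1)
      simp only [Sx, Finset.mem_sdiff, Finset.mem_union, Finset.mem_univ, true_and, not_or]
      exact ⟨fun h => Finset.disjoint_left.1 (S.disj_FD (b + 1)) h h1, hk.2⟩
    refine le_trans (Finset.sum_le_sum fun k hk => ?_)
      (Finset.sum_le_sum_of_subset_of_nonneg hsub fun k _ _ =>
        mul_nonneg (by norm_num) (mul_nonneg (S.w_pos _ k).le (sq_nonneg _)))
    rw [Finset.mem_sdiff] at hk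
    have h1 := (A_sq S hk.1).1
    have h2 := S.w_lb hk.2
    rw [← mul_assoc]
    refine mul_le_mul_of_nonneg_right ?_ (sq_nonneg _)
    linarith
  have hsplit := Finset.sum_sdiff (S.A_mono b) (f := fun k => (1 + S.q (b + 1) k) *
      S.P (S.crossSt b sR w) (z * S.g b ^ 8 + i) k ^ 2)
  rw [← hsplit]
  linarith

end Fam

end Vale.Agent.P262F
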