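import Mathlib

/-!
Definitions for the full Steinitz bound `S_2(d) ≤ C √d` (blueprint: notes/P262F.md).
-/

open Finset

namespace Vale.Agent.P262F

noncomputable section

/-- A huge constant. -/
def x0 : ℝ := 2 ^ (1000 : ℕ)

/-- A small exponent. -/
def eta : ℝ := 1 / 1000

/-- The kernel `min (q, 1/q) ^ eta`. -/
def kap (q : ℝ) : ℝ := (min q q⁻¹) ^ eta

/-- A zero-sum family of nonzero vectors in the unit ball, in eigen-coordinates. -/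
structure Fam (V κ : Type) [Fintype V] [Fintype κ] [DecidableEq κ] where
  v : V → κ → ℝ
  R : κ → ℝ
  hv : ∀ e, ∑ k, v e k ^ 2 ≤ 1
  hne : ∀ e, ∃ k, v e k ≠ 0
  hsum : ∀ k, ∑ e, v e k = 0
  hR : ∀ k, 0 < R k
  horth : ∀ i k, ∑ e, v e i * v e k = if i = k then R i else 0

/-- A cyclic arrangement in blocks: position of each element, and the value at boundary `0`. -/
structure St (V κ : Type) where
  pos : V → ℕ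
  P0 : κ → ℝ

variable {V κ : Type} [Fintype V] [DecidableEq V] [Fintype κ] [DecidableEq κ]

/-- The block at position `z`. -/
def Bl (s : St V κ) (z : ℕ) : Finset V := univ.filter fun e => s.pos e = z

namespace Fam

variable (S : Fam V κ)

/-- Eighth root of the energy per block in direction `k`, for `ν ^ 8` blocks. -/
def qν (ν : ℕ) (k : κ) : ℝ := S.R k ^ ((1 : ℝ) / 8) / ν

def nν (ν : ℕ) : ℝ := ∑ k, kap (S.qν ν k)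

/-- Local size. -/
def xν (ν : ℕ) : ℝ := x0 * (1 + S.nν ν) ^ ((1 : ℝ) / 10)

def jν (ν : ℕ) : ℕ := ⌈Real.logb 2 (S.xν ν ^ 75)⌉₊

/-- At level `b` there are `nu b ^ 8` blocks. -/
def nu : ℕ → ℕ
  | 0 => 1
  | b + 1 => nu b * 2 ^ S.jν (nu b)

def q (b : ℕ) (k : κ) : ℝ := S.qν (S.nu b) k
def n (b : ℕ) : ℝ := S.nν (S.nu b)
def x (b : ℕ) : ℝ := S.xν (S.nu b)
def j (b : ℕ) : ℕ := S.jν (S.nu b)
/-- `nu (b + 1) = nu b * g b`; each block of level `b` is cut into `g b ^ 8` blocks. -/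
def g (b : ℕ) : ℕ := 2 ^ S.j b
/-- Number of blocks at level `b`. -/
def N (b : ℕ) : ℕ := S.nu b ^ 8
def tau (b : ℕ) : ℝ := 4 * Real.log (8 * (S.g b : ℝ) ^ 8)

/-- Live directions. -/
def F (b : ℕ) : Finset κ := univ.filter fun k => S.x b ^ 120 ≤ S.q b k
/-- Dead (scaled) directions. -/
def D (b : ℕ) : Finset κ := univ.filter fun k => S.q b k * S.x b ^ 20 ≤ 1
/-- Heavy elements. -/
def H (b : ℕ) : Finset V :=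
  univ.filter fun e => 1 < ∑ k ∈ S.D b, ((S.q b k ^ 3)⁻¹ * S.v e k) ^ 2
/-- `D (b - 1)`. -/
def Dm : ℕ → Finset κ
  | 0 => ∅
  | b + 1 => S.D b
/-- `H (b - 1)`. -/
def Hm : ℕ → Finset V
  | 0 => ∅
  | b + 1 => S.H b
/-- Accounted directions `D (b - 2)`. -/
def A : ℕ → Finset κ
  | 0 => ∅
  | 1 => ∅
  | b + 2 => S.D b
def U (b : ℕ) : Finset κ := univ \ (S.F b ∪ S.A b)
/-- Directions paying at step `b`. -/
def Sx (b : ℕ) : Finset κ := univ \ (S.F (b + 1) ∪ S.A b)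
/-- Age weight. -/
def w (b : ℕ) (k : κ) : ℝ := (1 / 4) ^ ((Finset.Icc 1 b).filter fun c => k ∉ S.F c).card
def om (b : ℕ) (k : κ) : ℝ := (S.q b k ^ 4)⁻¹
def p (b : ℕ) (k : κ) : ℝ := if k ∈ S.D b then S.q b k ^ 2 else (S.q b k ^ 4)⁻¹
def cost (b : ℕ) : ℝ := if S.Sx b = ∅ then 0 else (S.Sx b).card + S.x b ^ 10

/-- Value at boundary `z`. -/
def P (s : St V κ) (z : ℕ) (k : κ) : ℝ :=
  s.P0 k + ∑ e ∈ univ.filter (fun e => s.pos e < z), S.v e k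

/-- Light sum of a block. -/
def Ls (b : ℕ) (G : Finset V) (k : κ) : ℝ := ∑ e ∈ G \ S.H b, S.v e k

/-- Light second moments of a block. -/
def Qs (b : ℕ) (G : Finset V) (i k : κ) : ℝ := ∑ e ∈ G \ S.H b, S.v e i * S.v e k

/-- Deviation of the light second moments from the nominal value. -/
def Xd (b : ℕ) (G : Finset V) (i k : κ) : ℝ := S.Qs b G i k - if i = k then S.q b i ^ 8 else 0

def NX (b : ℕ) (X : κ → κ → ℝ) : ℝ := ∑ i, ∑ k, S.om b i * S.om b k * X i k ^ 2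

/-- Bounds for the fresh errors of one rounding at level `b`. -/
structure Fresh (L b : ℕ) (ξ : κ → ℝ) (ξ2 : κ → κ → ℝ) (ξ3 : ℕ → ℝ) : Prop where
  c1 : ∑ k ∈ S.Sx b, ξ k ^ 2 ≤ 131072 * (S.Sx b).card + S.x b
  c2 : ∑ k, ξ k ^ 2 ≤ 131072 * Fintype.card κ + S.x b
  c3 : ∑ k, kap (S.q b k) * ξ k ^ 2 ≤ S.x b ^ 12
  c5 : ∑ k ∈ S.D b, S.om b k * ξ k ^ 2 ≤ S.x b
  c6 : S.NX b ξ2 ≤ S.x b ^ 185
  c7 : ∀ l, b < l → l ≤ L → ξ3 l ^ 2 ≤ S.x b * ((S.nu l : ℝ) / S.nu (b + 1)) ^ 8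

/-- Invariants at level `b`. -/
structure Inv (L b : ℕ) (s : St V κ) (Kb Bb : ℝ) : Prop where
  pos_lt : ∀ e, s.pos e < S.N b
  X : ∀ z < S.N b, S.NX b (S.Xd b (Bl s z)) ≤ S.x b ^ 800
  Lf : ∀ z < S.N b, ∑ k ∈ univ \ S.F b, S.om b k * S.Ls b (Bl s z) k ^ 2 ≤ S.x b ^ 410
  LD : ∀ z < S.N b, ∑ k ∈ S.Dm b, S.om b k * S.Ls b (Bl s z) k ^ 2 ≤ S.x b ^ 310
  cnt : ∀ z < S.N b, ∀ l, b ≤ l → l ≤ L → ((Bl s z ∩ S.H l).card : ℝ) ≤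
    (S.H l).card / (S.N b : ℝ) + S.x b * ((S.nu l : ℝ) / S.nu b) ^ 6
  one : ∀ z < S.N b, (Bl s z ∩ S.Hm b).card ≤ 1
  PF1 : ∀ z < S.N b, ∑ k ∈ S.F b, S.P s z k ^ 2 ≤ 10 ^ 6 * (Fintype.card κ + S.x b ^ 10)
  PF2 : ∀ z < S.N b, ∑ k ∈ S.F b, kap (S.q b k) * S.P s z k ^ 2 ≤ S.x b ^ 15
  PU : ∀ z < S.N b, ∑ k ∈ S.U b, S.w b k * S.P s z k ^ 2 ≤ Kb
  PD : ∀ z < S.N b, ∑ k ∈ S.A b, (1 + S.q b k) * S.P s z k ^ 2 ≤ Bb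

/-- Invariants after the refresh of level `b` (`s` is the arrangement before it). -/
structure InvR (L b : ℕ) (s sR : St V κ) (Kb : ℝ) : Prop where
  pos_lt : ∀ e, sR.pos e < S.N b
  X : ∀ z < S.N b, S.NX b (S.Xd b (Bl sR z)) ≤ S.x b ^ 802
  Lf : ∀ z < S.N b, ∑ k ∈ univ \ S.F b, S.om b k * S.Ls b (Bl sR z) k ^ 2 ≤ S.x b ^ 412
  LD : ∀ z < S.N b, ∑ k ∈ S.Dm b, S.om b k * S.Ls b (Bl sR z) k ^ 2 ≤ S.x b ^ 312
  cnt : ∀ z < S.N b, ∀ l, b ≤ l → l ≤ L → ((Bl sR z ∩ S.H l).card : ℝ) ≤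
    (S.H l).card / (S.N b : ℝ) + 3 * S.x b * ((S.nu l : ℝ) / S.nu b) ^ 6
  cnt0 : ∀ z < S.N b, ((Bl sR z ∩ S.H b).card : ℝ) ≤ 2 * S.x b
  one : ∀ z < S.N b, (Bl sR z ∩ S.Hm b).card ≤ 1
  PF1 : ∀ z < S.N b, ∑ k ∈ S.F b, S.P sR z k ^ 2 ≤ 131072 * Fintype.card κ + S.x b
  PFS : ∀ z < S.N b, ∑ k ∈ S.F b ∩ S.Sx b, S.P sR z k ^ 2 ≤ 131072 * (S.Sx b).card + S.x b
  PF2 : ∀ z < S.N b, ∑ k ∈ S.F b, kap (S.q b k) * S.P sR z k ^ 2 ≤ S.x b ^ 12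
  PU : ∀ z < S.N b, ∃ c e : κ → ℝ, (∀ k ∈ S.U b, S.P sR z k = c k + e k) ∧
    ∑ k ∈ S.U b, S.w b k * c k ^ 2 ≤ Kb ∧
    ∑ k ∈ S.U b, e k ^ 2 ≤ 393216 * (S.Sx b).card + S.x b ^ 3
  PD : ∀ z < S.N b, ∃ δ : κ → ℝ, (∀ k ∈ S.A b, S.P sR z k = S.P s z k + δ k) ∧
    ∑ k ∈ S.A b, S.om b k * δ k ^ 2 ≤ S.x b ^ 313

/-- Subdivision data for the refreshed arrangement `sR`. -/
structure CrossW (L b : ℕ) (sR : St V κ) (w : V → ℕ) : Prop where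
  lt : ∀ e, w e < S.g b ^ 8
  inj : ∀ z < S.N b, ∀ e ∈ Bl sR z ∩ S.H b, ∀ e' ∈ Bl sR z ∩ S.H b, w e = w e' → e = e'
  pre : ∀ z < S.N b, ∀ i ≤ S.g b ^ 8, ∃ (ξ : κ → ℝ) (ξ2 : κ → κ → ℝ) (ξ3 : ℕ → ℝ),
    S.Fresh L b ξ ξ2 ξ3 ∧
    (∀ k, ∑ e ∈ (Bl sR z \ S.H b).filter (fun e => w e < i), S.v e k =
      (i : ℝ) / (S.g b : ℝ) ^ 8 * S.Ls b (Bl sR z) k + ξ k) ∧
    (∀ i' k, ∑ e ∈ (Bl sR z \ S.H b).filter (fun e => w e < i), S.v e i' * S.v e k =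
      (i : ℝ) / (S.g b : ℝ) ^ 8 * S.Qs b (Bl sR z) i' k + ξ2 i' k) ∧
    (∀ l, b < l → l ≤ L →
      ((((Bl sR z \ S.H b).filter (fun e => w e < i)) ∩ S.H l).card : ℝ) =
      (i : ℝ) / (S.g b : ℝ) ^ 8 * (((Bl sR z \ S.H b) ∩ S.H l).card : ℝ) + ξ3 l)

/-- The subdivided arrangement. -/
def crossSt (b : ℕ) (sR : St V κ) (w : V → ℕ) : St V κ :=
  ⟨fun e => sR.pos e * S.g b ^ 8 + w e, sR.P0⟩

end Fam

end

end Vale.Agent.P262F
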