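import Vale.Agent.P262F.Main
import Vale.Agent.P262.Final

set_option linter.unusedVariables false

namespace Vale.Agent.P262F

open Finset Vale.Agent.P262

theorem upper_beta_full : ∃ C : ℝ, 0 < C ∧ ∀ d : ℕ, 1 ≤ d → ∀ (N : ℕ)
    (v : Fin N → EuclideanSpace ℝ (Fin d)), (∀ i, ‖v i‖ ≤ 1) → ∑ i, v i = 0 →
    beta v ≤ C * √(d : ℝ) := by
  obtain ⟨C, hC, hcore⟩ := core_full
  refine ⟨√C, Real.sqrt_pos.mpr hC, ?_⟩
  intro d hd N v hv hsum
  obtain ⟨T, hT⟩ := exists_diag v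
  have hnormT : ∀ x, ∑ i, (T x) i ^ 2 = ‖x‖ ^ 2 := by
    intro x
    rw [← T.norm_map x, EuclideanSpace.norm_sq_eq]
    simp
  have hsumT : ∀ (s : List (Fin N)) (i : Fin d),
      (T ((s.map v).sum)) i = (s.map fun a => (T (v a)) i).sum := by
    intro s i
    induction s with
    | nil => simp
    | cons a s ih =>
      simp only [List.map_cons, List.sum_cons, map_add]
      rw [PiLp.add_apply, ih]
  obtain ⟨l, hl1, hl2, hl3⟩ := hcore d hd N (fun a i => (T (v a)) i)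
    (by
      intro a
      rw [hnormT]
      have h1 := hv a
      have h2 := norm_nonneg (v a)
      nlinarith)
    (by
      intro i
      have h1 : (T (∑ a, v a)) i = ∑ a, (T (v a)) i := by
        rw [map_sum, WithLp.ofLp_sum, Finset.sum_apply]
      rw [← h1, hsum, map_zero]
      rfl)
    (fun i j hij => hT i j hij)
  apply beta_le_of_list v l hl1 hl2
  intro k
  have h1 := hl3 k
  have h2 : ∑ i, ((l.take k).map fun a => (T (v a)) i).sum ^ 2 =
      ‖((l.take k).map v).sum‖ ^ 2 := by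
    rw [← hnormT]
    apply Finset.sum_congr rfl
    intro i _
    rw [hsumT]
  rw [h2] at h1
  rw [← Real.sqrt_mul hC.le]
  exact Real.le_sqrt_of_sq_le h1

theorem steinitz_sqrt : ∃ c C : ℝ, 0 < c ∧ 0 < C ∧ ∀ d : ℕ, 1 ≤ d →
    BddAbove (steinitzValues d) ∧ c * √(d : ℝ) ≤ steinitzConst d ∧
      steinitzConst d ≤ C * √(d : ℝ) := by
  obtain ⟨C, hC, hub⟩ := upper_beta_full
  obtain ⟨c, C', hc, _, hbd⟩ := steinitz_bounds
  refine ⟨c, C, hc, hC, ?_⟩
  intro d hd
  obtain ⟨hbdd, hlow, _⟩ := hbd d hd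
  refine ⟨hbdd, hlow, ?_⟩
  unfold steinitzConst
  have hmem : beta (lowFam d) ∈ steinitzValues d :=
    ⟨d + d, lowFam d, lowFam_norm hd, lowFam_sum hd, rfl⟩
  apply csSup_le ⟨_, hmem⟩
  rintro t ⟨N, v, hv, hs, rfl⟩
  exact hub d hd N v hv hs

end Vale.Agent.P262F
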