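import Vale.Agent.P262F.ParamsA

/-!
TASK E2. Heavy and light elements, termination.
-/

open Finset

namespace Vale.Agent.P262F

namespace Fam

variable {V κ : Type} [Fintype V] [DecidableEq V] [Fintype κ] [DecidableEq κ] (S : Fam V κ)

set_option linter.unusedSectionVars false

theorem pb_x_big (b : ℕ) : (10000 : ℝ) ≤ S.x b := by
  refine le_trans ?_ (S.x_ge b)
  unfold x0
  calc (10000 : ℝ) ≤ 2 ^ 14 := by norm_num
    _ ≤ 2 ^ 1000 := pow_le_pow_right₀ (by norm_num) (by norm_num)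

theorem pb_mem_D {b : ℕ} {k : κ} : k ∈ S.D b ↔ S.q b k * S.x b ^ 20 ≤ 1 := by
  simp [D]

theorem pb_mem_H {b : ℕ} {e : V} :
    e ∈ S.H b ↔ 1 < ∑ k ∈ S.D b, ((S.q b k ^ 3)⁻¹ * S.v e k) ^ 2 := by
  simp [H]

theorem pb_q_le_one {b : ℕ} {k : κ} (h : k ∈ S.D b) : S.q b k ≤ 1 := by
  have hx := S.pb_x_big b
  have h1 : (1 : ℝ) ≤ S.x b ^ 20 := one_le_pow₀ (by linarith)
  have h2 := S.pb_mem_D.1 h
  calc S.q b k = S.q b k * 1 := (mul_one _).symm
    _ ≤ S.q b k * S.x b ^ 20 := mul_le_mul_of_nonneg_left h1 (S.q_pos b k).le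
    _ ≤ 1 := h2

theorem sum_D_sq (b : ℕ) : (∑ k ∈ S.D b, S.q b k ^ 2) * S.x b ^ 10 ≤ 1 := by
  have hx := S.pb_x_big b
  have hx0 : 0 < S.x b := by linarith
  have hx1 : 1 ≤ S.x b := by linarith
  have h1 : (∑ k ∈ S.D b, S.q b k ^ 2) * S.x b ^ 20 ≤ S.n b := by
    rw [sum_mul]
    calc ∑ k ∈ S.D b, S.q b k ^ 2 * S.x b ^ 20 ≤ ∑ k ∈ S.D b, kap (S.q b k) := by
          apply sum_le_sum
          intro k hk
          have h2 := S.pb_mem_D.1 hk
          have h3 := le_kap (S.q_pos b k) (S.pb_q_le_one hk)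
          calc S.q b k ^ 2 * S.x b ^ 20 = S.q b k * (S.q b k * S.x b ^ 20) := by ring
            _ ≤ S.q b k * 1 := mul_le_mul_of_nonneg_left h2 (S.q_pos b k).le
            _ ≤ kap (S.q b k) := by rw [mul_one]; exact h3
      _ ≤ ∑ k, kap (S.q b k) := by
          apply sum_le_sum_of_subset_of_nonneg (subset_univ _)
          intro k _ _
          exact (kap_pos (S.q_pos b k)).le
      _ = S.n b := rfl
  have h2 : S.n b ≤ S.x b ^ 10 := by
    rw [S.x_pow b]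
    have h3 := S.n_nonneg b
    have h4 : (1 : ℝ) ≤ x0 ^ 10 := by
      apply one_le_pow₀
      unfold x0
      exact one_le_pow₀ (by norm_num)
    calc S.n b ≤ 1 * (1 + S.n b) := by linarith
      _ ≤ x0 ^ 10 * (1 + S.n b) := mul_le_mul_of_nonneg_right h4 (by linarith)
  have h3 : (∑ k ∈ S.D b, S.q b k ^ 2) * S.x b ^ 10 * S.x b ^ 10 ≤ 1 * S.x b ^ 10 := by
    rw [one_mul, mul_assoc, ← pow_add]
    exact h1.trans h2
  exact le_of_mul_le_mul_right h3 (pow_pos hx0 _)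

theorem H_card (b : ℕ) : ((S.H b).card : ℝ) * S.x b ^ 10 ≤ S.N b := by
  have hx := S.pb_x_big b
  have hx0 : 0 < S.x b := by linarith
  have hN : (0 : ℝ) < S.N b := by exact_mod_cast S.N_pos b
  have h1 : ((S.H b).card : ℝ) ≤ S.N b * ∑ k ∈ S.D b, S.q b k ^ 2 := by
    calc ((S.H b).card : ℝ) = ∑ e ∈ S.H b, (1 : ℝ) := by simp
      _ ≤ ∑ e ∈ S.H b, ∑ k ∈ S.D b, ((S.q b k ^ 3)⁻¹ * S.v e k) ^ 2 :=
          sum_le_sum fun e he => (S.pb_mem_H.1 he).le
      _ ≤ ∑ e, ∑ k ∈ S.D b, ((S.q b k ^ 3)⁻¹ * S.v e k) ^ 2 := by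
          apply sum_le_sum_of_subset_of_nonneg (subset_univ _)
          intro e _ _
          exact sum_nonneg fun k _ => sq_nonneg _
      _ = ∑ k ∈ S.D b, S.N b * S.q b k ^ 2 := by
          rw [sum_comm]
          apply sum_congr rfl
          intro k _
          have h2 := S.horth k k
          rw [if_pos rfl, S.R_eq b k] at h2
          have hq := S.q_pos b k
          calc ∑ e, ((S.q b k ^ 3)⁻¹ * S.v e k) ^ 2
              = ∑ e, (S.q b k ^ 6)⁻¹ * (S.v e k * S.v e k) := by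
                apply sum_congr rfl
                intro e _
                field_simp
            _ = (S.q b k ^ 6)⁻¹ * (S.q b k ^ 8 * S.N b) := by rw [← mul_sum, h2]
            _ = S.N b * S.q b k ^ 2 := by
                field_simp
      _ = S.N b * ∑ k ∈ S.D b, S.q b k ^ 2 := by rw [mul_sum]
  calc ((S.H b).card : ℝ) * S.x b ^ 10 ≤ (S.N b * ∑ k ∈ S.D b, S.q b k ^ 2) * S.x b ^ 10 :=
        mul_le_mul_of_nonneg_right h1 (pow_pos hx0 _).le
    _ = S.N b * ((∑ k ∈ S.D b, S.q b k ^ 2) * S.x b ^ 10) := by ring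
    _ ≤ S.N b * 1 := mul_le_mul_of_nonneg_left (S.sum_D_sq b) hN.le
    _ = S.N b := mul_one _

theorem H_zero : S.H 0 = ∅ := by
  have hx := S.pb_x_big 0
  have h1 := S.H_card 0
  have h2 : S.N 0 = 1 := by simp [N, nu]
  rw [h2, Nat.cast_one] at h1
  rw [← card_eq_zero]
  by_contra hne
  have h3 : (1 : ℝ) ≤ (S.H 0).card := by exact_mod_cast Nat.one_le_iff_ne_zero.2 hne
  have h4 : (1 : ℝ) < S.x 0 ^ 10 := one_lt_pow₀ (by linarith) (by norm_num)
  have h5 : (1 : ℝ) * S.x 0 ^ 10 ≤ (S.H 0).card * S.x 0 ^ 10 :=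
    mul_le_mul_of_nonneg_right h3 (by linarith)
  linarith

theorem pb_g_ge_two (b : ℕ) : (2 : ℝ) ≤ S.g b := by
  have hx := S.pb_x_big b
  refine le_trans ?_ (S.g_ge b)
  calc (2 : ℝ) ≤ S.x b := by linarith
    _ = S.x b ^ 1 := (pow_one _).symm
    _ ≤ S.x b ^ 75 := pow_le_pow_right₀ (by linarith) (by norm_num)

theorem pb_q_half (b : ℕ) (k : κ) : S.q (b + 1) k ≤ S.q b k / 2 := by
  have h1 := S.q_succ b k
  have h2 := S.pb_g_ge_two b
  have h3 := S.q_pos (b + 1) k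
  have h4 := mul_le_mul_of_nonneg_left h2 h3.le
  linarith

theorem pb_H_succ (b : ℕ) : S.H b ⊆ S.H (b + 1) := by
  intro e he
  rw [pb_mem_H] at he ⊢
  refine he.trans_le ?_
  refine le_trans (sum_le_sum (g := fun k => ((S.q (b + 1) k ^ 3)⁻¹ * S.v e k) ^ 2) ?_)
    (sum_le_sum_of_subset_of_nonneg (S.D_mono b) fun k _ _ => sq_nonneg _)
  intro k _
  have h1 := S.q_pos (b + 1) k
  have h2 := S.pb_q_half b k
  have h3 := S.q_pos b k
  have h4 : S.q (b + 1) k ^ 3 ≤ S.q b k ^ 3 := pow_le_pow_left₀ h1.le (by linarith) 3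
  have h5 : (S.q b k ^ 3)⁻¹ ≤ (S.q (b + 1) k ^ 3)⁻¹ := inv_anti₀ (pow_pos h1 3) h4
  rw [mul_pow, mul_pow]
  apply mul_le_mul_of_nonneg_right _ (sq_nonneg _)
  exact pow_le_pow_left₀ (inv_nonneg.2 (pow_pos h3 3).le) h5 2

theorem H_mono {b c : ℕ} (h : b ≤ c) : S.H b ⊆ S.H c := by
  induction h with
  | refl => exact Subset.refl _
  | step _ ih => exact ih.trans (S.pb_H_succ _)

theorem light_D {b : ℕ} {e : V} (h : e ∉ S.H b) :
    ∑ k ∈ S.D b, ((S.q b k ^ 3)⁻¹ * S.v e k) ^ 2 ≤ 1 := by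
  rw [pb_mem_H, not_lt] at h
  exact h

theorem light_om_D {b : ℕ} {e : V} (h : e ∉ S.H b) :
    ∑ k ∈ S.D b, S.om b k * S.v e k ^ 2 ≤ 1 := by
  refine le_trans (sum_le_sum ?_) (S.light_D h)
  intro k hk
  have h1 := S.q_pos b k
  have h2 := S.pb_q_le_one hk
  rw [mul_pow]
  apply mul_le_mul_of_nonneg_right _ (sq_nonneg _)
  unfold om
  rw [inv_pow, ← pow_mul]
  apply inv_anti₀ (pow_pos h1 _)
  exact pow_le_pow_of_le_one h1.le h2 (by norm_num)

theorem light_om {b : ℕ} {e : V} (h : e ∉ S.H b) :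
    ∑ k, S.om b k * S.v e k ^ 2 ≤ 2 * S.x b ^ 80 := by
  have hx := S.pb_x_big b
  have hx0 : 0 < S.x b := by linarith
  have hx1 : (1 : ℝ) ≤ S.x b ^ 80 := one_le_pow₀ (by linarith)
  rw [← sum_filter_add_sum_filter_not univ (fun k => k ∈ S.D b)]
  have h1 : ∑ k ∈ univ.filter (fun k => k ∈ S.D b), S.om b k * S.v e k ^ 2 ≤ 1 := by
    have h2 : univ.filter (fun k => k ∈ S.D b) = S.D b := by ext k; simp
    rw [h2]
    exact S.light_om_D h
  have h2 : ∑ k ∈ univ.filter (fun k => k ∉ S.D b), S.om b k * S.v e k ^ 2 ≤ S.x b ^ 80 := by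
    calc ∑ k ∈ univ.filter (fun k => k ∉ S.D b), S.om b k * S.v e k ^ 2
        ≤ ∑ k ∈ univ.filter (fun k => k ∉ S.D b), S.x b ^ 80 * S.v e k ^ 2 := by
          apply sum_le_sum
          intro k hk
          exact mul_le_mul_of_nonneg_right (S.om_le (mem_filter.1 hk).2) (sq_nonneg _)
      _ ≤ ∑ k, S.x b ^ 80 * S.v e k ^ 2 := by
          apply sum_le_sum_of_subset_of_nonneg (subset_univ _)
          intro k _ _
          exact mul_nonneg (pow_nonneg hx0.le _) (sq_nonneg _)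
      _ = S.x b ^ 80 * ∑ k, S.v e k ^ 2 := by rw [mul_sum]
      _ ≤ S.x b ^ 80 * 1 := mul_le_mul_of_nonneg_left (S.hv e) (pow_nonneg hx0.le _)
      _ = S.x b ^ 80 := mul_one _
  generalize S.x b ^ 80 = y at *
  linarith

theorem light_omm {b : ℕ} {e : V} (h : e ∉ S.Hm b) :
    ∑ k ∈ S.Dm b, S.om b k * S.v e k ^ 2 ≤ S.x b ^ 305 := by
  have hx := S.pb_x_big b
  have hx0 : 0 < S.x b := by linarith
  cases b with
  | zero =>
    have h1 : S.Dm 0 = ∅ := rfl
    rw [h1, sum_empty]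
    exact pow_nonneg hx0.le _
  | succ b =>
    have h1 : S.Dm (b + 1) = S.D b := rfl
    have h2 : S.Hm (b + 1) = S.H b := rfl
    rw [h2] at h
    rw [h1]
    have h3 := S.light_om_D h
    have hy := S.pb_x_big b
    have hy0 : 0 < S.x b := by linarith
    have hg := S.g_le b
    have hg0 : (0 : ℝ) ≤ S.g b := Nat.cast_nonneg _
    calc ∑ k ∈ S.D b, S.om (b + 1) k * S.v e k ^ 2
        = (S.g b : ℝ) ^ 4 * ∑ k ∈ S.D b, S.om b k * S.v e k ^ 2 := by
          rw [mul_sum]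
          apply sum_congr rfl
          intro k _
          rw [S.om_succ]
          ring
      _ ≤ (S.g b : ℝ) ^ 4 * 1 := mul_le_mul_of_nonneg_left h3 (pow_nonneg hg0 _)
      _ = (S.g b : ℝ) ^ 4 := mul_one _
      _ ≤ (2 * S.x b ^ 75) ^ 4 := pow_le_pow_left₀ hg0 hg 4
      _ = 16 * S.x b ^ 300 := by rw [mul_pow, ← pow_mul]; norm_num
      _ ≤ S.x b * S.x b ^ 300 := mul_le_mul_of_nonneg_right (by linarith) (pow_nonneg hy0.le _)
      _ = S.x b ^ 301 := by rw [← pow_succ']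
      _ ≤ S.x (b + 1) ^ 305 := S.x_up b (by norm_num)

theorem pb_q_le (b : ℕ) (k : κ) : S.q b k ≤ S.q 0 k * (1 / 2) ^ b := by
  induction b with
  | zero => simp
  | succ b ih =>
    have h1 := S.pb_q_half b k
    rw [pow_succ]
    linarith

theorem exists_last : ∃ L : ℕ, S.H L = univ := by
  have hq : ∀ k, Filter.Tendsto (fun b => S.q b k) Filter.atTop (nhds 0) := by
    intro k
    refine squeeze_zero (fun b => (S.q_pos b k).le) (fun b => S.pb_q_le b k) ?_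
    have h1 : Filter.Tendsto (fun b : ℕ => S.q 0 k * (1 / 2 : ℝ) ^ b) Filter.atTop
        (nhds (S.q 0 k * 0)) :=
      (tendsto_pow_atTop_nhds_zero_of_lt_one (by norm_num) (by norm_num)).const_mul _
    rwa [mul_zero] at h1
  have hmain : ∀ e : V, ∀ᶠ b in Filter.atTop, e ∈ S.H b := by
    intro e
    obtain ⟨k, hk⟩ := S.hne e
    have h1 : ∀ᶠ b in Filter.atTop, S.q b k < 1 := (hq k).eventually_lt_const one_pos
    have h2 : ∀ᶠ b in Filter.atTop, k ∈ S.D b := by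
      have h3 : ∀ᶠ b in Filter.atTop, k ∈ S.D (b + 2) := by
        filter_upwards [h1] with b hb
        apply S.age
        intro hF
        have h4 : S.x b ^ 120 ≤ S.q b k := by simpa [F] using hF
        have h5 : (1 : ℝ) ≤ S.x b ^ 120 := one_le_pow₀ (by linarith [S.pb_x_big b])
        linarith
      rw [Filter.eventually_atTop] at h3 ⊢
      obtain ⟨a, ha⟩ := h3
      refine ⟨a + 2, fun b hb => ?_⟩
      have h4 := ha (b - 2) (by omega)
      rwa [Nat.sub_add_cancel (by omega : 2 ≤ b)] at h4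
    have h3 : Filter.Tendsto (fun b => S.q b k ^ 3) Filter.atTop (nhds 0) := by
      simpa using (hq k).pow 3
    have h4 : ∀ᶠ b in Filter.atTop, S.q b k ^ 3 < |S.v e k| :=
      h3.eventually_lt_const (abs_pos.2 hk)
    filter_upwards [h2, h4] with b hb2 hb4
    rw [pb_mem_H]
    have h5 : ((S.q b k ^ 3)⁻¹ * S.v e k) ^ 2 ≤
        ∑ k ∈ S.D b, ((S.q b k ^ 3)⁻¹ * S.v e k) ^ 2 :=
      single_le_sum (f := fun k => ((S.q b k ^ 3)⁻¹ * S.v e k) ^ 2)
        (fun k _ => sq_nonneg _) hb2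
    refine lt_of_lt_of_le ?_ h5
    have h6 : 0 < S.q b k ^ 3 := pow_pos (S.q_pos b k) 3
    have h7 : 1 < |(S.q b k ^ 3)⁻¹ * S.v e k| := by
      rw [abs_mul, abs_inv, abs_of_pos h6, inv_mul_eq_div, one_lt_div h6]
      exact hb4
    rw [← sq_abs]
    exact one_lt_pow₀ h7 (by norm_num)
  obtain ⟨L, hL⟩ := (Filter.eventually_all.2 hmain).exists
  exact ⟨L, eq_univ_of_forall hL⟩

end Fam

end Vale.Agent.P262F
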