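import Vale.Agent.P262F.Meas
import Vale.Agent.P262F.ParamsB

/-!
TASK F. Rounding and folding of a light family with all its features.

Features of `e` (times 1/256): `al k * v e k`, `al i * v e i * (al k * v e k)`,
`(nu (b+1) / nu l) ^ 2 * [e ∈ H l]` for `b < l ≤ L`, where `al k = (q^3)⁻¹` on `D b` and `1` else;
squared norm at most `(2 + 4 + 2) / 65536 ≤ (1/64)^2`. Constraints (`J` has 6 elements):
`1_{Sx b}`, `1`, `kap (q b k)`, `q b k ^ 2 1_{D b}` on the linear features,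
`p i * p k / x ^ 184` on the pairs, `(nu (b+1) / nu l)^4` on the last ones.
-/

open Finset

namespace Vale.Agent.P262F

namespace Fam

variable {V κ : Type} [Fintype V] [DecidableEq V] [Fintype κ] [DecidableEq κ] (S : Fam V κ)

/-- Scaling of the linear features. -/
noncomputable def fr_al (b : ℕ) (k : κ) : ℝ := if k ∈ S.D b then (S.q b k ^ 3)⁻¹ else 1

/-- Scaling of the counting features. -/
noncomputable def fr_bet (b l : ℕ) : ℝ := (S.nu (b + 1) : ℝ) / S.nu l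

/-- The features. -/
noncomputable def fr_phi (L b : ℕ) (e : V) : κ ⊕ ((κ × κ) ⊕ (Finset.Ioc b L)) → ℝ :=
  Sum.elim (fun k => S.fr_al b k * S.v e k / 256)
    (Sum.elim (fun ik => (S.fr_al b ik.1 * S.v e ik.1) * (S.fr_al b ik.2 * S.v e ik.2) / 256)
      (fun l => S.fr_bet b l ^ 2 * (if e ∈ S.H l then 1 else 0) / 256))

/-- The constraints. -/
noncomputable def fr_cc (L b : ℕ) : Fin 6 → κ ⊕ ((κ × κ) ⊕ (Finset.Ioc b L)) → ℝ :=
  ![Sum.elim (fun k => if k ∈ S.Sx b then 1 else 0) (fun _ => 0),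
    Sum.elim (fun _ => 1) (fun _ => 0),
    Sum.elim (fun k => kap (S.q b k)) (fun _ => 0),
    Sum.elim (fun k => if k ∈ S.D b then S.q b k ^ 2 else 0) (fun _ => 0),
    Sum.elim (fun _ => 0) (Sum.elim (fun ik => S.p b ik.1 * S.p b ik.2 / S.x b ^ 184)
      (fun _ => 0)),
    Sum.elim (fun _ => 0) (Sum.elim (fun _ => 0) (fun l => S.fr_bet b l ^ 4))]

theorem fr_x_one (b : ℕ) : 1 ≤ S.x b := by
  refine le_trans ?_ (S.x_ge b)
  rw [x0]
  exact one_le_pow₀ (by norm_num)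

theorem fr_x_pos' (b : ℕ) : 0 < S.x b := lt_of_lt_of_le one_pos (S.fr_x_one b)

theorem fr_q_D_le {b : ℕ} {k : κ} (h : k ∈ S.D b) : S.q b k ≤ 1 := by
  have h1 : S.q b k * S.x b ^ 20 ≤ 1 := by
    simpa [D] using h
  have h2 : 1 ≤ S.x b ^ 20 := one_le_pow₀ (S.fr_x_one b)
  have h3 := S.q_pos b k
  nlinarith

theorem fr_al_ge (b : ℕ) (k : κ) : 1 ≤ S.fr_al b k := by
  unfold fr_al
  split_ifs with h
  · rw [one_le_inv₀ (pow_pos (S.q_pos b k) 3)]
    exact pow_le_one₀ (S.q_pos b k).le (S.fr_q_D_le h)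
  · exact le_rfl

theorem fr_p_nonneg (b : ℕ) (k : κ) : 0 ≤ S.p b k := by
  unfold p
  have := S.q_pos b k
  split_ifs <;> positivity

theorem fr_p_mul_al (b : ℕ) (k : κ) : S.p b k * S.fr_al b k ^ 2 = S.om b k := by
  unfold p fr_al om
  have := S.q_pos b k
  split_ifs with h
  · field_simp
  · simp

theorem fr_sum_al_sq {b : ℕ} {e : V} (h : e ∉ S.H b) : ∑ k, (S.fr_al b k * S.v e k) ^ 2 ≤ 2 := by
  have h1 := S.light_D h
  have h2 := S.hv e
  have h3 : ∑ k, (S.fr_al b k * S.v e k) ^ 2 ≤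
      ∑ k, ((if k ∈ S.D b then ((S.q b k ^ 3)⁻¹ * S.v e k) ^ 2 else 0) + S.v e k ^ 2) := by
    refine Finset.sum_le_sum fun k _ => ?_
    unfold fr_al
    split_ifs with hk
    · nlinarith [sq_nonneg (S.v e k)]
    · simp
  rw [Finset.sum_add_distrib, ← Finset.sum_filter, Finset.filter_mem_eq_inter,
    Finset.univ_inter] at h3
  linarith

omit [DecidableEq V] in
theorem fr_bet_nonneg (b l : ℕ) : 0 ≤ S.fr_bet b l := by
  unfold fr_bet; positivity

theorem fr_bet_pos (b l : ℕ) : 0 < S.fr_bet b l := by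
  unfold fr_bet
  have h1 := S.nu_pos (b + 1)
  have h2 := S.nu_pos l
  positivity

theorem fr_bet_le {b l : ℕ} (h : b < l) : S.fr_bet b l ≤ 1 := by
  unfold fr_bet
  have h2 : (0 : ℝ) < S.nu l := by exact_mod_cast S.nu_pos l
  rw [div_le_one h2]
  exact_mod_cast S.nu_mono h

theorem fr_phi_sq {L b : ℕ} {e : V} (h : e ∉ S.H b) :
    ∑ i, S.fr_phi L b e i ^ 2 ≤ (1 / 64) ^ 2 := by
  have h1 := S.fr_sum_al_sq h
  have h0 : 0 ≤ ∑ k, (S.fr_al b k * S.v e k) ^ 2 := Finset.sum_nonneg fun _ _ => sq_nonneg _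
  have h2 := S.beta_sum b L
  rw [Fintype.sum_sum_type, Fintype.sum_sum_type, Fintype.sum_prod_type]
  simp only [fr_phi, Sum.elim_inl, Sum.elim_inr]
  have e1 : ∑ k, (S.fr_al b k * S.v e k / 256) ^ 2 = (∑ k, (S.fr_al b k * S.v e k) ^ 2) / 65536 := by
    rw [Finset.sum_div]
    exact Finset.sum_congr rfl fun k _ => by ring
  have e2 : ∑ i, ∑ k, ((S.fr_al b i * S.v e i) * (S.fr_al b k * S.v e k) / 256) ^ 2 =
      (∑ k, (S.fr_al b k * S.v e k) ^ 2) ^ 2 / 65536 := by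
    rw [sq (∑ k, _), Finset.sum_mul_sum, Finset.sum_div]
    refine Finset.sum_congr rfl fun i _ => ?_
    rw [Finset.sum_div]
    exact Finset.sum_congr rfl fun k _ => by ring
  have e3 : ∑ l : Finset.Ioc b L, (S.fr_bet b l ^ 2 * (if e ∈ S.H l then 1 else 0) / 256) ^ 2 ≤
      2 / 65536 := by
    calc ∑ l : Finset.Ioc b L, (S.fr_bet b l ^ 2 * (if e ∈ S.H l then 1 else 0) / 256) ^ 2
        ≤ ∑ l : Finset.Ioc b L, (S.fr_bet b l ^ 4) / 65536 := by
          refine Finset.sum_le_sum fun l _ => ?_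
          have := S.fr_bet_nonneg b l
          split_ifs
          · apply le_of_eq; ring
          · have : 0 ≤ S.fr_bet b l ^ 4 := by positivity
            simp only [mul_zero, zero_div]
            rw [zero_pow two_ne_zero]
            positivity
      _ = (∑ l ∈ Finset.Ioc b L, S.fr_bet b l ^ 4) / 65536 := by
          rw [Finset.sum_div, ← Finset.sum_coe_sort (Finset.Ioc b L)
            (fun l => S.fr_bet b l ^ 4 / 65536)]
      _ ≤ 2 / 65536 := by
          have : ∑ l ∈ Finset.Ioc b L, S.fr_bet b l ^ 4 ≤ 2 := h2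
          linarith
  rw [e1, e2]
  nlinarith

theorem fr_p_le (b : ℕ) (k : κ) : S.p b k ≤ S.x b ^ 92 :=
  (Finset.single_le_sum (f := fun k => S.p b k) (fun k _ => S.fr_p_nonneg b k)
    (Finset.mem_univ k)).trans (S.psum b)

theorem fr_cc_nonneg (L b : ℕ) (j : Fin 6) (i) : 0 ≤ S.fr_cc L b j i := by
  have hx := S.fr_x_pos' b
  fin_cases j <;> rcases i with k | ⟨i, k⟩ | l <;>
    simp only [fr_cc, Matrix.cons_val, Sum.elim_inl, Sum.elim_inr, Fin.isValue, Fin.mk_one,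
      Fin.zero_eta, Fin.reduceFinMk, le_refl, zero_le_one]
  · split_ifs <;> norm_num
  · exact (kap_pos (S.q_pos b k)).le
  · split_ifs
    · exact (pow_pos (S.q_pos b k) 2).le
    · exact le_rfl
  · exact div_nonneg (mul_nonneg (S.fr_p_nonneg b i) (S.fr_p_nonneg b k)) (pow_pos hx _).le
  · exact pow_nonneg (S.fr_bet_nonneg b l) 4

theorem fr_cc_le_one (L b : ℕ) (j : Fin 6) (i) : S.fr_cc L b j i ≤ 1 := by
  have hx := S.fr_x_pos' b
  fin_cases j <;> rcases i with k | ⟨i, k⟩ | l <;>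
    simp only [fr_cc, Matrix.cons_val, Sum.elim_inl, Sum.elim_inr, Fin.isValue, Fin.mk_one,
      Fin.zero_eta, Fin.reduceFinMk, le_refl, zero_le_one]
  · split_ifs <;> norm_num
  · exact kap_le_one (S.q_pos b k)
  · split_ifs with h
    · exact pow_le_one₀ (S.q_pos b k).le (S.fr_q_D_le h)
    · exact zero_le_one
  · rw [div_le_one (pow_pos hx _)]
    calc S.p b i * S.p b k ≤ S.x b ^ 92 * S.x b ^ 92 :=
          mul_le_mul (S.fr_p_le b i) (S.fr_p_le b k) (S.fr_p_nonneg b k) (pow_pos hx _).le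
      _ = S.x b ^ 184 := by rw [← pow_add]
  · exact pow_le_one₀ (S.fr_bet_nonneg b l) (S.fr_bet_le (Finset.mem_Ioc.1 l.2).1)

omit [DecidableEq V] in
theorem fr_tau_nonneg (b : ℕ) : 0 ≤ S.tau b := by
  unfold tau
  have h : (1 : ℝ) ≤ S.g b := by
    have : 1 ≤ S.g b := Nat.one_le_two_pow
    exact_mod_cast this
  have h2 : (1 : ℝ) ≤ 8 * (S.g b : ℝ) ^ 8 := by
    have := one_le_pow₀ (n := 8) h
    linarith
  have := Real.log_nonneg h2
  linarith

omit [DecidableEq V] in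
theorem fr_exp_tau (b : ℕ) : Real.exp (-S.tau b / 4) = 1 / (8 * (S.g b : ℝ) ^ 8) := by
  have h : (1 : ℝ) ≤ S.g b := by
    have : 1 ≤ S.g b := Nat.one_le_two_pow
    exact_mod_cast this
  have h2 : (0 : ℝ) < 8 * (S.g b : ℝ) ^ 8 := by positivity
  unfold tau
  rw [show -(4 * Real.log (8 * (S.g b : ℝ) ^ 8)) / 4 = -Real.log (8 * (S.g b : ℝ) ^ 8) by ring,
    Real.exp_neg, Real.exp_log h2, one_div]

theorem fr_fresh_of {L b : ℕ} {E : κ ⊕ ((κ × κ) ⊕ (Finset.Ioc b L)) → ℝ}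
    {ξ : κ → ℝ} {ξ2 : κ → κ → ℝ} {ξ3 : ℕ → ℝ}
    (h : ∀ j, ∑ i, S.fr_cc L b j i * E i ^ 2 ≤ 2 * ∑ i, S.fr_cc L b j i + S.tau b)
    (h1 : ∀ k, E (.inl k) = S.fr_al b k * ξ k / 256)
    (h2 : ∀ i k, E (.inr (.inl (i, k))) = S.fr_al b i * S.fr_al b k * ξ2 i k / 256)
    (h3 : ∀ l : Finset.Ioc b L, E (.inr (.inr l)) = S.fr_bet b l ^ 2 * ξ3 l / 256) :
    S.Fresh L b ξ ξ2 ξ3 := by
  have hx := S.fr_x_pos' b
  have hx1 := S.fr_x_one b
  have hE0 := S.E0 b
  have htau := S.fr_tau_nonneg b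
  have hal : ∀ k, ξ k ^ 2 ≤ (S.fr_al b k * ξ k) ^ 2 := by
    intro k
    rw [mul_pow]
    have := one_le_pow₀ (n := 2) (S.fr_al_ge b k)
    nlinarith [sq_nonneg (ξ k)]
  have key : ∀ (c : κ → ℝ), (∀ k, 0 ≤ c k) →
      ∑ k, c k * (S.fr_al b k * ξ k / 256) ^ 2 ≤ 2 * ∑ k, c k + S.tau b →
      ∑ k, c k * ξ k ^ 2 ≤ 65536 * (2 * ∑ k, c k + S.tau b) := by
    intro c hc hh
    have e1 : ∑ k, c k * ξ k ^ 2 ≤ 65536 * ∑ k, c k * (S.fr_al b k * ξ k / 256) ^ 2 := by
      rw [Finset.mul_sum]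
      refine Finset.sum_le_sum fun k _ => ?_
      calc c k * ξ k ^ 2 ≤ c k * (S.fr_al b k * ξ k) ^ 2 := mul_le_mul_of_nonneg_left (hal k) (hc k)
        _ = 65536 * (c k * (S.fr_al b k * ξ k / 256) ^ 2) := by ring
    linarith
  have g0 := h 0
  have g1 := h 1
  have g2 := h 2
  have g3 := h 3
  have g4 := h 4
  have g5 := h 5
  simp only [fr_cc, Matrix.cons_val, Fintype.sum_sum_type, Sum.elim_inl, Sum.elim_inr, zero_mul,
    Finset.sum_const_zero, add_zero, zero_add, h1, h2, h3, Fintype.sum_prod_type, Fin.isValue,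
    one_mul]
    at g0 g1 g2 g3 g4 g5
  refine ⟨?_, ?_, ?_, ?_, ?_, ?_⟩
  · have := key (fun k => if k ∈ S.Sx b then 1 else 0) (fun k => by split_ifs <;> norm_num) g0
    simp only [ite_mul, one_mul, zero_mul, ← Finset.sum_filter, Finset.filter_mem_eq_inter,
      Finset.univ_inter, Finset.sum_const, nsmul_eq_mul, mul_one] at this
    nlinarith
  · have := key (fun k => 1) (fun k => by norm_num) (by simpa using g1)
    simp only [one_mul, Finset.sum_const, nsmul_eq_mul, mul_one, Finset.card_univ] at this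
    nlinarith
  · have := key (fun k => kap (S.q b k)) (fun k => (kap_pos (S.q_pos b k)).le) g2
    have hn : ∑ k, kap (S.q b k) = S.n b := rfl
    rw [hn] at this
    have hp := S.x_pow b
    have hn0 := S.n_nonneg b
    have hb : (131072 : ℝ) ≤ x0 ^ 10 := by
      rw [x0, ← pow_mul]
      calc (131072 : ℝ) = 2 ^ 17 := by norm_num
        _ ≤ 2 ^ (1000 * 10) := pow_le_pow_right₀ (by norm_num) (by norm_num)
    have h10 : 131072 * S.n b ≤ S.x b ^ 10 := by
      rw [hp]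
      nlinarith
    have h12 : S.x b ^ 10 + S.x b ≤ S.x b ^ 12 := by
      have e1 : S.x b ≤ S.x b ^ 10 := by
        calc S.x b = S.x b ^ 1 := (pow_one _).symm
          _ ≤ S.x b ^ 10 := pow_le_pow_right₀ hx1 (by norm_num)
      have e2 : 2 ≤ S.x b ^ 2 := by nlinarith
      have e3 : S.x b ^ 12 = S.x b ^ 10 * S.x b ^ 2 := by ring
      have e4 : 0 < S.x b ^ 10 := by positivity
      nlinarith
    linarith
  · have e1 : ∑ k ∈ S.D b, S.om b k * ξ k ^ 2 =
        65536 * ∑ k, (if k ∈ S.D b then S.q b k ^ 2 else 0) * (S.fr_al b k * ξ k / 256) ^ 2 := by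
      simp only [ite_mul, zero_mul, ← Finset.sum_filter, Finset.filter_mem_eq_inter,
        Finset.univ_inter]
      rw [Finset.mul_sum]
      refine Finset.sum_congr rfl fun k hk => ?_
      rw [← S.fr_p_mul_al b k, p, if_pos hk]
      ring
    have e2 : ∑ k, (if k ∈ S.D b then S.q b k ^ 2 else 0) ≤ 1 := by
      rw [← Finset.sum_filter, Finset.filter_mem_eq_inter, Finset.univ_inter]
      have h4 := S.sum_D_sq b
      have h5 : (1 : ℝ) ≤ S.x b ^ 10 := one_le_pow₀ hx1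
      have h6 : 0 ≤ ∑ k ∈ S.D b, S.q b k ^ 2 := Finset.sum_nonneg fun _ _ => sq_nonneg _
      nlinarith
    rw [e1]
    linarith
  · have e1 : S.NX b ξ2 = 65536 * S.x b ^ 184 *
        ∑ i, ∑ k, S.p b i * S.p b k / S.x b ^ 184 * (S.fr_al b i * S.fr_al b k * ξ2 i k / 256) ^ 2 := by
      rw [NX, Finset.mul_sum]
      refine Finset.sum_congr rfl fun i _ => ?_
      rw [Finset.mul_sum]
      refine Finset.sum_congr rfl fun k _ => ?_
      rw [← S.fr_p_mul_al b k, ← S.fr_p_mul_al b i]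
      field_simp
      ring
    have e2 : ∑ i, ∑ k, S.p b i * S.p b k / S.x b ^ 184 ≤ 1 := by
      have : ∑ i, ∑ k, S.p b i * S.p b k / S.x b ^ 184 = (∑ k, S.p b k) ^ 2 / S.x b ^ 184 := by
        rw [sq, Finset.sum_mul_sum, Finset.sum_div]
        exact Finset.sum_congr rfl fun i _ => by rw [Finset.sum_div]
      rw [this, div_le_one (pow_pos hx _)]
      calc (∑ k, S.p b k) ^ 2 ≤ (S.x b ^ 92) ^ 2 :=
            pow_le_pow_left₀ (Finset.sum_nonneg fun k _ => S.fr_p_nonneg b k) (S.psum b) 2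
        _ = S.x b ^ 184 := by rw [← pow_mul]
    rw [e1]
    have e3 : 0 < S.x b ^ 184 := by positivity
    calc 65536 * S.x b ^ 184 *
        ∑ i, ∑ k, S.p b i * S.p b k / S.x b ^ 184 * (S.fr_al b i * S.fr_al b k * ξ2 i k / 256) ^ 2
        ≤ 65536 * S.x b ^ 184 * (2 * 1 + S.tau b) := by
          refine mul_le_mul_of_nonneg_left ?_ (by positivity)
          linarith
      _ = S.x b ^ 184 * (65536 * (2 + S.tau b)) := by ring
      _ ≤ S.x b ^ 184 * S.x b := mul_le_mul_of_nonneg_left (by linarith) e3.le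
      _ = S.x b ^ 185 := by ring
  · intro l hl hlL
    have hb := S.beta_sum b L
    have e0 : ∑ l : Finset.Ioc b L, S.fr_bet b l ^ 4 ≤ 2 := by
      rw [Finset.sum_coe_sort (Finset.Ioc b L) (fun l => S.fr_bet b l ^ 4)]
      exact hb
    have hmem : l ∈ Finset.Ioc b L := Finset.mem_Ioc.2 ⟨hl, hlL⟩
    have e1 : S.fr_bet b l ^ 4 * (S.fr_bet b l ^ 2 * ξ3 l / 256) ^ 2 ≤
        ∑ l : Finset.Ioc b L, S.fr_bet b l ^ 4 * (S.fr_bet b l ^ 2 * ξ3 l / 256) ^ 2 := by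
      have := Finset.single_le_sum
        (f := fun l : Finset.Ioc b L => S.fr_bet b l ^ 4 * (S.fr_bet b l ^ 2 * ξ3 l / 256) ^ 2)
        (fun l _ => by have := S.fr_bet_nonneg b l; positivity) (Finset.mem_univ (⟨l, hmem⟩ :
          Finset.Ioc b L))
      simpa using this
    have e2 : S.fr_bet b l ^ 8 * ξ3 l ^ 2 ≤ S.x b := by
      have : S.fr_bet b l ^ 8 * ξ3 l ^ 2 = 65536 * (S.fr_bet b l ^ 4 * (S.fr_bet b l ^ 2 * ξ3 l / 256) ^ 2)
          := by ring
      rw [this]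
      linarith
    have hβ := S.fr_bet_pos b l
    have e3 : ((S.nu l : ℝ) / S.nu (b + 1)) = (S.fr_bet b l)⁻¹ := by
      unfold fr_bet
      rw [inv_div]
    rw [e3, inv_pow, ← div_eq_mul_inv, le_div_iff₀ (by positivity)]
    linarith

theorem round_fresh (L b : ℕ) (G : Finset V) (hG : Disjoint G (S.H b)) (y : V → ℝ)
    (hy : ∀ e ∈ G, 0 ≤ y e ∧ y e ≤ 1) :
    ∃ A ⊆ G, ∃ (ξ : κ → ℝ) (ξ2 : κ → κ → ℝ) (ξ3 : ℕ → ℝ), S.Fresh L b ξ ξ2 ξ3 ∧
      (∀ k, ∑ e ∈ A, S.v e k = ∑ e ∈ G, y e * S.v e k + ξ k) ∧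
      (∀ i k, ∑ e ∈ A, S.v e i * S.v e k = ∑ e ∈ G, y e * (S.v e i * S.v e k) + ξ2 i k) ∧
      (∀ l, b < l → l ≤ L → ((A ∩ S.H l).card : ℝ) = ∑ e ∈ G ∩ S.H l, y e + ξ3 l) := by
  obtain ⟨A, hA, h⟩ := round_thm (J := Fin 6) G (S.fr_phi L b)
    (fun e he => S.fr_phi_sq (Finset.disjoint_left.1 hG he)) (S.fr_cc L b) (S.fr_cc_nonneg L b)
    (S.fr_cc_le_one L b) (S.tau b) (by
      rw [S.fr_exp_tau b]
      have h : (2 : ℝ) ≤ S.g b := by
        have h1 := S.g_ge b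
        have h2 := S.x_ge b
        have h3 : (2 : ℝ) ≤ x0 := by
          rw [x0]
          calc (2 : ℝ) = 2 ^ 1 := (pow_one _).symm
            _ ≤ 2 ^ 1000 := pow_le_pow_right₀ (by norm_num) (by norm_num)
        calc (2 : ℝ) ≤ S.x b := h3.trans h2
          _ = S.x b ^ 1 := (pow_one _).symm
          _ ≤ S.x b ^ 75 := pow_le_pow_right₀ (S.fr_x_one b) (by norm_num)
          _ ≤ _ := h1
      have h8 : (2 : ℝ) ^ 8 ≤ (S.g b : ℝ) ^ 8 := pow_le_pow_left₀ (by norm_num) h 8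
      rw [Fintype.card_fin]
      push_cast
      rw [mul_one_div, ← mul_div_assoc, div_le_one (by positivity)]
      norm_num at h8
      linarith) y hy
  refine ⟨A, hA, fun k => ∑ e ∈ A, S.v e k - ∑ e ∈ G, y e * S.v e k,
    fun i k => ∑ e ∈ A, S.v e i * S.v e k - ∑ e ∈ G, y e * (S.v e i * S.v e k),
    fun l => ((A ∩ S.H l).card : ℝ) - ∑ e ∈ G ∩ S.H l, y e, ?_, fun k => by ring,
    fun i k => by ring, fun l _ _ => by ring⟩
  refine S.fr_fresh_of h ?_ ?_ ?_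
  · intro k
    simp only [fr_phi, Sum.elim_inl]
    rw [mul_sub, sub_div, Finset.mul_sum, Finset.mul_sum, Finset.sum_div, Finset.sum_div]
    congr 1
    exact Finset.sum_congr rfl fun e _ => by ring
  · intro i k
    simp only [fr_phi, Sum.elim_inl, Sum.elim_inr]
    rw [mul_sub, sub_div, Finset.mul_sum, Finset.mul_sum, Finset.sum_div, Finset.sum_div]
    congr 1
    · exact Finset.sum_congr rfl fun e _ => by ring
    · exact Finset.sum_congr rfl fun e _ => by ring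
  · intro l
    simp only [fr_phi, Sum.elim_inr]
    rw [mul_sub, sub_div]
    congr 1
    · rw [← Finset.sum_div, ← Finset.mul_sum]
      simp
    · rw [Finset.mul_sum, Finset.sum_div]
      rw [← Finset.filter_mem_eq_inter, Finset.sum_filter]
      refine Finset.sum_congr rfl fun e _ => ?_
      split_ifs <;> ring

theorem cross_fresh (L b : ℕ) (G : Finset V) (hG : Disjoint G (S.H b)) :
    ∃ w : V → ℕ, (∀ e ∈ G, w e < S.g b ^ 8) ∧ ∀ i ≤ S.g b ^ 8,
      ∃ (ξ : κ → ℝ) (ξ2 : κ → κ → ℝ) (ξ3 : ℕ → ℝ), S.Fresh L b ξ ξ2 ξ3 ∧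
      (∀ k, ∑ e ∈ G.filter (fun e => w e < i), S.v e k =
        (i : ℝ) / (S.g b : ℝ) ^ 8 * ∑ e ∈ G, S.v e k + ξ k) ∧
      (∀ i' k, ∑ e ∈ G.filter (fun e => w e < i), S.v e i' * S.v e k =
        (i : ℝ) / (S.g b : ℝ) ^ 8 * ∑ e ∈ G, S.v e i' * S.v e k + ξ2 i' k) ∧
      (∀ l, b < l → l ≤ L → (((G.filter (fun e => w e < i)) ∩ S.H l).card : ℝ) =
        (i : ℝ) / (S.g b : ℝ) ^ 8 * ((G ∩ S.H l).card : ℝ) + ξ3 l) := by
  have hgpow : S.g b ^ 8 = 2 ^ (8 * S.j b) := by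
    rw [g, ← pow_mul, mul_comm]
  have hgpow' : (S.g b : ℝ) ^ 8 = 2 ^ (8 * S.j b) := by exact_mod_cast hgpow
  have hj : 1 ≤ 8 * S.j b := by
    by_contra hcon
    have : S.j b = 0 := by omega
    have h0 : S.g b = 1 := by rw [g, this, pow_zero]
    have h1 := S.g_ge b
    rw [h0, Nat.cast_one] at h1
    have h2 := S.x_ge b
    have h3 : (2 : ℝ) ≤ x0 := by
      rw [x0]
      calc (2 : ℝ) = 2 ^ 1 := (pow_one _).symm
        _ ≤ 2 ^ 1000 := pow_le_pow_right₀ (by norm_num) (by norm_num)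
    have : (2 : ℝ) ≤ S.x b ^ 75 := by
      calc (2 : ℝ) ≤ S.x b := h3.trans h2
          _ = S.x b ^ 1 := (pow_one _).symm
          _ ≤ S.x b ^ 75 := pow_le_pow_right₀ (S.fr_x_one b) (by norm_num)
    linarith
  obtain ⟨w, hw, h⟩ := cross_thm (J := Fin 6) G (S.fr_phi L b)
    (fun e he => S.fr_phi_sq (Finset.disjoint_left.1 hG he)) (S.fr_cc L b) (S.fr_cc_nonneg L b)
    (S.fr_cc_le_one L b) (S.tau b) (8 * S.j b) hj (by
      rw [S.fr_exp_tau b, ← hgpow', Fintype.card_fin]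
      have hg : (0 : ℝ) < (S.g b : ℝ) ^ 8 := by rw [hgpow']; positivity
      push_cast
      rw [mul_one_div, ← mul_div_assoc, div_le_one (by positivity)]
      linarith)
  refine ⟨w, fun e he => by rw [hgpow]; exact hw e he, fun i hi => ?_⟩
  have hi' := h i (by rw [← hgpow]; exact hi)
  refine ⟨fun k => ∑ e ∈ G.filter (fun e => w e < i), S.v e k -
      (i : ℝ) / (S.g b : ℝ) ^ 8 * ∑ e ∈ G, S.v e k,
    fun i' k => ∑ e ∈ G.filter (fun e => w e < i), S.v e i' * S.v e k -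
      (i : ℝ) / (S.g b : ℝ) ^ 8 * ∑ e ∈ G, S.v e i' * S.v e k,
    fun l => (((G.filter (fun e => w e < i)) ∩ S.H l).card : ℝ) -
      (i : ℝ) / (S.g b : ℝ) ^ 8 * ((G ∩ S.H l).card : ℝ), ?_, fun k => by ring,
    fun i k => by ring, fun l _ _ => by ring⟩
  rw [← hgpow'] at hi'
  refine S.fr_fresh_of hi' ?_ ?_ ?_
  · intro k
    simp only [fr_phi, Sum.elim_inl]
    rw [mul_sub, sub_div]
    congr 1
    · rw [Finset.mul_sum, Finset.sum_div]
    · rw [← Finset.sum_div, ← Finset.mul_sum]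
      ring
  · intro i' k
    simp only [fr_phi, Sum.elim_inl, Sum.elim_inr]
    rw [mul_sub, sub_div]
    congr 1
    · rw [Finset.mul_sum, Finset.sum_div]
      exact Finset.sum_congr rfl fun e _ => by ring
    · rw [Finset.mul_sum, Finset.mul_sum, Finset.mul_sum, Finset.sum_div]
      exact Finset.sum_congr rfl fun e _ => by ring
  · intro l
    simp only [fr_phi, Sum.elim_inr]
    rw [mul_sub, sub_div]
    congr 1
    · rw [← Finset.sum_div, ← Finset.mul_sum]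
      simp
    · rw [← Finset.sum_div, ← Finset.mul_sum]
      simp
      ring

end Fam

end Vale.Agent.P262F
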