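import Vale.Agent.P074.PL

/-!
TASK A. Banaszczyk's key lemma with constant `1/64`, from Prékopa–Leindler.
-/

open MeasureTheory Set
open scoped ENNReal

namespace Vale.Agent.P262F

/-- Unnormalised Gaussian measure of a set of `Fin n → ℝ`. -/
noncomputable def gw (n : ℕ) (A : Set (Fin n → ℝ)) : ℝ≥0∞ :=
  ∫⁻ y in A, ENNReal.ofReal (Real.exp (-(∑ i, y i ^ 2) / 2))

/-- The chords of `K` in direction `e_0` of length at least `2 a`, extended by `a` at both ends. -/
def chordExt {n : ℕ} (K : Set (Fin (n + 1) → ℝ)) (a : ℝ) : Set (Fin (n + 1) → ℝ) :=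
  {y | ∃ s t : ℝ, s + 2 * a ≤ t ∧ Function.update y 0 s ∈ K ∧ Function.update y 0 t ∈ K ∧
    s - a ≤ y 0 ∧ y 0 ≤ t + a}

namespace KeyAux

/-- One-dimensional Gaussian weight. -/
noncomputable def u (s : ℝ) : ℝ≥0∞ := ENNReal.ofReal (Real.exp (-(s ^ 2) / 2))

/-- Gaussian weight. -/
noncomputable def E {n : ℕ} (x : Fin n → ℝ) : ℝ≥0∞ :=
  ENNReal.ofReal (Real.exp (-(∑ i, x i ^ 2) / 2))

/-- Fibre of `K` over `x`. -/
def fib {n : ℕ} (K : Set (Fin (n + 1) → ℝ)) (x : Fin n → ℝ) : Set ℝ :=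
  {s | (Fin.cons s x : Fin (n + 1) → ℝ) ∈ K}

/-- Points over which `K` has a chord of length at least `t`. -/
def A {n : ℕ} (K : Set (Fin (n + 1) → ℝ)) (t : ℝ) : Set (Fin n → ℝ) :=
  {x | ∃ s, s ∈ fib K x ∧ s + t ∈ fib K x}

/-- Maximal Gaussian weight on the fibre. -/
noncomputable def ψ {n : ℕ} (K : Set (Fin (n + 1) → ℝ)) (x : Fin n → ℝ) : ℝ≥0∞ :=
  ⨆ s ∈ fib K x, u s

theorem u_cont : Continuous u := by
  unfold u
  refine ENNReal.continuous_ofReal.comp (Real.continuous_exp.comp ?_)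
  fun_prop

theorem u_meas : Measurable u := u_cont.measurable

theorem E_cont {n : ℕ} : Continuous (E (n := n)) := by
  unfold E
  refine ENNReal.continuous_ofReal.comp (Real.continuous_exp.comp ?_)
  fun_prop

theorem E_meas {n : ℕ} : Measurable (E (n := n)) := E_cont.measurable

theorem u_le_one (s : ℝ) : u s ≤ 1 := by
  unfold u
  rw [← ENNReal.ofReal_one]
  refine ENNReal.ofReal_le_ofReal ?_
  rw [Real.exp_le_one_iff]
  have := sq_nonneg s
  linarith

theorem E_le_one {n : ℕ} (x : Fin n → ℝ) : E x ≤ 1 := by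
  unfold E
  rw [← ENNReal.ofReal_one]
  refine ENNReal.ofReal_le_ofReal ?_
  rw [Real.exp_le_one_iff]
  have : 0 ≤ ∑ i, x i ^ 2 := Finset.sum_nonneg fun i _ => sq_nonneg _
  linarith

theorem u_mono {s t : ℝ} (h : |s| ≤ |t|) : u t ≤ u s := by
  unfold u
  refine ENNReal.ofReal_le_ofReal (Real.exp_le_exp.2 ?_)
  have := sq_le_sq.2 h
  linarith

theorem cont_cons {n : ℕ} : Continuous fun p : ℝ × (Fin n → ℝ) =>
    (Fin.cons p.1 p.2 : Fin (n + 1) → ℝ) := by
  refine continuous_pi fun i => ?_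
  refine Fin.cases ?_ (fun j => ?_) i
  · simpa using continuous_fst
  · simp only [Fin.cons_succ]
    exact (continuous_apply j).comp continuous_snd

theorem cont_cons_left {n : ℕ} (x : Fin n → ℝ) : Continuous fun s : ℝ =>
    (Fin.cons s x : Fin (n + 1) → ℝ) :=
  cont_cons.comp (continuous_id.prodMk continuous_const)

theorem cont_tail {n : ℕ} : Continuous fun y : Fin (n + 1) → ℝ => (Fin.tail y : Fin n → ℝ) := by
  refine continuous_pi fun i => ?_
  exact continuous_apply _

theorem exp_split {n : ℕ} (s : ℝ) (x : Fin n → ℝ) :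
    ENNReal.ofReal (Real.exp (-(∑ i, (Fin.cons s x : Fin (n + 1) → ℝ) i ^ 2) / 2)) =
      E x * u s := by
  unfold E u
  rw [← ENNReal.ofReal_mul (Real.exp_nonneg _), ← Real.exp_add]
  congr 2
  rw [Fin.sum_univ_succ]
  simp only [Fin.cons_zero, Fin.cons_succ]
  ring

/-- Tonelli. -/
theorem gw_eq {n : ℕ} {K : Set (Fin (n + 1) → ℝ)} (hK : MeasurableSet K) :
    gw (n + 1) K = ∫⁻ x, E x * ∫⁻ s in fib K x, u s := by
  have hcont : Continuous fun y : Fin (n + 1) → ℝ =>
      ENNReal.ofReal (Real.exp (-(∑ i, y i ^ 2) / 2)) := E_cont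
  unfold gw
  rw [← lintegral_indicator hK, P074.lintegral_fin_succ (hcont.measurable.indicator hK),
    lintegral_lintegral_swap]
  · refine lintegral_congr fun x => ?_
    have hf : MeasurableSet (fib K x) := (cont_cons_left x).measurable hK
    rw [← lintegral_indicator hf, ← lintegral_const_mul _ (u_meas.indicator hf)]
    refine lintegral_congr fun s => ?_
    by_cases h : (Fin.cons s x : Fin (n + 1) → ℝ) ∈ K
    · rw [indicator_of_mem h, indicator_of_mem (show s ∈ fib K x from h), exp_split]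
    · rw [indicator_of_notMem h, indicator_of_notMem (show s ∉ fib K x from h), mul_zero]
  · exact ((hcont.measurable.indicator hK).comp cont_cons.measurable).aemeasurable

section K
variable {n : ℕ} {K : Set (Fin (n + 1) → ℝ)}

theorem fib_closed (hK : IsClosed K) (x : Fin n → ℝ) : IsClosed (fib K x) :=
  hK.preimage (cont_cons_left x)

theorem fib_compact (hK : IsCompact K) (x : Fin n → ℝ) : IsCompact (fib K x) := by
  refine (hK.image (continuous_apply 0)).of_isClosed_subset (fib_closed hK.isClosed x) ?_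
  intro s hs
  exact ⟨_, hs, by simp⟩

theorem cons_comb {a b s t : ℝ} (x y : Fin n → ℝ) :
    a • (Fin.cons s x : Fin (n + 1) → ℝ) + b • (Fin.cons t y : Fin (n + 1) → ℝ) =
      Fin.cons (a * s + b * t) (a • x + b • y) := by
  ext i
  refine Fin.cases ?_ (fun j => ?_) i <;> simp

theorem comb_mem (hc : Convex ℝ K) {x y : Fin n → ℝ} {s t a b : ℝ} (hs : s ∈ fib K x)
    (ht : t ∈ fib K y) (ha : 0 ≤ a) (hb : 0 ≤ b) (hab : a + b = 1) :
    a * s + b * t ∈ fib K (a • x + b • y) := by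
  show (Fin.cons _ _ : Fin (n + 1) → ℝ) ∈ K
  rw [← cons_comb]
  exact hc hs ht ha hb hab

theorem fib_convex (hc : Convex ℝ K) (x : Fin n → ℝ) : Convex ℝ (fib K x) := by
  intro s hs t ht a b ha hb hab
  have := comb_mem hc hs ht ha hb hab
  rwa [← add_smul, hab, one_smul] at this

/-- The fibres are compact intervals. -/
theorem fib_eq (hK : IsCompact K) (hc : Convex ℝ K) {x : Fin n → ℝ} (h : (fib K x).Nonempty) :
    ∃ l r, l ≤ r ∧ fib K x = Icc l r := by
  have h1 : IsConnected (fib K x) := ⟨h, (fib_convex hc x).isPreconnected⟩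
  have h2 := eq_Icc_of_connected_compact h1 (fib_compact hK x)
  refine ⟨_, _, ?_, h2⟩
  rw [h2] at h
  exact nonempty_Icc.1 h

theorem A_compact (hK : IsCompact K) (t : ℝ) : IsCompact (A K t) := by
  have h1 : IsClosed {y : Fin (n + 1) → ℝ |
      (Fin.cons (y 0 + t) (Fin.tail y) : Fin (n + 1) → ℝ) ∈ K} := by
    refine hK.isClosed.preimage (cont_cons.comp (Continuous.prodMk ?_ cont_tail))
    exact (continuous_apply 0).add continuous_const
  have h2 := (hK.inter_right h1).image (cont_tail (n := n))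
  convert h2 using 1
  ext x
  constructor
  · rintro ⟨s, hs, ht⟩
    refine ⟨Fin.cons s x, ⟨hs, ?_⟩, by simp⟩
    show (Fin.cons ((Fin.cons s x : Fin (n + 1) → ℝ) 0 + t)
      (Fin.tail (Fin.cons s x : Fin (n + 1) → ℝ)) : Fin (n + 1) → ℝ) ∈ K
    rw [Fin.cons_zero, Fin.tail_cons]
    exact ht
  · rintro ⟨y, ⟨hy, hy'⟩, rfl⟩
    refine ⟨y 0, ?_, hy'⟩
    show (Fin.cons _ _ : Fin (n + 1) → ℝ) ∈ K
    rwa [Fin.cons_self_tail]

theorem A_anti (hc : Convex ℝ K) {t t' : ℝ} (h0 : 0 ≤ t) (h : t ≤ t') : A K t' ⊆ A K t := by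
  rintro x ⟨s, hs, hs'⟩
  refine ⟨s, hs, ?_⟩
  rcases h0.eq_or_lt with rfl | h0
  · simpa using hs
  · have ht' : 0 < t' := h0.trans_le h
    have h1 := fib_convex hc x hs hs' (a := 1 - t / t') (b := t / t')
      (by rw [sub_nonneg, div_le_one ht']; exact h) (by positivity) (by ring)
    convert h1 using 1
    simp only [smul_eq_mul]
    field_simp
    ring

theorem mem_A_zero {x : Fin n → ℝ} : x ∈ A K 0 ↔ (fib K x).Nonempty := by
  constructor
  · rintro ⟨s, hs, _⟩; exact ⟨s, hs⟩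
  · rintro ⟨s, hs⟩; exact ⟨s, hs, by simpa using hs⟩

theorem ψ_attained (hK : IsCompact K) {x : Fin n → ℝ} (h : (fib K x).Nonempty) :
    ∃ s ∈ fib K x, ψ K x = u s ∧ ∀ t ∈ fib K x, |s| ≤ |t| := by
  obtain ⟨s, hs, hmin⟩ := (fib_compact hK x).exists_isMinOn h continuous_abs.continuousOn
  have hmin' : ∀ t ∈ fib K x, |s| ≤ |t| := fun t ht => hmin ht
  refine ⟨s, hs, le_antisymm ?_ ?_, hmin'⟩
  · exact iSup₂_le fun t ht => u_mono (hmin' t ht)
  · exact le_iSup₂ (f := fun s (_ : s ∈ fib K x) => u s) s hs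

theorem ψ_le_one (x : Fin n → ℝ) : ψ K x ≤ 1 := iSup₂_le fun t _ => u_le_one t

theorem ψ_meas (hK : IsCompact K) : Measurable (ψ K) := by
  refine measurable_of_Ici fun c => ?_
  rcases eq_or_ne c 0 with rfl | hc
  · have : ψ K ⁻¹' Ici 0 = univ := by ext; simp
    rw [this]; exact MeasurableSet.univ
  · have h1 : IsClosed {y : Fin (n + 1) → ℝ | c ≤ u (y 0)} :=
      isClosed_le continuous_const (u_cont.comp (continuous_apply 0))
    have h2 := (hK.inter_right h1).image (cont_tail (n := n))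
    convert h2.measurableSet using 1
    ext x
    constructor
    · intro hx
      have hx' : c ≤ ψ K x := hx
      rcases (fib K x).eq_empty_or_nonempty with h | h
      · exfalso
        have : ψ K x = 0 := by unfold ψ; rw [h]; simp
        rw [this] at hx'
        exact hc (le_antisymm hx' zero_le)
      · obtain ⟨s, hs, h3, _⟩ := ψ_attained hK h
        refine ⟨Fin.cons s x, ⟨hs, ?_⟩, by simp⟩
        show c ≤ u ((Fin.cons s x : Fin (n + 1) → ℝ) 0)
        rw [Fin.cons_zero, ← h3]; exact hx'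
    · rintro ⟨y, ⟨hy, hy'⟩, rfl⟩
      show c ≤ ψ K (Fin.tail y)
      have hy' : c ≤ u (y 0) := hy'
      refine hy'.trans (le_iSup₂ (f := fun s (_ : s ∈ fib K (Fin.tail y)) => u s) (y 0) ?_)
      show (Fin.cons _ _ : Fin (n + 1) → ℝ) ∈ K
      rwa [Fin.cons_self_tail]

theorem int_u : ∫⁻ s, u s = ENNReal.ofReal (Real.sqrt (2 * Real.pi)) := by
  have h1 : ∀ s : ℝ, Real.exp (-(s ^ 2) / 2) = Real.exp (-(1 / 2) * s ^ 2) := by
    intro s; congr 1; ring
  have h2 := integral_gaussian (1 / 2)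
  have h3 := integrable_exp_neg_mul_sq (b := 1 / 2) (by norm_num)
  unfold u
  simp only [h1]
  rw [← ofReal_integral_eq_lintegral_ofReal h3
    (Filter.Eventually.of_forall fun s => Real.exp_nonneg _), h2]
  congr 2
  ring

theorem u_ge {s : ℝ} (h : |s| ≤ 33 / 64) : ENNReal.ofReal (3 / 4) ≤ u s := by
  unfold u
  refine ENNReal.ofReal_le_ofReal ?_
  have h1 : s ^ 2 ≤ (33 / 64) ^ 2 := sq_le_sq' (abs_le.1 h).1 (abs_le.1 h).2
  have h2 := Real.add_one_le_exp (-(s ^ 2) / 2)
  linarith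

/-- A short fibre has small Gaussian measure. -/
theorem fib_short (hK : IsCompact K) (hc : Convex ℝ K) {x : Fin n → ℝ} {t : ℝ} (ht : 0 ≤ t)
    (hx : x ∉ A K t) : ∫⁻ s in fib K x, u s ≤ ENNReal.ofReal t * ψ K x := by
  rcases (fib K x).eq_empty_or_nonempty with h | h
  · rw [h]; simp
  · obtain ⟨l, r, hlr, hI⟩ := fib_eq hK hc h
    have hrl : r - l ≤ t := by
      by_contra hcon
      push Not at hcon
      refine hx ⟨l, ?_, ?_⟩
      · rw [hI]; exact ⟨le_rfl, hlr⟩
      · rw [hI]; exact ⟨by linarith, by linarith⟩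
    calc ∫⁻ s in fib K x, u s ≤ ∫⁻ s in fib K x, ψ K x := by
          refine setLIntegral_mono' ((fib_closed hK.isClosed x).measurableSet) fun s hs => ?_
          exact le_iSup₂ (f := fun s (_ : s ∈ fib K x) => u s) s hs
      _ = ψ K x * volume (fib K x) := by rw [setLIntegral_const]
      _ ≤ ENNReal.ofReal t * ψ K x := by
          rw [hI, Real.volume_Icc, mul_comm]
          gcongr

/-- The fibre integral is at most `√(2π)` times the maximal weight. -/
theorem fib_sqrt (hK : IsCompact K) (hc : Convex ℝ K) (x : Fin n → ℝ) :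
    ∫⁻ s in fib K x, u s ≤ ENNReal.ofReal (Real.sqrt (2 * Real.pi)) * ψ K x := by
  rcases (fib K x).eq_empty_or_nonempty with h | h
  · rw [h]; simp
  · obtain ⟨s0, hs0, hψ, hmin⟩ := ψ_attained hK h
    have key : ∀ s ∈ fib K x, 0 ≤ s0 * (s - s0) := by
      intro s hs
      have h1 := hmin s hs
      rcases lt_trichotomy s0 0 with h0 | h0 | h0
      · have : s ≤ s0 := by
          by_contra hcon
          push Not at hcon
          rcases le_or_gt s 0 with h2 | h2
          · rw [abs_of_neg h0, abs_of_nonpos h2] at h1; linarith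
          · -- `0` lies in the fibre
            have h3 : (0 : ℝ) ∈ fib K x :=
              (fib_convex hc x).ordConnected.out hs0 hs ⟨h0.le, h2.le⟩
            have := hmin 0 h3
            rw [abs_zero] at this
            have := abs_pos.2 h0.ne
            linarith
        nlinarith
      · rw [h0]; simp
      · have : s0 ≤ s := by
          by_contra hcon
          push Not at hcon
          rcases le_or_gt 0 s with h2 | h2
          · rw [abs_of_pos h0, abs_of_nonneg h2] at h1; linarith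
          · have h3 : (0 : ℝ) ∈ fib K x :=
              (fib_convex hc x).ordConnected.out hs hs0 ⟨h2.le, h0.le⟩
            have := hmin 0 h3
            rw [abs_zero] at this
            have := abs_pos.2 h0.ne'
            linarith
        nlinarith
    calc ∫⁻ s in fib K x, u s ≤ ∫⁻ s in fib K x, u s0 * u (s - s0) := by
          refine setLIntegral_mono' ((fib_closed hK.isClosed x).measurableSet) fun s hs => ?_
          unfold u
          rw [← ENNReal.ofReal_mul (Real.exp_nonneg _), ← Real.exp_add]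
          refine ENNReal.ofReal_le_ofReal (Real.exp_le_exp.2 ?_)
          have := key s hs
          nlinarith
      _ ≤ ∫⁻ s, u s0 * u (s - s0) := setLIntegral_le_lintegral _ _
      _ = u s0 * ∫⁻ s, u (s - s0) :=
          lintegral_const_mul _ (u_meas.comp (measurable_id.sub_const _))
      _ = u s0 * ∫⁻ s, u s := by rw [lintegral_sub_right_eq_self u s0]
      _ = ENNReal.ofReal (Real.sqrt (2 * Real.pi)) * ψ K x := by rw [int_u, hψ, mul_comm]

theorem mem_fib_ext {a : ℝ} {x : Fin n → ℝ} {s p q : ℝ} (hp : p ∈ fib K x) (hq : q ∈ fib K x)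
    (hpq : p + 2 * a ≤ q) (h1 : p - a ≤ s) (h2 : s ≤ q + a) : s ∈ fib (chordExt K a) x := by
  refine ⟨p, q, hpq, ?_, ?_, ?_, ?_⟩
  · rw [Fin.update_cons_zero]; exact hp
  · rw [Fin.update_cons_zero]; exact hq
  · simpa using h1
  · simpa using h2

theorem fib_sub {a : ℝ} (ha0 : 0 < a) (hK : IsCompact K) (hc : Convex ℝ K) {x : Fin n → ℝ}
    (hx : x ∈ A K (2 * a)) : fib K x ⊆ fib (chordExt K a) x := by
  obtain ⟨p, hp, hq⟩ := hx
  obtain ⟨l, r, hlr, hI⟩ := fib_eq hK hc ⟨p, hp⟩
  have hl : l ∈ fib K x := by rw [hI]; exact ⟨le_rfl, hlr⟩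
  have hr : r ∈ fib K x := by rw [hI]; exact ⟨hlr, le_rfl⟩
  intro s hs
  rw [hI] at hp hq hs
  exact mem_fib_ext hl hr (by linarith [hp.1, hq.2]) (by linarith [hs.1]) (by linarith [hs.2])

/-- Gain over short fibres. -/
theorem fib_gain (hK : IsCompact K) (hc : Convex ℝ K) {x : Fin n → ℝ} {a : ℝ} (ha0 : 0 < a)
    (ha : a ≤ 1 / 64) (hx : x ∈ A K (2 * a)) (hxT : x ∉ A K (1 / 2)) :
    (∫⁻ s in fib K x, u s) + ENNReal.ofReal (3 / 4 * a) * ψ K x ≤
      ∫⁻ s in fib (chordExt K a) x, u s := by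
  have hsub := fib_sub ha0 hK hc hx
  obtain ⟨p, hp, hq⟩ := hx
  obtain ⟨l, r, hlr, hI⟩ := fib_eq hK hc ⟨p, hp⟩
  have hl : l ∈ fib K x := by rw [hI]; exact ⟨le_rfl, hlr⟩
  have hr : r ∈ fib K x := by rw [hI]; exact ⟨hlr, le_rfl⟩
  obtain ⟨s0, hs0, hψ, hmin⟩ := ψ_attained hK ⟨p, hp⟩
  have h2a : l + 2 * a ≤ r := by rw [hI] at hp hq; linarith [hp.1, hq.2]
  have hT : r < l + 1 / 2 := by
    by_contra hcon
    push Not at hcon
    exact hxT ⟨l, hl, by rw [hI]; exact ⟨by linarith, hcon⟩⟩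
  obtain ⟨J, hJm, hJd, hJv, hJs, hJu⟩ : ∃ J : Set ℝ, MeasurableSet J ∧ Disjoint (fib K x) J ∧
      volume J = ENNReal.ofReal a ∧ J ⊆ fib (chordExt K a) x ∧
      ∀ s ∈ J, |s| ≤ 33 / 64 ∨ |s| ≤ |s0| := by
    rw [hI] at hs0
    rcases le_or_gt 0 r with h0 | h0
    · refine ⟨Ico (l - a) l, measurableSet_Ico, ?_, ?_, ?_, ?_⟩
      · rw [hI, disjoint_left]
        intro s hs hs'
        exact absurd hs'.2 (not_lt.2 hs.1)
      · rw [Real.volume_Ico]; congr 1; ring
      · intro s hs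
        exact mem_fib_ext hl hr h2a hs.1 (by linarith [hs.2])
      · intro s hs
        rcases le_or_gt 0 s with h1 | h1
        · right
          have : s < l := hs.2
          rw [abs_of_nonneg h1, abs_of_nonneg (by linarith [hs0.1])]
          linarith [hs0.1]
        · left
          rw [abs_of_neg h1]
          linarith [hs.1]
    · refine ⟨Ioc r (r + a), measurableSet_Ioc, ?_, ?_, ?_, ?_⟩
      · rw [hI, disjoint_left]
        intro s hs hs'
        exact absurd hs'.1 (not_lt.2 hs.2)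
      · rw [Real.volume_Ioc]; congr 1; ring
      · intro s hs
        exact mem_fib_ext hl hr h2a (by linarith [hs.1]) hs.2
      · intro s hs
        rcases le_or_gt s 0 with h1 | h1
        · right
          have : r < s := hs.1
          rw [abs_of_nonpos h1, abs_of_nonpos (by linarith [hs0.2])]
          linarith [hs0.2]
        · left
          rw [abs_of_pos h1]
          linarith [hs.2]
  have hJ : ENNReal.ofReal (3 / 4 * a) * ψ K x ≤ ∫⁻ s in J, u s := by
    calc ENNReal.ofReal (3 / 4 * a) * ψ K x = (ENNReal.ofReal (3 / 4) * ψ K x) * volume J := by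
          rw [hJv, ENNReal.ofReal_mul (by norm_num)]; ring
      _ = ∫⁻ s in J, ENNReal.ofReal (3 / 4) * ψ K x := by rw [setLIntegral_const]
      _ ≤ ∫⁻ s in J, u s := by
          refine setLIntegral_mono' hJm fun s hs => ?_
          rcases hJu s hs with h1 | h1
          · calc _ ≤ ENNReal.ofReal (3 / 4) * 1 := by gcongr; exact ψ_le_one x
              _ = ENNReal.ofReal (3 / 4) := mul_one _
              _ ≤ _ := u_ge h1
          · calc _ ≤ 1 * u s0 := by
                  rw [hψ]; gcongr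
                  rw [← ENNReal.ofReal_one]
                  exact ENNReal.ofReal_le_ofReal (by norm_num)
              _ = u s0 := one_mul _
              _ ≤ _ := u_mono h1
  calc _ ≤ (∫⁻ s in fib K x, u s) + ∫⁻ s in J, u s := by gcongr
    _ = ∫⁻ s in fib K x ∪ J, u s := (lintegral_union hJm hJd).symm
    _ ≤ _ := lintegral_mono_set (union_subset hsub hJs)

theorem ext_compact (hK : IsCompact K) {a : ℝ} (ha0 : 0 < a) : IsCompact (chordExt K a) := by
  have h1 : IsClosed {z : (Fin (n + 1) → ℝ) × (Fin (n + 1) → ℝ) × ℝ |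
      Fin.tail z.1 = Fin.tail z.2.1 ∧ z.1 0 + 2 * a ≤ z.2.1 0} := by
    refine IsClosed.inter ?_ ?_
    · exact isClosed_eq (cont_tail.comp continuous_fst)
        (cont_tail.comp (continuous_fst.comp continuous_snd))
    · exact isClosed_le (((continuous_apply 0).comp continuous_fst).add continuous_const)
        ((continuous_apply 0).comp (continuous_fst.comp continuous_snd))
  have h2 : IsCompact (K ×ˢ K ×ˢ Icc (0 : ℝ) 1) := hK.prod (hK.prod isCompact_Icc)
  have h3 : Continuous fun z : (Fin (n + 1) → ℝ) × (Fin (n + 1) → ℝ) × ℝ =>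
      (Fin.cons ((1 - z.2.2) * (z.1 0 - a) + z.2.2 * (z.2.1 0 + a)) (Fin.tail z.1) :
        Fin (n + 1) → ℝ) := by
    refine cont_cons.comp (Continuous.prodMk ?_ (cont_tail.comp continuous_fst))
    have e1 : Continuous fun z : (Fin (n + 1) → ℝ) × (Fin (n + 1) → ℝ) × ℝ => z.2.2 :=
      continuous_snd.comp continuous_snd
    have e2 : Continuous fun z : (Fin (n + 1) → ℝ) × (Fin (n + 1) → ℝ) × ℝ => z.1 0 :=
      (continuous_apply 0).comp continuous_fst
    have e3 : Continuous fun z : (Fin (n + 1) → ℝ) × (Fin (n + 1) → ℝ) × ℝ => z.2.1 0 :=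
      (continuous_apply 0).comp (continuous_fst.comp continuous_snd)
    exact ((continuous_const.sub e1).mul (e2.sub continuous_const)).add
      (e1.mul (e3.add continuous_const))
  have h4 := (h2.inter_right h1).image h3
  convert h4 using 1
  have hupd : ∀ (y : Fin (n + 1) → ℝ) (s : ℝ), Function.update y 0 s = Fin.cons s (Fin.tail y) := by
    intro y s
    conv_lhs => rw [← Fin.cons_self_tail y]
    rw [Fin.update_cons_zero]
  ext y
  constructor
  · rintro ⟨s, t, hst, hs, ht, h5, h6⟩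
    have hpos : 0 < t + a - (s - a) := by linarith
    refine ⟨(Function.update y 0 s, Function.update y 0 t, (y 0 - (s - a)) / (t + a - (s - a))),
      ⟨⟨hs, ht, ?_, ?_⟩, ?_, ?_⟩, ?_⟩
    · exact div_nonneg (by linarith) hpos.le
    · exact (div_le_one hpos).2 (by linarith)
    · rw [hupd, hupd, Fin.tail_cons, Fin.tail_cons]
    · show (Function.update y 0 s) 0 + 2 * a ≤ (Function.update y 0 t) 0
      rw [Function.update_self, Function.update_self]
      exact hst
    · show (Fin.cons ((1 - (y 0 - (s - a)) / (t + a - (s - a))) * ((Function.update y 0 s) 0 - a) +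
        (y 0 - (s - a)) / (t + a - (s - a)) * ((Function.update y 0 t) 0 + a))
        (Fin.tail (Function.update y 0 s)) : Fin (n + 1) → ℝ) = y
      rw [Function.update_self, Function.update_self, hupd, Fin.tail_cons]
      have : (1 - (y 0 - (s - a)) / (t + a - (s - a))) * (s - a) +
          (y 0 - (s - a)) / (t + a - (s - a)) * (t + a) = y 0 := by
        field_simp
        ring
      rw [this, Fin.cons_self_tail]
  · rintro ⟨⟨p, q, θ⟩, ⟨⟨hp, hq, hθ0, hθ1⟩, h5, h6⟩, rfl⟩
    have hp' : p ∈ K := hp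
    have hq' : q ∈ K := hq
    have h5' : Fin.tail p = Fin.tail q := h5
    have h6' : p 0 + 2 * a ≤ q 0 := h6
    have hθ0' : 0 ≤ θ := hθ0
    have hθ1' : θ ≤ 1 := hθ1
    refine ⟨p 0, q 0, h6', ?_, ?_, ?_, ?_⟩
    · rw [Fin.update_cons_zero]
      show (Fin.cons (p 0) (Fin.tail p) : Fin (n + 1) → ℝ) ∈ K
      rwa [Fin.cons_self_tail]
    · rw [Fin.update_cons_zero]
      show (Fin.cons (q 0) (Fin.tail p) : Fin (n + 1) → ℝ) ∈ K
      rwa [h5', Fin.cons_self_tail]
    · show p 0 - a ≤ (1 - θ) * (p 0 - a) + θ * (q 0 + a)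
      nlinarith
    · show (1 - θ) * (p 0 - a) + θ * (q 0 + a) ≤ q 0 + a
      nlinarith

/-- Total weight over points with a chord of length at least `t`. -/
noncomputable def N (K : Set (Fin (n + 1) → ℝ)) (t : ℝ) : ℝ≥0∞ :=
  ∫⁻ x in A K t, ψ K x * E x

theorem M_meas (hK : IsCompact K) : Measurable fun x => ψ K x * E x :=
  (ψ_meas hK).mul E_meas

theorem ofReal_exp_rpow (x s : ℝ) :
    ENNReal.ofReal (Real.exp x) ^ s = ENNReal.ofReal (Real.exp (x * s)) := by
  rw [ENNReal.ofReal_rpow_of_pos (Real.exp_pos x), ← Real.exp_mul]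

theorem u_log {s x y : ℝ} (hs0 : 0 < s) (hs1 : s < 1) :
    u x ^ (1 - s) * u y ^ s ≤ u ((1 - s) * x + s * y) := by
  unfold u
  rw [ofReal_exp_rpow, ofReal_exp_rpow, ← ENNReal.ofReal_mul (Real.exp_nonneg _), ← Real.exp_add]
  refine ENNReal.ofReal_le_ofReal (Real.exp_le_exp.2 ?_)
  have : 0 ≤ s * (1 - s) * (x - y) ^ 2 := by
    have : 0 < 1 - s := by linarith
    positivity
  nlinarith

theorem E_log {s : ℝ} (hs0 : 0 < s) (hs1 : s < 1) (x y : Fin n → ℝ) :
    E x ^ (1 - s) * E y ^ s ≤ E ((1 - s) • x + s • y) := by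
  unfold E
  rw [ofReal_exp_rpow, ofReal_exp_rpow, ← ENNReal.ofReal_mul (Real.exp_nonneg _), ← Real.exp_add]
  refine ENNReal.ofReal_le_ofReal (Real.exp_le_exp.2 ?_)
  have h1 : ∑ i, ((1 - s) • x + s • y) i ^ 2 ≤ (1 - s) * ∑ i, x i ^ 2 + s * ∑ i, y i ^ 2 := by
    rw [Finset.mul_sum, Finset.mul_sum, ← Finset.sum_add_distrib]
    refine Finset.sum_le_sum fun i _ => ?_
    simp only [Pi.add_apply, Pi.smul_apply, smul_eq_mul]
    have : 0 ≤ s * (1 - s) * (x i - y i) ^ 2 := by
      have : 0 < 1 - s := by linarith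
      positivity
    nlinarith
  nlinarith

/-- Prékopa–Leindler for the weights `N`. -/
theorem N_pl (hK : IsCompact K) (hc : Convex ℝ K) {a : ℝ} (ha0 : 0 < a) (ha : a ≤ 1 / 64) :
    N K 0 ^ (1 - 4 * a) * N K (1 / 2) ^ (4 * a) ≤ N K (2 * a) := by
  have hs0 : 0 < 4 * a := by linarith
  have hs1 : 4 * a < 1 := by linarith
  have hM := M_meas hK
  have hm0 := (A_compact hK 0).measurableSet
  have hm1 := (A_compact hK (1 / 2)).measurableSet
  have hm2 := (A_compact hK (2 * a)).measurableSet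
  have hb : ∀ t : ℝ, ∃ (C : NNReal) (R : ℝ), ∀ x, (A K t).indicator (fun x => ψ K x * E x) x ≤
      (Metric.closedBall (0 : Fin n → ℝ) R).indicator (fun _ => (C : ℝ≥0∞)) x := by
    intro t
    obtain ⟨R, hR⟩ := (A_compact hK t).isBounded.subset_closedBall 0
    refine ⟨1, R, fun x => ?_⟩
    by_cases hx : x ∈ A K t
    · rw [indicator_of_mem hx, indicator_of_mem (hR hx)]
      calc ψ K x * E x ≤ 1 * 1 := by gcongr; exacts [ψ_le_one x, E_le_one x]
        _ = ((1 : NNReal) : ℝ≥0∞) := by simp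
    · rw [indicator_of_notMem hx]; exact zero_le
  unfold N
  rw [← lintegral_indicator hm0, ← lintegral_indicator hm1, ← lintegral_indicator hm2]
  refine P074.pl_pi hs0 hs1 n (hM.indicator hm0) (hM.indicator hm1) (hM.indicator hm2)
    (hb 0) (hb (1 / 2)) fun x y => ?_
  by_cases hx : x ∈ A K 0
  swap
  · rw [indicator_of_notMem hx, ENNReal.zero_rpow_of_pos (by linarith), zero_mul]
    exact zero_le
  by_cases hy : y ∈ A K (1 / 2)
  swap
  · rw [indicator_of_notMem hy, ENNReal.zero_rpow_of_pos (by linarith), mul_zero]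
    exact zero_le
  have hyA := hy
  obtain ⟨p, hp⟩ := mem_A_zero.1 hx
  obtain ⟨q, hq, hq'⟩ := hy
  obtain ⟨sx, hsx, hψx, -⟩ := ψ_attained hK ⟨p, hp⟩
  obtain ⟨sy, hsy, hψy, -⟩ := ψ_attained hK ⟨q, hq⟩
  have hz : (1 - 4 * a) • x + (4 * a) • y ∈ A K (2 * a) := by
    refine ⟨_, comb_mem hc hp hq (a := 1 - 4 * a) (b := 4 * a) (by linarith) (by linarith)
      (by ring), ?_⟩
    have := comb_mem hc hp hq' (a := 1 - 4 * a) (b := 4 * a) (by linarith) (by linarith) (by ring)
    convert this using 1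
    ring
  rw [indicator_of_mem hx, indicator_of_mem hyA, indicator_of_mem hz]
  have h1 : ψ K x ^ (1 - 4 * a) * ψ K y ^ (4 * a) ≤ ψ K ((1 - 4 * a) • x + (4 * a) • y) := by
    rw [hψx, hψy]
    refine (u_log hs0 hs1).trans ?_
    exact le_iSup₂ (f := fun s (_ : s ∈ fib K ((1 - 4 * a) • x + (4 * a) • y)) => u s) _
      (comb_mem hc hsx hsy (by linarith) (by linarith) (by ring))
  calc (ψ K x * E x) ^ (1 - 4 * a) * (ψ K y * E y) ^ (4 * a)
      = (ψ K x ^ (1 - 4 * a) * ψ K y ^ (4 * a)) * (E x ^ (1 - 4 * a) * E y ^ (4 * a)) := by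
        rw [ENNReal.mul_rpow_of_nonneg _ _ (by linarith), ENNReal.mul_rpow_of_nonneg _ _ hs0.le]
        ring
    _ ≤ _ := by gcongr; exact E_log hs0 hs1 x y

theorem real_ineq {n0 n1 n2 q lam : ℝ} (h2 : 0 ≤ n2) (h21 : n2 ≤ n1) (h10 : n1 ≤ n0)
    (hq : 2 ≤ q) (h : q * n0 ≤ 2 * (q * n2) + (n0 - n2)) (hl0 : 0 < lam) (hl : lam ≤ 1 / 16)
    (hv : n0 ^ (1 - lam) * n2 ^ lam ≤ n1) : 2 * (n0 - n1) ≤ 3 / 4 * (n1 - n2) := by
  rcases (h2.trans (h21.trans h10)).eq_or_lt with h0 | h0
  · have : n1 = 0 := le_antisymm (by linarith) (by linarith)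
    have : n2 = 0 := le_antisymm (by linarith) h2
    linarith
  have hn2 : n0 ≤ 3 * n2 := by nlinarith
  have hn2' : 0 < n2 := by linarith
  have h3 : n0 ^ (1 - lam) * n2 ^ lam = n0 * (n2 / n0) ^ lam := by
    rw [Real.div_rpow hn2'.le h0.le, Real.rpow_sub h0, Real.rpow_one]
    field_simp
  have h4 : 1 + lam * (1 - n0 / n2) ≤ (n2 / n0) ^ lam := by
    have h5 : 0 < n2 / n0 := by positivity
    rw [Real.rpow_def_of_pos h5]
    have h6 := Real.add_one_le_exp (Real.log (n2 / n0) * lam)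
    have h7 := Real.one_sub_inv_le_log_of_pos h5
    rw [inv_div] at h7
    nlinarith
  have h5 : n0 * (1 + lam * (1 - n0 / n2)) ≤ n1 := by
    refine le_trans ?_ hv
    rw [h3]
    exact mul_le_mul_of_nonneg_left h4 h0.le
  have h6 : n0 * (lam * (n0 / n2 - 1)) ≤ 3 / 16 * (n0 - n2) := by
    have e1 : n0 * (lam * (n0 / n2 - 1)) = (n0 / n2) * (lam * (n0 - n2)) := by
      field_simp
    have e2 : n0 / n2 ≤ 3 := by rw [div_le_iff₀ hn2']; exact hn2
    have e3 : 0 ≤ n0 - n2 := by linarith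
    rw [e1]
    calc (n0 / n2) * (lam * (n0 - n2)) ≤ 3 * (1 / 16 * (n0 - n2)) := by gcongr
      _ = _ := by ring
  nlinarith

end K
end KeyAux

open KeyAux

/-- Key lemma. -/
theorem gw_chordExt_ge {n : ℕ} {K : Set (Fin (n + 1) → ℝ)} (hK : IsCompact K)
    (hc : Convex ℝ K) (hm : gw (n + 1) univ ≤ 2 * gw (n + 1) K) {a : ℝ} (ha0 : 0 < a)
    (ha : a ≤ 1 / 64) : gw (n + 1) K ≤ gw (n + 1) (chordExt K a) := by
  set A0 := A K 0 with hA0
  set A1 := A K (2 * a) with hA1
  set A2 := A K (1 / 2) with hA2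
  have m0 : MeasurableSet A0 := (A_compact hK 0).measurableSet
  have m1 : MeasurableSet A1 := (A_compact hK _).measurableSet
  have m2 : MeasurableSet A2 := (A_compact hK _).measurableSet
  have h21 : A2 ⊆ A1 := A_anti hc (by linarith) (by linarith)
  have h10 : A1 ⊆ A0 := A_anti hc le_rfl (by linarith)
  have hM := M_meas hK
  set M : (Fin n → ℝ) → ℝ≥0∞ := fun x => ψ K x * E x with hMdef
  set G : (Fin n → ℝ) → ℝ≥0∞ := fun x => ∫⁻ s in fib K x, u s with hG
  set G' : (Fin n → ℝ) → ℝ≥0∞ := fun x => ∫⁻ s in fib (chordExt K a) x, u s with hG'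
  set q : ℝ≥0∞ := ENNReal.ofReal (Real.sqrt (2 * Real.pi)) with hq
  set D1 : ℝ≥0∞ := ∫⁻ x in A0 \ A1, M x with hD1
  set D2 : ℝ≥0∞ := ∫⁻ x in A1 \ A2, M x with hD2
  have e0 : N K 0 = N K (2 * a) + D1 := by
    have := lintegral_inter_add_sdiff (μ := volume) M A0 m1
    rw [inter_eq_self_of_subset_right h10] at this
    exact this.symm
  have e1 : N K (2 * a) = N K (1 / 2) + D2 := by
    have := lintegral_inter_add_sdiff (μ := volume) M A1 m2
    rw [inter_eq_self_of_subset_right h21] at this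
    exact this.symm
  have hG0 : ∀ x, x ∉ A0 → G x = 0 := by
    intro x hx
    have : fib K x = ∅ := by
      rw [eq_empty_iff_forall_notMem]
      intro s hs
      exact hx (mem_A_zero.2 ⟨s, hs⟩)
    simp only [hG, this, Measure.restrict_empty, lintegral_zero_measure]
  have hgK : gw (n + 1) K = ∫⁻ x, E x * G x := gw_eq hK.measurableSet
  have hgK' : gw (n + 1) (chordExt K a) = ∫⁻ x, E x * G' x :=
    gw_eq (ext_compact hK ha0).measurableSet
  have hM0 : ∀ (t : ℝ) (B : Set (Fin n → ℝ)), MeasurableSet B → 0 ≤ t →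
      (∀ x ∈ A0, x ∉ B → G x ≤ ENNReal.ofReal t * ψ K x) →
      ∫⁻ x in Bᶜ, E x * G x ≤ ENNReal.ofReal t * ∫⁻ x in A0 \ B, M x := by
    intro t B hB ht h
    calc ∫⁻ x in Bᶜ, E x * G x ≤ ∫⁻ x in Bᶜ, A0.indicator (fun x => ENNReal.ofReal t * M x) x := by
          refine setLIntegral_mono' hB.compl fun x hx => ?_
          by_cases hx0 : x ∈ A0
          · rw [indicator_of_mem hx0]
            calc E x * G x ≤ E x * (ENNReal.ofReal t * ψ K x) := by gcongr; exact h x hx0 hx
              _ = _ := by simp only [hMdef]; ring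
          · rw [hG0 x hx0, mul_zero]; exact zero_le
      _ = ∫⁻ x in A0 \ B, ENNReal.ofReal t * M x := by
          rw [lintegral_indicator m0, Measure.restrict_restrict m0]
          congr 1
      _ = _ := by rw [lintegral_const_mul _ hM]
  have hup : gw (n + 1) K ≤ (∫⁻ x in A1, E x * G x) + ENNReal.ofReal (2 * a) * D1 := by
    rw [hgK, ← lintegral_add_compl _ m1]
    gcongr
    exact hM0 (2 * a) A1 m1 (by linarith) fun x _ hx => fib_short hK hc (by linarith) hx
  have hup2 : gw (n + 1) K ≤ q * N K (1 / 2) + ENNReal.ofReal (1 / 2) * (D1 + D2) := by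
    rw [hgK, ← lintegral_add_compl _ m2]
    refine add_le_add ?_ ?_
    · calc ∫⁻ x in A2, E x * G x ≤ ∫⁻ x in A2, q * M x := by
            refine setLIntegral_mono' m2 fun x _ => ?_
            calc E x * G x ≤ E x * (q * ψ K x) := by gcongr; exact fib_sqrt hK hc x
              _ = _ := by simp only [hMdef]; ring
        _ = q * N K (1 / 2) := by rw [lintegral_const_mul _ hM]; rfl
    · refine (hM0 (1 / 2) A2 m2 (by norm_num) fun x _ hx =>
        fib_short hK hc (by norm_num) hx).trans ?_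
      gcongr
      have : A0 \ A2 = (A0 \ A1) ∪ (A1 \ A2) := by
        ext x
        constructor
        · rintro ⟨h1, h2⟩
          by_cases h3 : x ∈ A1
          · exact Or.inr ⟨h3, h2⟩
          · exact Or.inl ⟨h1, h3⟩
        · rintro (⟨h1, h2⟩ | ⟨h1, h2⟩)
          · exact ⟨h1, fun h3 => h2 (h21 h3)⟩
          · exact ⟨h10 h1, h2⟩
      rw [this]
      exact lintegral_union_le _ _ _
  have hlow : (∫⁻ x in A1, E x * G x) + ENNReal.ofReal (3 / 4 * a) * D2 ≤
      gw (n + 1) (chordExt K a) := by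
    have hb : ∀ x ∈ A1, E x * G x ≤ E x * G' x := by
      intro x hx
      gcongr
      exact lintegral_mono_set (fib_sub ha0 hK hc hx)
    have hgain : ∀ x ∈ A1 \ A2, E x * G x + ENNReal.ofReal (3 / 4 * a) * M x ≤ E x * G' x := by
      intro x hx
      calc E x * G x + ENNReal.ofReal (3 / 4 * a) * M x
          = E x * (G x + ENNReal.ofReal (3 / 4 * a) * ψ K x) := by simp only [hMdef]; ring
        _ ≤ _ := by gcongr; exact fib_gain hK hc ha0 ha hx.1 hx.2
    calc (∫⁻ x in A1, E x * G x) + ENNReal.ofReal (3 / 4 * a) * D2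
        = ((∫⁻ x in A1 ∩ A2, E x * G x) + ∫⁻ x in A1 \ A2, E x * G x) +
          ∫⁻ x in A1 \ A2, ENNReal.ofReal (3 / 4 * a) * M x := by
          rw [lintegral_inter_add_sdiff _ A1 m2, lintegral_const_mul _ hM]
      _ = (∫⁻ x in A1 ∩ A2, E x * G x) +
          ∫⁻ x in A1 \ A2, (E x * G x + ENNReal.ofReal (3 / 4 * a) * M x) := by
          rw [lintegral_add_right _ (hM.const_mul _)]
          ring
      _ ≤ (∫⁻ x in A1 ∩ A2, E x * G' x) + ∫⁻ x in A1 \ A2, E x * G' x := by
          refine add_le_add ?_ ?_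
          · exact setLIntegral_mono' (m1.inter m2) fun x hx => hb x hx.1
          · exact setLIntegral_mono' (m1.diff m2) fun x hx => hgain x hx
      _ = ∫⁻ x in A1, E x * G' x := lintegral_inter_add_sdiff _ A1 m2
      _ ≤ _ := by rw [hgK']; exact setLIntegral_le_lintegral _ _
  -- the real inequality
  have hN0 : N K 0 ≠ ∞ := by
    have h1 : N K 0 ≤ ∫⁻ x in A0, 1 := by
      refine lintegral_mono fun x => ?_
      calc ψ K x * E x ≤ 1 * 1 := by gcongr; exacts [ψ_le_one x, E_le_one x]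
        _ = 1 := one_mul 1
    refine ne_top_of_le_ne_top ?_ h1
    rw [setLIntegral_const, one_mul]
    exact (A_compact hK 0).measure_lt_top.ne
  have hN1 : N K (2 * a) ≠ ∞ := ne_top_of_le_ne_top hN0 (by rw [e0]; exact le_self_add)
  have hN2 : N K (1 / 2) ≠ ∞ := ne_top_of_le_ne_top hN1 (by rw [e1]; exact le_self_add)
  have hD1t : D1 ≠ ∞ := ne_top_of_le_ne_top hN0 (by rw [e0]; exact le_add_self)
  have hD2t : D2 ≠ ∞ := ne_top_of_le_ne_top hN1 (by rw [e1]; exact le_add_self)
  have hqt : q ≠ ∞ := ENNReal.ofReal_ne_top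
  have hbig : q * N K 0 ≤ 2 * gw (n + 1) K := by
    refine le_trans ?_ hm
    rw [gw_eq MeasurableSet.univ]
    have : ∀ x : Fin n → ℝ, fib (univ : Set (Fin (n + 1) → ℝ)) x = univ := fun x => rfl
    simp only [this, Measure.restrict_univ, int_u]
    calc q * N K 0 = ∫⁻ x in A0, q * M x := by rw [lintegral_const_mul _ hM]; rfl
      _ ≤ ∫⁻ x in A0, E x * q := by
          refine lintegral_mono fun x => ?_
          calc q * (ψ K x * E x) ≤ q * (1 * E x) := by gcongr; exact ψ_le_one x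
            _ = _ := by ring
      _ ≤ _ := setLIntegral_le_lintegral _ _
  have hr0 : (N K 0).toReal = (N K (2 * a)).toReal + D1.toReal := by
    rw [e0, ENNReal.toReal_add hN1 hD1t]
  have hr1 : (N K (2 * a)).toReal = (N K (1 / 2)).toReal + D2.toReal := by
    rw [e1, ENNReal.toReal_add hN2 hD2t]
  have hqr : q.toReal = Real.sqrt (2 * Real.pi) := ENNReal.toReal_ofReal (Real.sqrt_nonneg _)
  have hq2 : 2 ≤ q.toReal := by
    rw [hqr]
    refine Real.le_sqrt_of_sq_le ?_
    have := Real.pi_gt_three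
    linarith
  have hmain := real_ineq (n0 := (N K 0).toReal) (n1 := (N K (2 * a)).toReal)
    (n2 := (N K (1 / 2)).toReal) (q := q.toReal) (lam := 4 * a) ENNReal.toReal_nonneg
    (by rw [hr1]; linarith [ENNReal.toReal_nonneg (a := D2)])
    (by rw [hr0]; linarith [ENNReal.toReal_nonneg (a := D1)]) hq2 ?_ (by linarith) (by linarith) ?_
  · have hfin : ENNReal.ofReal (2 * a) * D1 ≤ ENNReal.ofReal (3 / 4 * a) * D2 := by
      rw [← ENNReal.toReal_le_toReal (ENNReal.mul_ne_top ENNReal.ofReal_ne_top hD1t)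
        (ENNReal.mul_ne_top ENNReal.ofReal_ne_top hD2t), ENNReal.toReal_mul, ENNReal.toReal_mul,
        ENNReal.toReal_ofReal (by linarith), ENNReal.toReal_ofReal (by linarith)]
      have h1 : 2 * D1.toReal ≤ 3 / 4 * D2.toReal := by
        have := hmain
        rw [hr0, hr1] at this
        linarith
      nlinarith
    calc _ ≤ _ := hup
      _ ≤ (∫⁻ x in A1, E x * G x) + ENNReal.ofReal (3 / 4 * a) * D2 := by gcongr
      _ ≤ _ := hlow
  · have h1 : q * N K 0 ≤ 2 * (q * N K (1 / 2) + ENNReal.ofReal (1 / 2) * (D1 + D2)) :=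
      hbig.trans (by gcongr)
    have h2 := ENNReal.toReal_mono (by
      refine ENNReal.mul_ne_top (by norm_num) (ENNReal.add_ne_top.2
        ⟨ENNReal.mul_ne_top hqt hN2, ENNReal.mul_ne_top ENNReal.ofReal_ne_top
          (ENNReal.add_ne_top.2 ⟨hD1t, hD2t⟩)⟩)) h1
    rw [ENNReal.toReal_mul, ENNReal.toReal_mul, ENNReal.toReal_add (ENNReal.mul_ne_top hqt hN2)
      (ENNReal.mul_ne_top ENNReal.ofReal_ne_top (ENNReal.add_ne_top.2 ⟨hD1t, hD2t⟩)),
      ENNReal.toReal_mul, ENNReal.toReal_mul, ENNReal.toReal_add hD1t hD2t,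
      ENNReal.toReal_ofReal (by norm_num : (0:ℝ) ≤ 1 / 2)] at h2
    have h3 : (2 : ℝ≥0∞).toReal = 2 := by simp
    rw [h3] at h2
    linarith
  · have h1 := ENNReal.toReal_mono hN1 (N_pl hK hc ha0 ha)
    rwa [ENNReal.toReal_mul, ← ENNReal.toReal_rpow, ← ENNReal.toReal_rpow] at h1

end Vale.Agent.P262F
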