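import Vale.Agent.P262F.ParamsA

/-!
TASK E3. Sums of the costs over the levels.
-/

open Finset

namespace Vale.Agent.P262F

open ParAux

namespace Fam

variable {V κ : Type} [Fintype V] [DecidableEq V] [Fintype κ] [DecidableEq κ] (S : Fam V κ)

namespace SumsAux

/-- potential for `min u u⁻¹` -/
noncomputable def Phi (u : ℝ) : ℝ := if u ≤ 1 then 2 * u else 4 - 2 * u⁻¹

lemma Phi_mono {u v : ℝ} (hu : 0 < u) (h : u ≤ v) : Phi u ≤ Phi v := by
  unfold Phi
  have hv : 0 < v := hu.trans_le h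
  split_ifs with h1 h2 h2
  · linarith
  · push Not at h2
    have : v⁻¹ ≤ 1 := inv_le_one_of_one_le₀ h2.le
    linarith
  · linarith
  · have : v⁻¹ ≤ u⁻¹ := inv_anti₀ hu h
    linarith

lemma Phi_le {u : ℝ} (hu : 0 < u) : Phi u ≤ 4 := by
  unfold Phi
  split_ifs with h1
  · linarith
  · have : 0 < u⁻¹ := inv_pos.2 hu
    linarith

lemma Phi_nonneg {u : ℝ} (hu : 0 < u) : 0 ≤ Phi u := by
  unfold Phi
  split_ifs with h1
  · linarith
  · push Not at h1
    have : u⁻¹ ≤ 1 := inv_le_one_of_one_le₀ h1.le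
    linarith

lemma Phi_step {u : ℝ} (hu : 0 < u) : min u u⁻¹ ≤ Phi u - Phi (u / 2) := by
  unfold Phi
  by_cases h1 : u ≤ 1
  · have h2 : u / 2 ≤ 1 := by linarith
    rw [if_pos h1, if_pos h2]
    exact (min_le_left _ _).trans (by linarith)
  · rw [if_neg h1]
    push Not at h1
    refine (min_le_right _ _).trans ?_
    split_ifs with h2
    · have h3 : u * u⁻¹ = 1 := mul_inv_cancel₀ hu.ne'
      have h4 : 0 < u⁻¹ := inv_pos.2 hu
      have h5 : u⁻¹ ≤ 1 := inv_le_one_of_one_le₀ h1.le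
      nlinarith
    · have h3 : (u / 2)⁻¹ = 2 * u⁻¹ := by
        rw [inv_div]; ring
      have h4 : 0 < u⁻¹ := inv_pos.2 hu
      rw [h3]
      linarith

lemma sum_min (u : ℕ → ℝ) (h0 : ∀ b, 0 < u b) (h1 : ∀ b, u (b + 1) ≤ u b / 2) (B : ℕ) :
    ∑ b ∈ range B, min (u b) (u b)⁻¹ ≤ Phi (u 0) - Phi (u B) := by
  induction B with
  | zero => simp
  | succ B ih =>
    rw [Finset.sum_range_succ]
    have h2 := Phi_step (h0 B)
    have h3 := Phi_mono (h0 (B + 1)) (h1 B)
    linarith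

lemma sum_small (u : ℕ → ℝ) (h0 : ∀ b, 0 < u b) (h1 : ∀ b, u (b + 1) ≤ u b / 2) (B : ℕ) :
    ∑ b ∈ range B, (if u b ≤ 1 then u b else 0) ≤ 2 * min (u 0) 1 - 2 * min (u B) 1 := by
  induction B with
  | zero => simp
  | succ B ih =>
    rw [Finset.sum_range_succ]
    have h2 := h0 B
    have h3 := h1 B
    have h4 := h0 (B + 1)
    split_ifs with h
    · have e1 : min (u B) 1 = u B := min_eq_left h
      have e2 : min (u (B + 1)) 1 ≤ u (B + 1) := min_le_left _ _
      linarith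
    · have e2 : min (u (B + 1)) 1 ≤ 1 := min_le_right _ _
      have e1 : min (u B) 1 = 1 := min_eq_right (not_le.1 h).le
      linarith

lemma g_eta (b : ℕ) : 2 ≤ (S.g b : ℝ) ^ eta := by
  have h1 := S.g_ge b
  have h2 := S.x_ge b
  have h3 : (2 : ℝ) ^ (1000 : ℕ) ≤ S.g b := by
    have h4 : S.x b ≤ S.x b ^ 75 := le_self_pow₀ (S.x_one b) (by norm_num)
    exact (x0_ge.trans h2).trans (h4.trans h1)
  have h5 := pow_rpow_eta (t := 2) (by norm_num)
  rw [← h5]
  exact Real.rpow_le_rpow (by positivity) h3 (by unfold eta; norm_num)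

lemma q_half (b : ℕ) (k : κ) : S.q (b + 1) k ≤ S.q b k / 2 := by
  rw [S.q_succ_div]
  exact div_le_div_of_nonneg_left (S.q_pos b k).le (by norm_num) (S.g_two b)

lemma q_eta_half (b : ℕ) (k : κ) : S.q (b + 1) k ^ eta ≤ S.q b k ^ eta / 2 := by
  rw [S.q_succ_div, Real.div_rpow (S.q_pos b k).le (S.g_pos' b).le]
  exact div_le_div_of_nonneg_left (Real.rpow_nonneg (S.q_pos b k).le _) (by norm_num) (g_eta S b)

lemma kap_eq {q : ℝ} (hq : 0 < q) : kap q = min (q ^ eta) (q ^ eta)⁻¹ := by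
  unfold kap
  have he : (0 : ℝ) ≤ eta := by unfold eta; norm_num
  rw [← Real.inv_rpow hq.le]
  rcases le_total q q⁻¹ with h | h
  · rw [min_eq_left h, min_eq_left (Real.rpow_le_rpow hq.le h he)]
  · rw [min_eq_right h, min_eq_right (Real.rpow_le_rpow (inv_pos.2 hq).le h he)]

lemma sum_kap_one (B : ℕ) (k : κ) : ∑ b ∈ range B, kap (S.q b k) ≤ 4 := by
  have h0 : ∀ b, 0 < S.q b k ^ eta := fun b => Real.rpow_pos_of_pos (S.q_pos b k) _
  have h := sum_min (fun b => S.q b k ^ eta) h0 (fun b => q_eta_half S b k) B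
  have h2 := Phi_le (h0 0)
  have h3 := Phi_nonneg (h0 B)
  have e : ∑ b ∈ range B, kap (S.q b k) =
      ∑ b ∈ range B, min (S.q b k ^ eta) (S.q b k ^ eta)⁻¹ :=
    Finset.sum_congr rfl fun b _ => kap_eq (S.q_pos b k)
  rw [e]
  linarith

/-- each direction pays at most five times -/
lemma pay_count (B : ℕ) (k : κ) : ((range B).filter fun b => k ∈ S.Sx b).card ≤ 5 := by
  by_cases hne : ((range B).filter fun b => k ∈ S.Sx b).Nonempty
  · set T := (range B).filter fun b => k ∈ S.Sx b with hT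
    set m := T.max' hne with hm
    have hmT : m ∈ T := T.max'_mem hne
    have hmS : k ∈ S.Sx m := (Finset.mem_filter.1 hmT).2
    have hmA : k ∉ S.A m := by
      simp only [Fam.Sx, Finset.mem_sdiff, Finset.mem_union, not_or] at hmS
      exact hmS.2.2
    have h1 := S.w_lb hmA
    have h2 : (T.image (· + 1)) ⊆ (Finset.Icc 1 (m + 1)).filter fun c => k ∉ S.F c := by
      intro c hc
      obtain ⟨b, hb, rfl⟩ := Finset.mem_image.1 hc
      have hb2 : k ∈ S.Sx b := (Finset.mem_filter.1 hb).2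
      simp only [Fam.Sx, Finset.mem_sdiff, Finset.mem_union, not_or] at hb2
      rw [Finset.mem_filter, Finset.mem_Icc]
      exact ⟨⟨by omega, by have := T.le_max' b hb; omega⟩, hb2.2.1⟩
    have h3 := Finset.card_le_card h2
    rw [Finset.card_image_of_injective _ (add_left_injective 1)] at h3
    by_contra hcon
    push Not at hcon
    have h4 : 6 ≤ ((Finset.Icc 1 (m + 1)).filter fun c => k ∉ S.F c).card := by omega
    have h5 : S.w (m + 1) k ≤ (1 / 4) ^ 6 := by
      unfold Fam.w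
      exact pow_le_pow_of_le_one (by norm_num) (by norm_num) h4
    norm_num at h5 h1
    linarith
  · rw [Finset.not_nonempty_iff_eq_empty] at hne
    rw [hne]
    simp

lemma sum_Sx (B : ℕ) : ∑ b ∈ range B, ((S.Sx b).card : ℝ) ≤ 5 * Fintype.card κ := by
  have e : ∑ b ∈ range B, ((S.Sx b).card : ℝ) =
      ∑ k : κ, (((range B).filter fun b => k ∈ S.Sx b).card : ℝ) := by
    have h1 : ∀ b, ((S.Sx b).card : ℝ) = ∑ k : κ, if k ∈ S.Sx b then (1 : ℝ) else 0 := by
      intro b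
      simp
    have h2 : ∀ k : κ, (((range B).filter fun b => k ∈ S.Sx b).card : ℝ) =
        ∑ b ∈ range B, if k ∈ S.Sx b then (1 : ℝ) else 0 := by
      intro k
      rw [Finset.card_filter]
      push_cast
      rfl
    simp only [h1, h2]
    exact Finset.sum_comm
  rw [e]
  calc ∑ k : κ, (((range B).filter fun b => k ∈ S.Sx b).card : ℝ) ≤ ∑ _k : κ, (5 : ℝ) :=
        Finset.sum_le_sum fun k _ => by exact_mod_cast pay_count S B k
    _ = 5 * Fintype.card κ := by simp [mul_comm]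

end SumsAux

open SumsAux

theorem sum_kap (B : ℕ) : ∑ b ∈ range B, S.n b ≤ 4 * Fintype.card κ := by
  have e : ∑ b ∈ range B, S.n b = ∑ k : κ, ∑ b ∈ range B, kap (S.q b k) := Finset.sum_comm
  rw [e]
  calc ∑ k : κ, ∑ b ∈ range B, kap (S.q b k) ≤ ∑ _k : κ, (4 : ℝ) :=
        Finset.sum_le_sum fun k _ => sum_kap_one S B k
    _ = 4 * Fintype.card κ := by simp [mul_comm]

theorem sum_cost (B : ℕ) : ∑ b ∈ range B, S.cost b ≤ 16 * x0 ^ 10 * Fintype.card κ := by
  have h1 : ∀ b, S.cost b ≤ ((S.Sx b).card : ℝ) + x0 ^ 10 * ((S.Sx b).card + S.n b) := by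
    intro b
    have hx : 0 ≤ x0 ^ 10 := pow_nonneg x0_pos.le _
    have hn := S.n_nonneg b
    unfold Fam.cost
    split_ifs with h
    · rw [h]
      simp only [Finset.card_empty, Nat.cast_zero, zero_add]
      positivity
    · rw [S.x_pow]
      have : (1 : ℝ) ≤ (S.Sx b).card := by
        exact_mod_cast Finset.card_pos.2 (Finset.nonempty_of_ne_empty h)
      nlinarith
  have h2 := sum_Sx S B
  have h3 := S.sum_kap B
  have h4 : (1 : ℝ) ≤ x0 ^ 10 := one_le_pow₀ (one_le_two.trans x0_two)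
  calc ∑ b ∈ range B, S.cost b
      ≤ ∑ b ∈ range B, (((S.Sx b).card : ℝ) + x0 ^ 10 * ((S.Sx b).card + S.n b)) :=
        Finset.sum_le_sum fun b _ => h1 b
    _ = ∑ b ∈ range B, ((S.Sx b).card : ℝ) +
        x0 ^ 10 * (∑ b ∈ range B, ((S.Sx b).card : ℝ) + ∑ b ∈ range B, S.n b) := by
        rw [Finset.sum_add_distrib, ← Finset.mul_sum, Finset.sum_add_distrib]
    _ ≤ 16 * x0 ^ 10 * Fintype.card κ := by
        have h5 : (0 : ℝ) ≤ Fintype.card κ := Nat.cast_nonneg _
        have h6 := mul_le_mul_of_nonneg_left (add_le_add h2 h3) (zero_le_one.trans h4)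
        nlinarith

theorem sum_Aq (B : ℕ) : ∑ b ∈ range B, ∑ k ∈ S.A b, S.q b k ≤ 2 * Fintype.card κ := by
  have h1 : ∀ b, ∑ k ∈ S.A b, S.q b k ≤ ∑ k : κ, (if S.q b k ≤ 1 then S.q b k else 0) := by
    intro b
    calc ∑ k ∈ S.A b, S.q b k = ∑ k ∈ S.A b, (if S.q b k ≤ 1 then S.q b k else 0) := by
          refine Finset.sum_congr rfl fun k hk => ?_
          have h2 := S.A_small hk
          have h3 : (1 : ℝ) ≤ S.x b ^ 160 := one_le_pow₀ (S.x_one b)
          have h4 := S.q_pos b k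
          rw [if_pos]
          nlinarith
      _ ≤ ∑ k : κ, (if S.q b k ≤ 1 then S.q b k else 0) := by
          apply Finset.sum_le_sum_of_subset_of_nonneg (Finset.subset_univ _)
          intro k _ _
          split_ifs
          · exact (S.q_pos b k).le
          · exact le_rfl
  calc ∑ b ∈ range B, ∑ k ∈ S.A b, S.q b k
      ≤ ∑ b ∈ range B, ∑ k : κ, (if S.q b k ≤ 1 then S.q b k else 0) :=
        Finset.sum_le_sum fun b _ => h1 b
    _ = ∑ k : κ, ∑ b ∈ range B, (if S.q b k ≤ 1 then S.q b k else 0) := Finset.sum_comm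
    _ ≤ ∑ _k : κ, (2 : ℝ) := by
        refine Finset.sum_le_sum fun k _ => ?_
        have h2 := sum_small (fun b => S.q b k) (fun b => S.q_pos b k) (fun b => q_half S b k) B
        have h3 : min (S.q 0 k) 1 ≤ 1 := min_le_right _ _
        have h4 : 0 ≤ min (S.q B k) 1 := le_min (S.q_pos B k).le zero_le_one
        linarith
    _ = 2 * Fintype.card κ := by simp [mul_comm]

theorem x10_le (b : ℕ) : S.x b ^ 10 ≤ x0 ^ 10 * (1 + Fintype.card κ) := by
  rw [S.x_pow]
  have h1 : S.n b ≤ Fintype.card κ := by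
    calc S.n b = ∑ k : κ, kap (S.q b k) := rfl
      _ ≤ ∑ _k : κ, (1 : ℝ) := Finset.sum_le_sum fun k _ => kap_le_one (S.q_pos b k)
      _ = Fintype.card κ := by simp
  have : 0 ≤ x0 ^ 10 := pow_nonneg x0_pos.le _
  gcongr

end Fam

end Vale.Agent.P262F
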