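import Vale.Agent.P262F.StateR
import Vale.Agent.P262F.CrossC
import Vale.Agent.P262F.Sums

/-!
TASK J. Induction over the levels and extraction of the order.
-/

open Finset

namespace Vale.Agent.P262F

namespace Fam

variable {V κ : Type} [Fintype V] [DecidableEq V] [Fintype κ] [DecidableEq κ] (S : Fam V κ)

theorem U_sub_Sx (b : ℕ) : S.U (b + 1) ⊆ S.Sx b := by
  intro k hk
  simp only [U, Sx, mem_sdiff, mem_univ, true_and, mem_union, not_or] at hk ⊢
  exact ⟨hk.1, fun h => hk.2 (S.A_mono b h)⟩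

theorem step {L b : ℕ} (hb : b + 1 ≤ L) {s : St V κ} {Kb Bb : ℝ} (h : S.Inv L b s Kb Bb) :
    ∃ s' : St V κ, S.Inv L (b + 1) s' (Kb / 2 + 10 ^ 6 * S.cost b)
      (Bb + 8 * ∑ k ∈ S.A b, S.q b k + 2048 * (Kb / 2 + 10 ^ 6 * S.cost b)) := by
  obtain ⟨sR, hR⟩ := S.exists_refresh (by omega) h
  obtain ⟨w, hW⟩ := S.exists_crossW hR
  refine ⟨S.crossSt b sR w, ?_⟩
  have hPS := S.cross_PS hR hW
  exact {
    pos_lt := S.cross_pos_lt hR hW
    X := S.cross_X hb hR hW
    Lf := S.cross_Lf hb hR hW
    LD := S.cross_LD hb hR hW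
    cnt := S.cross_cnt hR hW
    one := S.cross_one hR hW
    PF1 := S.cross_PF1 hR hW
    PF2 := S.cross_PF2 hR hW
    PU := by
      intro z hz
      refine le_trans ?_ (hPS z hz)
      apply Finset.sum_le_sum_of_subset_of_nonneg (S.U_sub_Sx b)
      intro k _ _
      exact mul_nonneg (S.w_pos _ _).le (sq_nonneg _)
    PD := S.cross_PD h hR hW hPS }

theorem init (L : ℕ) : S.Inv L 0 ⟨fun _ => 0, fun _ => 0⟩ 0 0 := by
  have hN : S.N 0 = 1 := by simp [N, nu]
  have hBl : Bl (⟨fun _ => 0, fun _ => 0⟩ : St V κ) 0 = univ := by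
    ext e; simp [Bl]
  have hP : ∀ k, S.P (⟨fun _ => 0, fun _ => 0⟩ : St V κ) 0 k = 0 := by
    intro k; simp [P]
  have hx : ∀ m, 0 ≤ S.x 0 ^ m := fun m => by
    have := S.x_ge 0
    have h0 : (0:ℝ) < x0 := by unfold x0; positivity
    exact pow_nonneg (h0.le.trans this) m
  have hL : ∀ k, S.Ls 0 univ k = 0 := by
    intro k
    simp only [Ls, S.H_zero, sdiff_empty]
    exact S.hsum k
  have hz0 : ∀ {z : ℕ}, z < S.N 0 → z = 0 := by
    intro z hz; rw [hN] at hz; omega
  refine ⟨?_, ?_, ?_, ?_, ?_, ?_, ?_, ?_, ?_, ?_⟩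
  · intro e; rw [hN]; simp
  · intro z hz
    rw [hz0 hz, hBl]
    have : S.NX 0 (S.Xd 0 univ) = 0 := by
      unfold NX
      apply Finset.sum_eq_zero; intro i _
      apply Finset.sum_eq_zero; intro k _
      have h1 : S.Xd 0 univ i k = 0 := by
        simp only [Xd, Qs, S.H_zero, sdiff_empty, S.horth i k]
        split_ifs with h
        · rw [S.R_eq 0 i, hN]; simp
        · simp
      rw [h1]; simp
    rw [this]
    exact hx _
  · intro z hz
    rw [hz0 hz, hBl]
    simp only [hL]
    simpa using hx 410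
  · intro z hz
    rw [hz0 hz, hBl]
    simp only [hL]
    simpa using hx 310
  · intro z hz l _ _
    rw [hz0 hz, hBl, hN]
    simp only [univ_inter, Nat.cast_one, div_one]
    have h1 : 0 ≤ S.x 0 := by simpa using hx 1
    have h2 : (0:ℝ) ≤ ((S.nu l : ℝ) / S.nu 0) ^ 6 := by positivity
    have := mul_nonneg h1 h2
    linarith
  · intro z hz
    simp [Hm]
  · intro z hz
    rw [hz0 hz]
    simp only [hP]
    have := hx 10
    simp
    positivity
  · intro z hz
    rw [hz0 hz]
    simp only [hP]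
    simpa using hx 15
  · intro z hz
    rw [hz0 hz]
    simp [hP]
  · intro z hz
    simp [A]

/-- Sequences of the bounds. -/
noncomputable def KK (S : Fam V κ) : ℕ → ℝ
  | 0 => 0
  | b + 1 => KK S b / 2 + 10 ^ 6 * S.cost b

noncomputable def BB (S : Fam V κ) : ℕ → ℝ
  | 0 => 0
  | b + 1 => BB S b + 8 * ∑ k ∈ S.A b, S.q b k + 2048 * KK S (b + 1)

theorem exists_inv (L : ℕ) : ∀ b ≤ L, ∃ s : St V κ, S.Inv L b s (KK S b) (BB S b) := by
  intro b
  induction b with
  | zero => intro _; exact ⟨_, S.init L⟩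
  | succ b ih =>
    intro hb
    obtain ⟨s, hs⟩ := ih (by omega)
    exact S.step hb hs

theorem x_pos_main (b : ℕ) : 0 < S.x b := by
  have := S.x_ge b
  have h0 : (0:ℝ) < x0 := by unfold x0; positivity
  linarith

theorem cost_nonneg_main (b : ℕ) : 0 ≤ S.cost b := by
  unfold cost
  split_ifs
  · exact le_rfl
  · have := S.x_pos_main b
    positivity

theorem KK_nonneg : ∀ b, 0 ≤ KK S b := by
  intro b
  induction b with
  | zero => exact le_rfl
  | succ b ih =>
    have := S.cost_nonneg_main b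
    simp only [KK]
    positivity

theorem sum_KK (B : ℕ) : ∑ b ∈ range B, KK S (b + 1) + KK S B ≤
    2 * (10 ^ 6 * ∑ b ∈ range B, S.cost b) := by
  induction B with
  | zero => simp [KK]
  | succ B ih =>
    rw [Finset.sum_range_succ, Finset.sum_range_succ]
    have h1 : KK S (B + 1) = KK S B / 2 + 10 ^ 6 * S.cost B := rfl
    linarith

theorem BB_eq (B : ℕ) : BB S B = 8 * ∑ b ∈ range B, ∑ k ∈ S.A b, S.q b k +
    2048 * ∑ b ∈ range B, KK S (b + 1) := by
  induction B with
  | zero => simp [BB]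
  | succ B ih =>
    rw [Finset.sum_range_succ, Finset.sum_range_succ]
    have h1 : BB S (B + 1) = BB S B + 8 * ∑ k ∈ S.A B, S.q B k + 2048 * KK S (B + 1) := rfl
    rw [h1, ih]
    ring

/-- Total size of a boundary value at level `b + 1`. -/
theorem total_P {L b : ℕ} {s : St V κ} (h : S.Inv L (b + 1) s (KK S (b + 1)) (BB S (b + 1)))
    {z : ℕ} (hz : z < S.N (b + 1)) (hκ : 1 ≤ Fintype.card κ) :
    ∑ k, S.P s z k ^ 2 ≤ 10 ^ 15 * x0 ^ 10 * Fintype.card κ := by
  have hc : (1:ℝ) ≤ Fintype.card κ := by exact_mod_cast hκ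
  have hF := h.PF1 z hz
  have hU := h.PU z hz
  have hA := h.PD z hz
  have hx10 := S.x10_le (b + 1)
  have hx0 : (1:ℝ) ≤ x0 ^ 10 := by
    have : (1:ℝ) ≤ x0 := by unfold x0; exact one_le_pow₀ (by norm_num)
    exact one_le_pow₀ this
  have hsplit : ∑ k, S.P s z k ^ 2 ≤ ∑ k ∈ S.F (b + 1), S.P s z k ^ 2 +
      ∑ k ∈ S.U (b + 1), S.P s z k ^ 2 + ∑ k ∈ S.A (b + 1), S.P s z k ^ 2 := by
    have h1 : ∑ k, S.P s z k ^ 2 = ∑ k ∈ S.F (b + 1) ∪ S.A (b + 1), S.P s z k ^ 2 +
        ∑ k ∈ S.U (b + 1), S.P s z k ^ 2 := by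
      unfold U
      rw [add_comm]
      exact (Finset.sum_sdiff (Finset.subset_univ _)).symm
    have h2 : ∑ k ∈ S.F (b + 1) ∪ S.A (b + 1), S.P s z k ^ 2 ≤
        ∑ k ∈ S.F (b + 1), S.P s z k ^ 2 + ∑ k ∈ S.A (b + 1), S.P s z k ^ 2 := by
      have := Finset.sum_union_inter (s₁ := S.F (b + 1)) (s₂ := S.A (b + 1))
        (f := fun k => S.P s z k ^ 2)
      have h3 : 0 ≤ ∑ k ∈ S.F (b + 1) ∩ S.A (b + 1), S.P s z k ^ 2 :=
        Finset.sum_nonneg fun k _ => sq_nonneg _
      linarith
    linarith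
  have hU2 : ∑ k ∈ S.U (b + 1), S.P s z k ^ 2 ≤ 1024 * KK S (b + 1) := by
    refine le_trans ?_ (mul_le_mul_of_nonneg_left hU (by norm_num))
    rw [Finset.mul_sum]
    apply Finset.sum_le_sum
    intro k hk
    have hk2 : k ∉ S.A b := by
      simp only [U, mem_sdiff, mem_univ, true_and, mem_union, not_or] at hk
      exact fun h => hk.2 (S.A_mono b h)
    have := S.w_lb hk2
    nlinarith [sq_nonneg (S.P s z k)]
  have hA2 : ∑ k ∈ S.A (b + 1), S.P s z k ^ 2 ≤ BB S (b + 1) := by
    refine le_trans ?_ hA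
    apply Finset.sum_le_sum
    intro k _
    have := S.q_pos (b + 1) k
    nlinarith [sq_nonneg (S.P s z k)]
  have hK := S.sum_KK (b + 1)
  have hcost := S.sum_cost (b + 1)
  have hAq := S.sum_Aq (b + 1)
  have hBB := S.BB_eq (b + 1)
  have hKn := S.KK_nonneg (b + 1)
  have hKs : 0 ≤ ∑ b ∈ range (b + 1), KK S (b + 1) :=
    Finset.sum_nonneg fun i _ => S.KK_nonneg _
  have hxc : (Fintype.card κ : ℝ) ≤ x0 ^ 10 * Fintype.card κ := by nlinarith
  have hx1 : x0 ^ 10 ≤ x0 ^ 10 * Fintype.card κ := by nlinarith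
  nlinarith

end Fam

theorem exists_sorted {V : Type} [Fintype V] [DecidableEq V] (pos : V → ℕ)
    (hinj : Function.Injective pos) :
    ∃ l : List V, l.Nodup ∧ l.toFinset = univ ∧ l.Pairwise (fun a b => pos a < pos b) := by
  classical
  set r : V → V → Prop := fun a b => pos a ≤ pos b with hr
  have : Std.Total r := ⟨fun a b => le_total _ _⟩
  have : IsTrans V r := ⟨fun a b c => le_trans⟩
  set l := (univ : Finset V).toList.insertionSort r with hl
  have hperm : l.Perm (univ : Finset V).toList := List.perm_insertionSort r _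
  have hnd : l.Nodup := hperm.nodup_iff.mpr (Finset.nodup_toList _)
  refine ⟨l, hnd, ?_, ?_⟩
  · ext e
    simp [hperm.mem_iff]
  · have h1 : l.Pairwise r := List.pairwise_insertionSort r _
    have h2 : l.Pairwise (fun a b => a ≠ b) := hnd
    refine (h1.and h2).imp ?_
    intro a b hab
    exact lt_of_le_of_ne hab.1 (fun h => hab.2 (hinj h))

theorem take_sum {V κ : Type} [Fintype V] [DecidableEq V] (pos : V → ℕ) (v : V → κ → ℝ)
    {l : List V} (hnd : l.Nodup) (hun : l.toFinset = univ)
    (hp : l.Pairwise (fun a b => pos a < pos b)) {m : ℕ} (hm : m < l.length) (k : κ) :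
    ((l.take m).map fun e => v e k).sum =
      ∑ e ∈ univ.filter (fun e => pos e < pos l[m]), v e k := by
  have hset : (l.take m).toFinset = univ.filter (fun e => pos e < pos l[m]) := by
    ext e
    simp only [List.mem_toFinset, mem_filter, mem_univ, true_and]
    constructor
    · intro he
      obtain ⟨i, hi, rfl⟩ := List.mem_take_iff_getElem.mp he
      rw [List.pairwise_iff_getElem] at hp
      exact hp i m (by omega) hm (by omega)
    · intro he
      have hel : e ∈ l := by
        rw [← List.mem_toFinset, hun]; exact mem_univ e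
      obtain ⟨i, hi, rfl⟩ := List.mem_iff_getElem.mp hel
      rw [List.pairwise_iff_getElem] at hp
      have him : i < m := by
        by_contra hcon
        push Not at hcon
        rcases hcon.lt_or_eq with h | h
        · have := hp m i hm hi h
          omega
        · subst h
          omega
      rw [List.mem_take_iff_getElem]
      exact ⟨i, by omega, rfl⟩
  rw [← hset, List.sum_toFinset _ (hnd.sublist (List.take_sublist m l))]

/-- The order, for nonzero vectors in eigen-coordinates with positive energies. -/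
theorem exists_order : ∃ C : ℝ, 0 < C ∧ ∀ (V κ : Type) [Fintype V] [DecidableEq V] [Fintype κ]
    [DecidableEq κ] (S : Fam V κ), ∃ l : List V, l.Nodup ∧ l.toFinset = univ ∧
      ∀ m, ∑ k, ((l.take m).map fun e => S.v e k).sum ^ 2 ≤ C * Fintype.card κ := by
  have hx0 : (0:ℝ) < x0 := by unfold x0; positivity
  refine ⟨4 * (10 ^ 15 * x0 ^ 10), by positivity, ?_⟩
  intro V κ _ _ _ _ S
  rcases Nat.eq_zero_or_pos (Fintype.card κ) with h0 | hκ
  · have hemp : IsEmpty κ := Fintype.card_eq_zero_iff.mp h0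
    refine ⟨(univ : Finset V).toList, Finset.nodup_toList _, by simp, ?_⟩
    intro m
    simp
  · obtain ⟨L, hL⟩ := S.exists_last
    obtain ⟨s, hs⟩ := S.exists_inv (L + 1) (L + 1) le_rfl
    have hinj : Function.Injective s.pos := by
      intro e e' hee
      have h1 := hs.one (s.pos e) (hs.pos_lt e)
      simp only [Fam.Hm, hL, inter_univ] at h1
      rw [Finset.card_le_one] at h1
      exact h1 e (by simp [Bl]) e' (by simp [Bl, hee])
    obtain ⟨l, hnd, hun, hp⟩ := exists_sorted s.pos hinj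
    refine ⟨l, hnd, hun, ?_⟩
    intro m
    have hM : ∀ z < S.N (L + 1), ∑ k, S.P s z k ^ 2 ≤ 10 ^ 15 * x0 ^ 10 * Fintype.card κ :=
      fun z hz => S.total_P hs hz hκ
    rcases lt_or_ge m l.length with hm | hm
    · have hz := hs.pos_lt l[m]
      have h1 := hM _ hz
      have h2 := hM 0 (S.N_pos _)
      have h3 : ∀ k, ((l.take m).map fun e => S.v e k).sum =
          S.P s (s.pos l[m]) k - S.P s 0 k := by
        intro k
        rw [take_sum s.pos S.v hnd hun hp hm k]
        simp [Fam.P]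
      calc ∑ k, ((l.take m).map fun e => S.v e k).sum ^ 2
          = ∑ k, (S.P s (s.pos l[m]) k - S.P s 0 k) ^ 2 := by
            apply Finset.sum_congr rfl; intro k _; rw [h3]
        _ ≤ ∑ k, (2 * S.P s (s.pos l[m]) k ^ 2 + 2 * S.P s 0 k ^ 2) := by
            apply Finset.sum_le_sum; intro k _
            nlinarith [sq_nonneg (S.P s (s.pos l[m]) k + S.P s 0 k)]
        _ = 2 * ∑ k, S.P s (s.pos l[m]) k ^ 2 + 2 * ∑ k, S.P s 0 k ^ 2 := by
            rw [Finset.sum_add_distrib, Finset.mul_sum, Finset.mul_sum]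
        _ ≤ 4 * (10 ^ 15 * x0 ^ 10) * Fintype.card κ := by linarith
    · have h1 : l.take m = l := List.take_of_length_le hm
      have h2 : ∀ k, ((l.take m).map fun e => S.v e k).sum = 0 := by
        intro k
        rw [h1, ← List.sum_toFinset _ hnd, hun]
        exact S.hsum k
      simp only [h2]
      simp
      positivity

/-- Sum over a subtype when the function vanishes outside. -/
theorem sum_sub {ι : Type} [Fintype ι] (p : ι → Prop) [DecidablePred p] [Fintype {a // p a}]
    (f : ι → ℝ) (hf : ∀ a, ¬ p a → f a = 0) : ∑ a : {a // p a}, f a.1 = ∑ a, f a := by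
  rw [← Finset.sum_subtype (univ.filter p) (by simp) f]
  apply Fintype.sum_subset
  intro i hi
  simp only [mem_filter, mem_univ, true_and]
  by_contra h
  exact hi (hf i h)

theorem core_full : ∃ C : ℝ, 0 < C ∧ ∀ d : ℕ, 1 ≤ d → ∀ (N : ℕ) (v : Fin N → Fin d → ℝ),
    (∀ a, ∑ i, v a i ^ 2 ≤ 1) → (∀ i, ∑ a, v a i = 0) →
    (∀ i j, i ≠ j → ∑ a, v a i * v a j = 0) →
    ∃ l : List (Fin N), l.Nodup ∧ l.toFinset = univ ∧
      ∀ k, ∑ i, ((l.take k).map fun a => v a i).sum ^ 2 ≤ C * d := by
  classical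
  obtain ⟨C, hC, hord⟩ := exists_order
  refine ⟨C, hC, ?_⟩
  intro d hd N v hv hsum horth
  set R : Fin d → ℝ := fun i => ∑ a, v a i * v a i with hR
  have hRn : ∀ i, 0 ≤ R i := fun i => Finset.sum_nonneg fun a _ => mul_self_nonneg _
  have hR0 : ∀ i, ¬ 0 < R i → ∀ a, v a i = 0 := by
    intro i hi a
    have h1 : R i = 0 := le_antisymm (not_lt.mp hi) (hRn i)
    have h2 := (Finset.sum_eq_zero_iff_of_nonneg (fun a _ => mul_self_nonneg (v a i))).mp h1 a
      (mem_univ a)
    exact mul_self_eq_zero.mp h2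
  have hR1 : ∀ i a, v a i ≠ 0 → 0 < R i := by
    intro i a h
    by_contra h2
    exact h (hR0 i h2 a)
  let S : Fam {a : Fin N // ∃ i, v a i ≠ 0} {i : Fin d // 0 < R i} :=
    { v := fun a i => v a.1 i.1
      R := fun i => R i.1
      hv := by
        intro a
        have h1 := sum_sub (fun i => 0 < R i) (fun i => v a.1 i ^ 2)
          (fun i hi => by rw [hR0 i hi]; norm_num)
        rw [h1]
        exact hv a.1
      hne := by
        intro a
        obtain ⟨i, hi⟩ := a.2
        exact ⟨⟨i, hR1 i a.1 hi⟩, hi⟩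
      hsum := by
        intro k
        have h1 := sum_sub (fun a => ∃ i, v a i ≠ 0) (fun a => v a k.1) (fun a ha => by
          by_contra h; exact ha ⟨_, h⟩)
        rw [h1]
        exact hsum k.1
      hR := fun i => i.2
      horth := by
        intro i k
        have h1 := sum_sub (fun a => ∃ i, v a i ≠ 0) (fun a => v a i.1 * v a k.1) (fun a ha => by
          have : v a i.1 = 0 := by
            by_contra h; exact ha ⟨_, h⟩
          rw [this, zero_mul])
        rw [h1]
        split_ifs with h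
        · subst h; rfl
        · exact horth i.1 k.1 (fun h2 => h (Subtype.ext h2)) }
  obtain ⟨l, hnd, hun, hl⟩ := hord _ _ S
  have hcard : (Fintype.card {i : Fin d // 0 < R i} : ℝ) ≤ d := by
    have h1 := Fintype.card_subtype_le (fun i : Fin d => 0 < R i)
    rw [Fintype.card_fin] at h1
    exact_mod_cast h1
  set lz : List (Fin N) := (univ.filter fun a => ¬ ∃ i, v a i ≠ 0).toList with hlz
  have hlz0 : ∀ a ∈ lz, ∀ i, v a i = 0 := by
    intro a ha i
    rw [hlz, Finset.mem_toList, mem_filter] at ha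
    by_contra h
    exact ha.2 ⟨i, h⟩
  refine ⟨lz ++ l.map Subtype.val, ?_, ?_, ?_⟩
  · rw [List.nodup_append']
    refine ⟨Finset.nodup_toList _, hnd.map Subtype.val_injective, ?_⟩
    intro a ha hb
    rw [List.mem_map] at hb
    obtain ⟨b, _, rfl⟩ := hb
    rw [hlz, Finset.mem_toList, mem_filter] at ha
    exact ha.2 b.2
  · ext a
    simp only [List.toFinset_append, mem_union, List.mem_toFinset, mem_univ, iff_true]
    by_cases h : ∃ i, v a i ≠ 0
    · right
      rw [List.mem_map]
      refine ⟨⟨a, h⟩, ?_, rfl⟩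
      rw [← List.mem_toFinset, hun]
      exact mem_univ _
    · left
      rw [hlz, Finset.mem_toList, mem_filter]
      exact ⟨mem_univ _, h⟩
  · intro k
    have h1 : ∀ i, (((lz ++ l.map Subtype.val).take k).map fun a => v a i).sum =
        ((l.take (k - lz.length)).map fun a => v a.1 i).sum := by
      intro i
      rw [List.take_append, List.map_append, List.sum_append, ← List.map_take, List.map_map]
      have h2 : ((lz.take k).map fun a => v a i).sum = 0 := by
        apply List.sum_eq_zero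
        intro x hx
        rw [List.mem_map] at hx
        obtain ⟨a, ha, rfl⟩ := hx
        exact hlz0 a (List.mem_of_mem_take ha) i
      rw [h2, zero_add]
      rfl
    have h3 := hl (k - lz.length)
    have h4 := sum_sub (fun i => 0 < R i)
      (fun i => ((l.take (k - lz.length)).map fun a => v a.1 i).sum ^ 2) (fun i hi => by
        have h5 : ((l.take (k - lz.length)).map fun a => v a.1 i).sum = 0 := by
          apply List.sum_eq_zero
          intro x hx
          rw [List.mem_map] at hx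
          obtain ⟨a, _, rfl⟩ := hx
          exact hR0 i hi a.1
        rw [h5]; norm_num)
    calc ∑ i, (((lz ++ l.map Subtype.val).take k).map fun a => v a i).sum ^ 2
        = ∑ i, ((l.take (k - lz.length)).map fun a => v a.1 i).sum ^ 2 := by
          apply Finset.sum_congr rfl; intro i _; rw [h1]
      _ = _ := h4.symm
      _ ≤ C * Fintype.card {i : Fin d // 0 < R i} := h3
      _ ≤ C * d := mul_le_mul_of_nonneg_left hcard hC.le

end Vale.Agent.P262F
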