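import Vale.Agent.P262F.Prefix

/-!
TASK C. Gaussian measure of intersections of ellipsoids; rounding and folding theorems with
explicit quadratic constraints.
-/

open MeasureTheory Set
open scoped ENNReal

namespace Vale.Agent.P262F

namespace MeasAux

/-- Gaussian integral of a diagonal quadratic form. -/
theorem lint_gauss {n : ℕ} (b : Fin n → ℝ) (hb : ∀ i, 0 < b i) :
    ∫⁻ y : EuclideanSpace ℝ (Fin n), ENNReal.ofReal (Real.exp (-∑ i, b i * y i ^ 2)) =
      ENNReal.ofReal (∏ i, Real.sqrt (Real.pi / b i)) := by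
  have hmp := PiLp.volume_preserving_ofLp (Fin n)
  have h1 : ∫⁻ y : EuclideanSpace ℝ (Fin n),
      ENNReal.ofReal (Real.exp (-∑ i, b i * y i ^ 2)) =
      ∫⁻ x : Fin n → ℝ, ENNReal.ofReal (Real.exp (-∑ i, b i * x i ^ 2)) := by
    have hm : Measurable fun x : Fin n → ℝ =>
        ENNReal.ofReal (Real.exp (-∑ i, b i * x i ^ 2)) := by fun_prop
    exact hmp.lintegral_comp hm
  rw [h1]
  have hprod : ∀ x : Fin n → ℝ, Real.exp (-∑ i, b i * x i ^ 2) =
      ∏ i, Real.exp (-b i * x i ^ 2) := by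
    intro x
    rw [← Real.exp_sum, ← Finset.sum_neg_distrib]
    congr 1
    refine Finset.sum_congr rfl fun i _ => ?_
    ring
  simp only [hprod]
  have hint : Integrable (fun x : Fin n → ℝ => ∏ i, Real.exp (-b i * x i ^ 2)) :=
    Integrable.fintype_prod (f := fun i (t : ℝ) => Real.exp (-b i * t ^ 2))
      (fun i => integrable_exp_neg_mul_sq (hb i))
  rw [← ofReal_integral_eq_lintegral_ofReal hint
    (Filter.Eventually.of_forall fun x => Finset.prod_nonneg fun i _ => (Real.exp_pos _).le)]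
  congr 1
  rw [integral_fintype_prod_volume_eq_prod (fun i (t : ℝ) => Real.exp (-b i * t ^ 2))]
  refine Finset.prod_congr rfl fun i _ => ?_
  exact integral_gaussian (b i)

theorem gE_univ (n : ℕ) : gE (univ : Set (EuclideanSpace ℝ (Fin n))) =
    ENNReal.ofReal (∏ _i : Fin n, Real.sqrt (2 * Real.pi)) := by
  unfold gE
  rw [Measure.restrict_univ]
  have h := lint_gauss (n := n) (fun _ => 1 / 2) (fun _ => by norm_num)
  have h2 : ∀ y : EuclideanSpace ℝ (Fin n),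
      Real.exp (-‖y‖ ^ 2 / 2) = Real.exp (-∑ i, 1 / 2 * y i ^ 2) := by
    intro y
    rw [EuclideanSpace.norm_sq_eq, ← Finset.mul_sum]
    congr 1
    simp only [Real.norm_eq_abs, sq_abs]
    ring
  simp only [h2]
  rw [h]
  congr 1
  refine Finset.prod_congr rfl fun i _ => ?_
  congr 1
  ring

/-- Markov bound for one ellipsoid. -/
theorem gE_ellipsoid {n : ℕ} (c : Fin n → ℝ) (hc0 : ∀ i, 0 ≤ c i) (hc1 : ∀ i, c i ≤ 1)
    (τ : ℝ) :
    gE {y : EuclideanSpace ℝ (Fin n) | 2 * ∑ i, c i + τ < ∑ i, c i * y i ^ 2} ≤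
      ENNReal.ofReal (Real.exp (-τ / 4)) * gE (univ : Set (EuclideanSpace ℝ (Fin n))) := by
  set t : ℝ := 2 * ∑ i, c i + τ with ht
  set b : Fin n → ℝ := fun i => 1 / 2 - c i / 4 with hb
  have hbpos : ∀ i, 0 < b i := fun i => by
    have := hc1 i
    simp only [hb]
    linarith
  have hmeas : MeasurableSet {y : EuclideanSpace ℝ (Fin n) | t < ∑ i, c i * y i ^ 2} := by
    apply measurableSet_lt measurable_const
    fun_prop
  have h1 : gE {y : EuclideanSpace ℝ (Fin n) | t < ∑ i, c i * y i ^ 2} ≤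
      ∫⁻ y : EuclideanSpace ℝ (Fin n),
        ENNReal.ofReal (Real.exp (-t / 4)) *
          ENNReal.ofReal (Real.exp (-∑ i, b i * y i ^ 2)) := by
    unfold gE
    refine le_trans ?_ (setLIntegral_le_lintegral
      {y : EuclideanSpace ℝ (Fin n) | t < ∑ i, c i * y i ^ 2} _)
    refine setLIntegral_mono' hmeas fun y hy => ?_
    rw [← ENNReal.ofReal_mul (Real.exp_pos _).le, ← Real.exp_add]
    refine ENNReal.ofReal_le_ofReal (Real.exp_le_exp.2 ?_)
    have hy' : t < ∑ i, c i * y i ^ 2 := hy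
    have hn : ‖y‖ ^ 2 = ∑ i, y i ^ 2 := by
      rw [EuclideanSpace.norm_sq_eq]
      simp only [Real.norm_eq_abs, sq_abs]
    have hs : ∑ i, b i * y i ^ 2 = (∑ i, y i ^ 2) / 2 - (∑ i, c i * y i ^ 2) / 4 := by
      rw [Finset.sum_div, Finset.sum_div, ← Finset.sum_sub_distrib]
      refine Finset.sum_congr rfl fun i _ => ?_
      simp only [hb]
      ring
    rw [hn, hs]
    linarith
  refine h1.trans ?_
  rw [lintegral_const_mul _ (by fun_prop), lint_gauss b hbpos, gE_univ,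
    ← ENNReal.ofReal_mul (Real.exp_pos _).le, ← ENNReal.ofReal_mul (Real.exp_pos _).le]
  refine ENNReal.ofReal_le_ofReal ?_
  have h2 : ∏ i, Real.sqrt (Real.pi / b i) ≤
      ∏ i : Fin n, (Real.exp (c i / 2) * Real.sqrt (2 * Real.pi)) := by
    refine Finset.prod_le_prod (fun i _ => Real.sqrt_nonneg _) fun i _ => ?_
    have hi0 := hc0 i
    have hi1 := hc1 i
    have hb0 := hbpos i
    have h3 : Real.pi / b i ≤ Real.exp (c i) * (2 * Real.pi) := by
      rw [div_le_iff₀ hb0]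
      have h4 : 1 + c i ≤ Real.exp (c i) := by
        have := Real.add_one_le_exp (c i)
        linarith
      have h5 : (1 : ℝ) ≤ Real.exp (c i) * (2 * b i) := by
        have h6 : (1 + c i) * (2 * b i) ≤ Real.exp (c i) * (2 * b i) :=
          mul_le_mul_of_nonneg_right h4 (by linarith)
        refine le_trans ?_ h6
        simp only [hb]
        nlinarith
      calc Real.pi = Real.pi * 1 := by ring
        _ ≤ Real.pi * (Real.exp (c i) * (2 * b i)) :=
          mul_le_mul_of_nonneg_left h5 Real.pi_pos.le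
        _ = Real.exp (c i) * (2 * Real.pi) * b i := by ring
    calc Real.sqrt (Real.pi / b i) ≤ Real.sqrt (Real.exp (c i) * (2 * Real.pi)) :=
          Real.sqrt_le_sqrt h3
      _ = Real.exp (c i / 2) * Real.sqrt (2 * Real.pi) := by
          rw [Real.sqrt_mul (Real.exp_pos _).le, ← Real.exp_half]
  calc Real.exp (-t / 4) * ∏ i, Real.sqrt (Real.pi / b i)
      ≤ Real.exp (-t / 4) * ∏ i : Fin n, (Real.exp (c i / 2) * Real.sqrt (2 * Real.pi)) :=
        mul_le_mul_of_nonneg_left h2 (Real.exp_pos _).le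
    _ = Real.exp (-τ / 4) * ∏ _i : Fin n, Real.sqrt (2 * Real.pi) := by
        rw [Finset.prod_mul_distrib, ← Real.exp_sum, ← mul_assoc, ← Real.exp_add,
          ← Finset.sum_div]
        congr 2
        rw [ht]
        ring

/-- The body of quadratic constraints. -/
def body {n : ℕ} {J : Type} (c : J → Fin n → ℝ) (τ : ℝ) : Set (EuclideanSpace ℝ (Fin n)) :=
  {y | ∀ j, ∑ i, c j i * y i ^ 2 ≤ 2 * ∑ i, c j i + τ}

theorem body_compl {n : ℕ} {J : Type} [Fintype J] (c : J → Fin n → ℝ)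
    (hc0 : ∀ j i, 0 ≤ c j i) (hc1 : ∀ j i, c j i ≤ 1) (τ : ℝ) :
    gE (body c τ)ᶜ ≤ ENNReal.ofReal ((Fintype.card J : ℝ) * Real.exp (-τ / 4)) *
      gE (univ : Set (EuclideanSpace ℝ (Fin n))) := by
  have h1 : (body c τ)ᶜ = ⋃ j : J, {y : EuclideanSpace ℝ (Fin n) |
      2 * ∑ i, c j i + τ < ∑ i, c j i * y i ^ 2} := by
    ext y
    simp only [body, mem_compl_iff, mem_ofPred_eq, not_forall, not_le, mem_iUnion]
  rw [h1]
  unfold gE
  refine (lintegral_iUnion_le _ _).trans ?_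
  rw [tsum_fintype]
  refine (Finset.sum_le_sum fun j _ => gE_ellipsoid (c j) (hc0 j) (hc1 j) τ).trans ?_
  rw [Finset.sum_const, Finset.card_univ, nsmul_eq_mul,
    ENNReal.ofReal_mul (by positivity), ENNReal.ofReal_natCast, mul_assoc]
  rfl

theorem body_closed {n : ℕ} {J : Type} (c : J → Fin n → ℝ) (τ : ℝ) : IsClosed (body c τ) := by
  have h1 : body c τ = ⋂ j : J, {y : EuclideanSpace ℝ (Fin n) |
      ∑ i, c j i * y i ^ 2 ≤ 2 * ∑ i, c j i + τ} := by
    ext y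
    simp only [body, mem_ofPred_eq, mem_iInter]
  rw [h1]
  refine isClosed_iInter fun j => ?_
  exact isClosed_le (by fun_prop) continuous_const

theorem body_convex {n : ℕ} {J : Type} (c : J → Fin n → ℝ) (hc0 : ∀ j i, 0 ≤ c j i) (τ : ℝ) :
    Convex ℝ (body c τ) := by
  intro x hx y hy a b ha hb hab j
  have h1 := hx j
  have h2 := hy j
  have h3 : ∑ i, c j i * (a • x + b • y) i ^ 2 ≤
      a * ∑ i, c j i * x i ^ 2 + b * ∑ i, c j i * y i ^ 2 := by
    rw [Finset.mul_sum, Finset.mul_sum, ← Finset.sum_add_distrib]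
    refine Finset.sum_le_sum fun i _ => ?_
    have h4 : (a • x + b • y) i = a * x i + b * y i := by simp
    rw [h4]
    have h5 : (a * x i + b * y i) ^ 2 ≤ a * x i ^ 2 + b * y i ^ 2 := by
      have hb' : b = 1 - a := by linarith
      have ha1 : a ≤ 1 := by linarith
      subst hb'
      nlinarith [mul_nonneg (mul_nonneg ha hb) (sq_nonneg (x i - y i))]
    nlinarith [mul_le_mul_of_nonneg_left h5 (hc0 j i)]
  refine h3.trans ?_
  calc a * ∑ i, c j i * x i ^ 2 + b * ∑ i, c j i * y i ^ 2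
      ≤ a * (2 * ∑ i, c j i + τ) + b * (2 * ∑ i, c j i + τ) :=
        add_le_add (mul_le_mul_of_nonneg_left h1 ha) (mul_le_mul_of_nonneg_left h2 hb)
    _ = 2 * ∑ i, c j i + τ := by rw [← add_mul, hab, one_mul]

theorem body_neg {n : ℕ} {J : Type} (c : J → Fin n → ℝ) (τ : ℝ) :
    ∀ y ∈ body c τ, -y ∈ body c τ := by
  intro y hy j
  have h := hy j
  simpa using h

/-- The family of constraints with the round one added. -/
def cOpt {n : ℕ} {J : Type} (c : J → Fin n → ℝ) : Option J → Fin n → ℝ :=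
  fun o i => o.elim 1 (fun j => c j i)

theorem body_compact {n : ℕ} {J : Type} (c : J → Fin n → ℝ) (τ : ℝ) :
    IsCompact (body (cOpt c) τ) := by
  refine Metric.isCompact_of_isClosed_isBounded (body_closed _ _) ?_
  refine (Metric.isBounded_closedBall (x := (0 : EuclideanSpace ℝ (Fin n)))
    (r := Real.sqrt (2 * ∑ _i : Fin n, (1 : ℝ) + τ))).subset ?_
  intro y hy
  have h := hy none
  simp only [cOpt, Option.elim_none, one_mul] at h
  rw [Metric.mem_closedBall, dist_zero_right]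
  have hn : ‖y‖ ^ 2 = ∑ i, y i ^ 2 := by
    rw [EuclideanSpace.norm_sq_eq]
    simp only [Real.norm_eq_abs, sq_abs]
  exact Real.le_sqrt_of_sq_le (by rw [hn]; exact h)

theorem cOpt_nonneg {n : ℕ} {J : Type} (c : J → Fin n → ℝ) (hc0 : ∀ j i, 0 ≤ c j i) :
    ∀ j i, 0 ≤ cOpt c j i := by
  intro j i
  cases j with
  | none => simp [cOpt]
  | some j => simpa [cOpt] using hc0 j i

theorem cOpt_le_one {n : ℕ} {J : Type} (c : J → Fin n → ℝ) (hc1 : ∀ j i, c j i ≤ 1) :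
    ∀ j i, cOpt c j i ≤ 1 := by
  intro j i
  cases j with
  | none => simp [cOpt]
  | some j => simpa [cOpt] using hc1 j i

theorem body_mass {n : ℕ} {J : Type} [Fintype J] (c : J → Fin n → ℝ)
    (hc0 : ∀ j i, 0 ≤ c j i) (hc1 : ∀ j i, c j i ≤ 1) (τ : ℝ) (l : ℕ)
    (hτ : 2 ^ l * ((Fintype.card J + 1 : ℝ) * Real.exp (-τ / 4)) ≤ 1) :
    2 ^ l * gE (body (cOpt c) τ)ᶜ ≤ gE (univ : Set (EuclideanSpace ℝ (Fin n))) := by
  have h1 := body_compl (cOpt c) (cOpt_nonneg c hc0) (cOpt_le_one c hc1) τ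
  rw [Fintype.card_option] at h1
  push_cast at h1
  calc 2 ^ l * gE (body (cOpt c) τ)ᶜ
      ≤ 2 ^ l * (ENNReal.ofReal ((Fintype.card J + 1 : ℝ) * Real.exp (-τ / 4)) *
        gE (univ : Set (EuclideanSpace ℝ (Fin n)))) := by gcongr
    _ = ENNReal.ofReal (2 ^ l * ((Fintype.card J + 1 : ℝ) * Real.exp (-τ / 4))) *
        gE (univ : Set (EuclideanSpace ℝ (Fin n))) := by
        rw [← mul_assoc, ENNReal.ofReal_mul (by positivity : (0 : ℝ) ≤ 2 ^ l),
          ENNReal.ofReal_pow (by norm_num), ENNReal.ofReal_ofNat]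
    _ ≤ 1 * gE (univ : Set (EuclideanSpace ℝ (Fin n))) := by
        gcongr
        exact ENNReal.ofReal_le_one.2 hτ
    _ = gE (univ : Set (EuclideanSpace ℝ (Fin n))) := one_mul _

end MeasAux

open MeasAux

theorem round_thm {V I J : Type} [DecidableEq V] [Fintype I] [Fintype J] (G : Finset V)
    (φ : V → I → ℝ) (hφ : ∀ e ∈ G, ∑ i, φ e i ^ 2 ≤ (1 / 64) ^ 2) (c : J → I → ℝ)
    (hc0 : ∀ j i, 0 ≤ c j i) (hc1 : ∀ j i, c j i ≤ 1) (τ : ℝ)
    (hτ : 2 * ((Fintype.card J + 1 : ℝ) * Real.exp (-τ / 4)) ≤ 1)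
    (y : V → ℝ) (hy : ∀ e ∈ G, 0 ≤ y e ∧ y e ≤ 1) :
    ∃ A ⊆ G, ∀ j, ∑ i, c j i * (∑ e ∈ A, φ e i - ∑ e ∈ G, y e * φ e i) ^ 2 ≤
      2 * ∑ i, c j i + τ := by
  classical
  let ε : I ≃ Fin (Fintype.card I) := Fintype.equivFin I
  let φ' : V → EuclideanSpace ℝ (Fin (Fintype.card I)) :=
    fun e => WithLp.toLp 2 (fun k => φ e (ε.symm k))
  let c' : J → Fin (Fintype.card I) → ℝ := fun j k => c j (ε.symm k)
  have hφ' : ∀ e ∈ G, ‖φ' e‖ ≤ 1 / 64 := by
    intro e he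
    have h1 : ‖φ' e‖ ^ 2 ≤ (1 / 64) ^ 2 := by
      rw [EuclideanSpace.norm_sq_eq]
      simp only [Real.norm_eq_abs, sq_abs]
      refine le_trans (le_of_eq ?_) (hφ e he)
      exact ε.symm.sum_comp (fun i => φ e i ^ 2)
    exact le_of_sq_le_sq h1 (by norm_num)
  have hc0' : ∀ j k, 0 ≤ c' j k := fun j k => hc0 j _
  have hc1' : ∀ j k, c' j k ≤ 1 := fun j k => hc1 j _
  have hm : 2 * gE (body (cOpt c') τ)ᶜ ≤
      gE (univ : Set (EuclideanSpace ℝ (Fin (Fintype.card I)))) := by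
    have := body_mass c' hc0' hc1' τ 1 (by simpa using hτ)
    simpa using this
  obtain ⟨A, hA, hAK⟩ := exists_round G φ' hφ' (body_compact c' τ)
    (body_convex _ (cOpt_nonneg c' hc0') τ) (body_neg _ τ) hm y hy
  refine ⟨A, hA, fun j => ?_⟩
  have h := hAK (some j)
  simp only [cOpt, Option.elim_some, c'] at h
  have hco : ∀ k, (∑ e ∈ A, φ' e - ∑ e ∈ G, y e • φ' e) k =
      ∑ e ∈ A, φ e (ε.symm k) - ∑ e ∈ G, y e * φ e (ε.symm k) := by
    intro k
    simp [φ']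
  simp only [hco] at h
  rw [ε.symm.sum_comp (fun i => c j i * (∑ e ∈ A, φ e i - ∑ e ∈ G, y e * φ e i) ^ 2),
    ε.symm.sum_comp (fun i => c j i)] at h
  exact h

theorem cross_thm {V I J : Type} [DecidableEq V] [Fintype I] [Fintype J] (G : Finset V)
    (φ : V → I → ℝ) (hφ : ∀ e ∈ G, ∑ i, φ e i ^ 2 ≤ (1 / 64) ^ 2) (c : J → I → ℝ)
    (hc0 : ∀ j i, 0 ≤ c j i) (hc1 : ∀ j i, c j i ≤ 1) (τ : ℝ) (l : ℕ) (hl : 1 ≤ l)
    (hτ : 2 ^ l * ((Fintype.card J + 1 : ℝ) * Real.exp (-τ / 4)) ≤ 1) :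
    ∃ w : V → ℕ, (∀ e ∈ G, w e < 2 ^ l) ∧ ∀ i ≤ 2 ^ l, ∀ j,
      ∑ k, c j k * (∑ e ∈ G.filter (fun e => w e < i), φ e k -
        ((i : ℝ) / 2 ^ l) * ∑ e ∈ G, φ e k) ^ 2 ≤ 2 * ∑ k, c j k + τ := by
  classical
  let ε : I ≃ Fin (Fintype.card I) := Fintype.equivFin I
  let φ' : V → EuclideanSpace ℝ (Fin (Fintype.card I)) :=
    fun e => WithLp.toLp 2 (fun k => φ e (ε.symm k))
  let c' : J → Fin (Fintype.card I) → ℝ := fun j k => c j (ε.symm k)
  have hφ' : ∀ e ∈ G, ‖φ' e‖ ≤ 1 / 64 := by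
    intro e he
    have h1 : ‖φ' e‖ ^ 2 ≤ (1 / 64) ^ 2 := by
      rw [EuclideanSpace.norm_sq_eq]
      simp only [Real.norm_eq_abs, sq_abs]
      refine le_trans (le_of_eq ?_) (hφ e he)
      exact ε.symm.sum_comp (fun i => φ e i ^ 2)
    exact le_of_sq_le_sq h1 (by norm_num)
  have hc0' : ∀ j k, 0 ≤ c' j k := fun j k => hc0 j _
  have hc1' : ∀ j k, c' j k ≤ 1 := fun j k => hc1 j _
  have hm : 2 ^ l * gE (body (cOpt c') τ)ᶜ ≤
      gE (univ : Set (EuclideanSpace ℝ (Fin (Fintype.card I)))) :=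
    body_mass c' hc0' hc1' τ l hτ
  have hm2 : 2 * gE (body (cOpt c') τ)ᶜ ≤
      gE (univ : Set (EuclideanSpace ℝ (Fin (Fintype.card I)))) := by
    refine le_trans ?_ hm
    gcongr
    calc (2 : ℝ≥0∞) = 2 ^ 1 := (pow_one _).symm
      _ ≤ 2 ^ l := pow_le_pow_right₀ (by norm_num) hl
  obtain ⟨w, hw, hwK⟩ := exists_cross G φ' hφ' (body_compact c' τ)
    (body_convex _ (cOpt_nonneg c' hc0') τ) (body_neg _ τ) l hm hm2
  refine ⟨w, hw, fun i hi j => ?_⟩
  have h := hwK i hi (some j)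
  simp only [cOpt, Option.elim_some, c'] at h
  have hco : ∀ k, (∑ e ∈ G.filter (fun e => w e < i), φ' e -
      ((i : ℝ) / 2 ^ l) • ∑ e ∈ G, φ' e) k =
      ∑ e ∈ G.filter (fun e => w e < i), φ e (ε.symm k) -
        ((i : ℝ) / 2 ^ l) * ∑ e ∈ G, φ e (ε.symm k) := by
    intro k
    simp [φ']
  simp only [hco] at h
  rw [ε.symm.sum_comp (fun m => c j m * (∑ e ∈ G.filter (fun e => w e < i), φ e m -
        ((i : ℝ) / 2 ^ l) * ∑ e ∈ G, φ e m) ^ 2), ε.symm.sum_comp (fun m => c j m)] at h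
  exact h

end Vale.Agent.P262F
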