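import Vale.Agent.P262F.Defs

/-!
TASK E1. Basic facts about the level parameters.
-/

open Finset

namespace Vale.Agent.P262F

namespace ParAux

theorem x0_ge : (2 : ℝ) ^ (1000 : ℕ) ≤ x0 := le_rfl

theorem x0_pos : (0 : ℝ) < x0 := by unfold x0; positivity

theorem x0_two : (2 : ℝ) ≤ x0 := by
  unfold x0
  calc (2 : ℝ) = 2 ^ 1 := by norm_num
    _ ≤ 2 ^ 1000 := pow_le_pow_right₀ (by norm_num) (by norm_num)

theorem kap_nonneg {q : ℝ} (hq : 0 ≤ q) : 0 ≤ kap q :=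
  Real.rpow_nonneg (le_min hq (inv_nonneg.2 hq)) _

theorem pow_cmp {x y : ℝ} (hy : 0 ≤ y) {m : ℕ} (hm : m ≠ 0) (h : x ^ m ≤ y ^ m) :
    x ≤ y := le_of_pow_le_pow_left₀ hm hy h

theorem rpow_eta_pow {t : ℝ} (ht : 0 ≤ t) : (t ^ eta) ^ (1000 : ℕ) = t := by
  rw [← Real.rpow_natCast, ← Real.rpow_mul ht]
  unfold eta
  norm_num

theorem pow_rpow_eta {t : ℝ} (ht : 0 ≤ t) : (t ^ (1000 : ℕ)) ^ eta = t := by
  rw [← Real.rpow_natCast, ← Real.rpow_mul ht]
  unfold eta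
  norm_num

theorem min_inv_div {q g : ℝ} (hq : 0 < q) (hg : 1 ≤ g) :
    min (q / g) (q / g)⁻¹ ≤ g * min q q⁻¹ := by
  have hg0 : 0 < g := by linarith
  rcases le_total q q⁻¹ with h | h
  · rw [min_eq_left h]
    refine (min_le_left _ _).trans ?_
    calc q / g ≤ q := div_le_self hq.le hg
      _ ≤ g * q := le_mul_of_one_le_left hq.le hg
  · rw [min_eq_right h]
    refine (min_le_right _ _).trans (le_of_eq ?_)
    rw [inv_div]
    rfl

theorem min_inv_mul {q g : ℝ} (hq : 0 < q) (hg : 1 ≤ g) :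
    min (q * g) (q * g)⁻¹ ≤ g * min q q⁻¹ := by
  have hg0 : 0 < g := by linarith
  rcases le_total q q⁻¹ with h | h
  · rw [min_eq_left h]
    refine (min_le_left _ _).trans (le_of_eq (mul_comm _ _))
  · rw [min_eq_right h]
    refine (min_le_right _ _).trans ?_
    rw [mul_inv]
    calc q⁻¹ * g⁻¹ ≤ q⁻¹ * g := by
          apply mul_le_mul_of_nonneg_left _ (by positivity)
          exact (inv_le_one_of_one_le₀ hg).trans hg
      _ = g * q⁻¹ := mul_comm _ _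

theorem kap_div {q g : ℝ} (hq : 0 < q) (hg : 1 ≤ g) : kap (q / g) ≤ g ^ eta * kap q := by
  have hg0 : 0 < g := by linarith
  unfold kap
  rw [← Real.mul_rpow hg0.le (le_min hq.le (inv_nonneg.2 hq.le))]
  apply Real.rpow_le_rpow _ (min_inv_div hq hg) (by unfold eta; norm_num)
  exact le_min (by positivity) (by positivity)

theorem kap_mul {q g : ℝ} (hq : 0 < q) (hg : 1 ≤ g) : kap (q * g) ≤ g ^ eta * kap q := by
  have hg0 : 0 < g := by linarith
  unfold kap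
  rw [← Real.mul_rpow hg0.le (le_min hq.le (inv_nonneg.2 hq.le))]
  apply Real.rpow_le_rpow _ (min_inv_mul hq hg) (by unfold eta; norm_num)
  exact le_min (by positivity) (by positivity)

end ParAux

open ParAux

namespace Fam

variable {V κ : Type} [Fintype V] [DecidableEq V] [Fintype κ] [DecidableEq κ] (S : Fam V κ)

theorem n_nonneg (b : ℕ) : 0 ≤ S.n b :=
  Finset.sum_nonneg fun k _ => kap_nonneg (div_nonneg (Real.rpow_nonneg (S.hR k).le _)
    (Nat.cast_nonneg _))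

theorem x_eq (b : ℕ) : S.x b = x0 * (1 + S.n b) ^ ((1 : ℝ) / 10) := rfl

theorem x_ge (b : ℕ) : x0 ≤ S.x b := by
  rw [x_eq]
  have h1 : 1 ≤ (1 + S.n b) ^ ((1 : ℝ) / 10) :=
    Real.one_le_rpow (by linarith [S.n_nonneg b]) (by norm_num)
  exact le_mul_of_one_le_right x0_pos.le h1

theorem x_pos (b : ℕ) : 0 < S.x b := x0_pos.trans_le (S.x_ge b)

theorem x_two (b : ℕ) : 2 ≤ S.x b := x0_two.trans (S.x_ge b)

theorem x_one (b : ℕ) : 1 ≤ S.x b := one_le_two.trans (S.x_two b)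

theorem x_pow (b : ℕ) : S.x b ^ 10 = x0 ^ 10 * (1 + S.n b) := by
  rw [x_eq, mul_pow, ← Real.rpow_natCast ((1 + S.n b) ^ ((1 : ℝ) / 10)),
    ← Real.rpow_mul (by linarith [S.n_nonneg b])]
  norm_num

theorem nu_succ (b : ℕ) : S.nu (b + 1) = S.nu b * S.g b := rfl

theorem g_pos (b : ℕ) : 0 < S.g b := Nat.pow_pos (by norm_num)

theorem nu_pos (b : ℕ) : 0 < S.nu b := by
  induction b with
  | zero => exact Nat.one_pos
  | succ b ih =>
    rw [nu_succ]
    exact Nat.mul_pos ih (S.g_pos b)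

theorem nu_mono {b c : ℕ} (h : b ≤ c) : S.nu b ≤ S.nu c := by
  have : Monotone S.nu := by
    apply monotone_nat_of_le_succ
    intro b
    rw [nu_succ]
    exact Nat.le_mul_of_pos_right _ (S.g_pos b)
  exact this h

theorem N_pos (b : ℕ) : 0 < S.N b := Nat.pow_pos (S.nu_pos b)

theorem N_succ (b : ℕ) : S.N (b + 1) = S.N b * S.g b ^ 8 := by
  unfold N
  rw [nu_succ, mul_pow]

theorem nu_pos' (b : ℕ) : (0 : ℝ) < S.nu b := by exact_mod_cast S.nu_pos b

theorem g_pos' (b : ℕ) : (0 : ℝ) < S.g b := by exact_mod_cast S.g_pos b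

theorem q_eq (b : ℕ) (k : κ) : S.q b k = S.R k ^ ((1 : ℝ) / 8) / S.nu b := rfl

theorem q_pos (b : ℕ) (k : κ) : 0 < S.q b k :=
  div_pos (Real.rpow_pos_of_pos (S.hR k) _) (S.nu_pos' b)

theorem q_succ (b : ℕ) (k : κ) : S.q (b + 1) k * S.g b = S.q b k := by
  rw [q_eq, q_eq, nu_succ]
  have h1 := (S.nu_pos' b).ne'
  have h2 := (S.g_pos' b).ne'
  push_cast
  field_simp

theorem om_succ (b : ℕ) (k : κ) : S.om (b + 1) k = S.om b k * (S.g b : ℝ) ^ 4 := by
  unfold om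
  rw [← S.q_succ b k]
  have h1 := (S.q_pos (b + 1) k).ne'
  have h2 := (S.g_pos' b).ne'
  field_simp

theorem R_eq (b : ℕ) (k : κ) : S.R k = S.q b k ^ 8 * S.N b := by
  rw [q_eq]
  unfold N
  have h1 := (S.nu_pos' b).ne'
  push_cast
  rw [div_pow, div_mul_cancel₀ _ (by positivity), ← Real.rpow_natCast, ← Real.rpow_mul (S.hR k).le]
  norm_num

theorem g_ge (b : ℕ) : S.x b ^ 75 ≤ (S.g b : ℝ) := by
  have hx := S.x_pos b
  have h1 : S.x b ^ 75 = (2 : ℝ) ^ (Real.logb 2 (S.x b ^ 75)) :=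
    (Real.rpow_logb (by norm_num) (by norm_num) (by positivity)).symm
  have h2 : (S.g b : ℝ) = (2 : ℝ) ^ ((⌈Real.logb 2 (S.x b ^ 75)⌉₊ : ℕ) : ℝ) := by
    rw [Real.rpow_natCast]
    unfold g
    push_cast
    rfl
  rw [h2]
  nth_rw 1 [h1]
  exact Real.rpow_le_rpow_of_exponent_le (by norm_num) (Nat.le_ceil _)

theorem g_le (b : ℕ) : (S.g b : ℝ) ≤ 2 * S.x b ^ 75 := by
  have hx := S.x_pos b
  have h1 : S.x b ^ 75 = (2 : ℝ) ^ (Real.logb 2 (S.x b ^ 75)) :=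
    (Real.rpow_logb (by norm_num) (by norm_num) (by positivity)).symm
  have h2 : (S.g b : ℝ) = (2 : ℝ) ^ ((⌈Real.logb 2 (S.x b ^ 75)⌉₊ : ℕ) : ℝ) := by
    rw [Real.rpow_natCast]
    unfold g
    push_cast
    rfl
  have h0 : 0 ≤ Real.logb 2 (S.x b ^ 75) :=
    Real.logb_nonneg (by norm_num) (one_le_pow₀ (S.x_one b))
  rw [h2]
  calc (2 : ℝ) ^ ((⌈Real.logb 2 (S.x b ^ 75)⌉₊ : ℕ) : ℝ)
      ≤ (2 : ℝ) ^ (Real.logb 2 (S.x b ^ 75) + 1) :=
        Real.rpow_le_rpow_of_exponent_le (by norm_num) (Nat.ceil_lt_add_one h0).le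
    _ = 2 * S.x b ^ 75 := by
        rw [Real.rpow_add (by norm_num), ← h1]
        ring

theorem g_one (b : ℕ) : (1 : ℝ) ≤ S.g b := by exact_mod_cast S.g_pos b

theorem g_two (b : ℕ) : (2 : ℝ) ≤ S.g b := by
  refine le_trans ?_ (S.g_ge b)
  calc (2 : ℝ) ≤ S.x b ^ 1 := by simpa using S.x_two b
    _ ≤ S.x b ^ 75 := pow_le_pow_right₀ (S.x_one b) (by norm_num)

theorem g_le' (b : ℕ) : (S.g b : ℝ) ≤ S.x b ^ 76 := by
  refine (S.g_le b).trans ?_
  have hx := S.x_pos b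
  have : 2 * S.x b ^ 75 ≤ S.x b * S.x b ^ 75 :=
    mul_le_mul_of_nonneg_right (S.x_two b) (by positivity)
  calc 2 * S.x b ^ 75 ≤ S.x b * S.x b ^ 75 := this
    _ = S.x b ^ 76 := by ring

end Fam

theorem Fam.kap_pos {q : ℝ} (hq : 0 < q) : 0 < kap q :=
  Real.rpow_pos_of_pos (lt_min hq (inv_pos.2 hq)) _

theorem Fam.kap_le_one {q : ℝ} (hq : 0 < q) : kap q ≤ 1 := by
  apply Real.rpow_le_one (le_min hq.le (inv_nonneg.2 hq.le)) _ (by unfold eta; norm_num)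
  rcases le_total q 1 with h | h
  · exact (min_le_left _ _).trans h
  · exact (min_le_right _ _).trans (inv_le_one_of_one_le₀ h)

theorem Fam.le_kap {q : ℝ} (hq : 0 < q) (hq1 : q ≤ 1) : q ≤ kap q := by
  unfold kap
  rw [min_eq_left (hq1.trans ((one_le_inv₀ hq).2 hq1))]
  nth_rw 1 [← Real.rpow_one q]
  exact Real.rpow_le_rpow_of_exponent_ge hq hq1 (by unfold eta; norm_num)

theorem Fam.inv_le_kap {q : ℝ} (hq : 1 ≤ q) : q⁻¹ ≤ kap q := by
  have hq0 : 0 < q := by linarith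
  have h1 := Fam.le_kap (inv_pos.2 hq0) (inv_le_one_of_one_le₀ hq)
  have h2 : kap q⁻¹ = kap q := by
    unfold kap
    rw [inv_inv, min_comm]
  rwa [h2] at h1

namespace Fam

variable {V κ : Type} [Fintype V] [DecidableEq V] [Fintype κ] [DecidableEq κ] (S : Fam V κ)

theorem q_succ_div (b : ℕ) (k : κ) : S.q (b + 1) k = S.q b k / S.g b := by
  rw [eq_div_iff (S.g_pos' b).ne']
  exact S.q_succ b k

theorem n_up (b : ℕ) : 1 + S.n (b + 1) ≤ (S.g b : ℝ) ^ eta * (1 + S.n b) := by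
  have h1 : 1 ≤ (S.g b : ℝ) ^ eta := Real.one_le_rpow (S.g_one b) (by unfold eta; norm_num)
  have h2 : S.n (b + 1) ≤ (S.g b : ℝ) ^ eta * S.n b := by
    have e1 : S.n (b + 1) = ∑ k, kap (S.q (b + 1) k) := rfl
    have e2 : S.n b = ∑ k, kap (S.q b k) := rfl
    rw [e1, e2, Finset.mul_sum]
    apply Finset.sum_le_sum
    intro k _
    rw [q_succ_div]
    exact kap_div (S.q_pos b k) (S.g_one b)
  linarith

theorem n_dn (b : ℕ) : 1 + S.n b ≤ (S.g b : ℝ) ^ eta * (1 + S.n (b + 1)) := by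
  have h1 : 1 ≤ (S.g b : ℝ) ^ eta := Real.one_le_rpow (S.g_one b) (by unfold eta; norm_num)
  have h2 : S.n b ≤ (S.g b : ℝ) ^ eta * S.n (b + 1) := by
    have e1 : S.n (b + 1) = ∑ k, kap (S.q (b + 1) k) := rfl
    have e2 : S.n b = ∑ k, kap (S.q b k) := rfl
    rw [e1, e2, Finset.mul_sum]
    apply Finset.sum_le_sum
    intro k _
    rw [← q_succ]
    exact kap_mul (S.q_pos (b + 1) k) (S.g_one b)
  linarith

theorem x_up1 (b : ℕ) : S.x b ^ 10000 ≤ S.x b ^ 76 * S.x (b + 1) ^ 10000 := by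
  have hx := S.x_pos b
  have hx' := S.x_pos (b + 1)
  have h0 : (0 : ℝ) ≤ (S.g b : ℝ) ^ eta := Real.rpow_nonneg (S.g_pos' b).le _
  have h1 : S.x b ^ 10 ≤ (S.g b : ℝ) ^ eta * S.x (b + 1) ^ 10 := by
    rw [x_pow, x_pow]
    have := mul_le_mul_of_nonneg_left (S.n_dn b) (show (0 : ℝ) ≤ x0 ^ 10 from pow_nonneg x0_pos.le _)
    linarith
  calc S.x b ^ 10000 = (S.x b ^ 10) ^ 1000 := by rw [← pow_mul]
    _ ≤ ((S.g b : ℝ) ^ eta * S.x (b + 1) ^ 10) ^ 1000 := pow_le_pow_left₀ (by positivity) h1 _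
    _ = S.g b * S.x (b + 1) ^ 10000 := by
        rw [mul_pow, rpow_eta_pow (S.g_pos' b).le, ← pow_mul]
    _ ≤ S.x b ^ 76 * S.x (b + 1) ^ 10000 :=
        mul_le_mul_of_nonneg_right (S.g_le' b) (by positivity)

theorem x_dn1 (b : ℕ) : S.x (b + 1) ^ 10000 ≤ S.x b ^ 76 * S.x b ^ 10000 := by
  have hx := S.x_pos b
  have hx' := S.x_pos (b + 1)
  have h0 : (0 : ℝ) ≤ (S.g b : ℝ) ^ eta := Real.rpow_nonneg (S.g_pos' b).le _
  have h1 : S.x (b + 1) ^ 10 ≤ (S.g b : ℝ) ^ eta * S.x b ^ 10 := by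
    rw [x_pow, x_pow]
    have := mul_le_mul_of_nonneg_left (S.n_up b) (show (0 : ℝ) ≤ x0 ^ 10 from pow_nonneg x0_pos.le _)
    linarith
  calc S.x (b + 1) ^ 10000 = (S.x (b + 1) ^ 10) ^ 1000 := by rw [← pow_mul]
    _ ≤ ((S.g b : ℝ) ^ eta * S.x b ^ 10) ^ 1000 := pow_le_pow_left₀ (by positivity) h1 _
    _ = S.g b * S.x b ^ 10000 := by
        rw [mul_pow, rpow_eta_pow (S.g_pos' b).le, ← pow_mul]
    _ ≤ S.x b ^ 76 * S.x b ^ 10000 :=
        mul_le_mul_of_nonneg_right (S.g_le' b) (by positivity)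

theorem x_up2 (b : ℕ) : S.x b ^ 100 ≤ S.x (b + 1) ^ 101 := by
  have hx := S.x_pos b
  have hx' := S.x_pos (b + 1)
  have h1 : S.x b ^ 9924 ≤ S.x (b + 1) ^ 10000 := by
    have := S.x_up1 b
    rw [show (10000 : ℕ) = 76 + 9924 by norm_num, pow_add (S.x b)] at this
    exact le_of_mul_le_mul_left this (by positivity)
  apply pow_cmp (by positivity) (show (10000 : ℕ) ≠ 0 by norm_num)
  calc (S.x b ^ 100) ^ 10000 = S.x b ^ 1000000 := by rw [← pow_mul]
    _ ≤ S.x b ^ (9924 * 101) := pow_le_pow_right₀ (S.x_one b) (by norm_num)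
    _ = (S.x b ^ 9924) ^ 101 := pow_mul _ _ _
    _ ≤ (S.x (b + 1) ^ 10000) ^ 101 := pow_le_pow_left₀ (by positivity) h1 _
    _ = (S.x (b + 1) ^ 101) ^ 10000 := by rw [← pow_mul, ← pow_mul]

theorem x_dn2 (b : ℕ) : S.x (b + 1) ^ 100 ≤ S.x b ^ 101 := by
  have hx := S.x_pos b
  have hx' := S.x_pos (b + 1)
  apply pow_cmp (by positivity) (show (100 : ℕ) ≠ 0 by norm_num)
  calc (S.x (b + 1) ^ 100) ^ 100 = S.x (b + 1) ^ 10000 := by rw [← pow_mul]
    _ ≤ S.x b ^ 76 * S.x b ^ 10000 := S.x_dn1 b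
    _ = S.x b ^ 10076 := by rw [← pow_add]
    _ ≤ S.x b ^ 10100 := pow_le_pow_right₀ (S.x_one b) (by norm_num)
    _ = (S.x b ^ 101) ^ 100 := by rw [← pow_mul]

/-- Comparison of consecutive sizes. -/
theorem x_up (b : ℕ) {a c : ℕ} (h : 101 * a ≤ 100 * c) : S.x b ^ a ≤ S.x (b + 1) ^ c := by
  have hx := S.x_pos b
  have hx' := S.x_pos (b + 1)
  apply pow_cmp (by positivity) (show (100 : ℕ) ≠ 0 by norm_num)
  calc (S.x b ^ a) ^ 100 = (S.x b ^ 100) ^ a := by rw [← pow_mul, ← pow_mul, mul_comm]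
    _ ≤ (S.x (b + 1) ^ 101) ^ a := pow_le_pow_left₀ (by positivity) (S.x_up2 b) _
    _ = S.x (b + 1) ^ (101 * a) := by rw [← pow_mul]
    _ ≤ S.x (b + 1) ^ (c * 100) := pow_le_pow_right₀ (S.x_one _) (by omega)
    _ = (S.x (b + 1) ^ c) ^ 100 := pow_mul _ _ _

theorem x_dn (b : ℕ) {a c : ℕ} (h : 101 * a ≤ 100 * c) : S.x (b + 1) ^ a ≤ S.x b ^ c := by
  have hx := S.x_pos b
  have hx' := S.x_pos (b + 1)
  apply pow_cmp (by positivity) (show (100 : ℕ) ≠ 0 by norm_num)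
  calc (S.x (b + 1) ^ a) ^ 100 = (S.x (b + 1) ^ 100) ^ a := by rw [← pow_mul, ← pow_mul, mul_comm]
    _ ≤ (S.x b ^ 101) ^ a := pow_le_pow_left₀ (by positivity) (S.x_dn2 b) _
    _ = S.x b ^ (101 * a) := by rw [← pow_mul]
    _ ≤ S.x b ^ (c * 100) := pow_le_pow_right₀ (S.x_one _) (by omega)
    _ = (S.x b ^ c) ^ 100 := pow_mul _ _ _

theorem kap_succ (b : ℕ) (k : κ) : kap (S.q (b + 1) k) ≤ S.x b * kap (S.q b k) := by
  have hx := S.x_pos b
  rw [q_succ_div]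
  refine (kap_div (S.q_pos b k) (S.g_one b)).trans ?_
  apply mul_le_mul_of_nonneg_right _ (kap_pos (S.q_pos b k)).le
  calc (S.g b : ℝ) ^ eta ≤ (S.x b ^ 1000) ^ eta := by
        apply Real.rpow_le_rpow (S.g_pos' b).le _ (by unfold eta; norm_num)
        exact (S.g_le' b).trans (pow_le_pow_right₀ (S.x_one b) (by norm_num))
    _ = S.x b := pow_rpow_eta hx.le

theorem mem_F {b : ℕ} {k : κ} : k ∈ S.F b ↔ S.x b ^ 120 ≤ S.q b k := by
  unfold F
  simp

theorem mem_D {b : ℕ} {k : κ} : k ∈ S.D b ↔ S.q b k * S.x b ^ 20 ≤ 1 := by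
  unfold D
  simp

theorem kap_mid {b : ℕ} {k : κ} (h1 : k ∉ S.F b) (h2 : k ∉ S.D b) :
    (S.x b)⁻¹ ≤ kap (S.q b k) := by
  have hx := S.x_pos b
  have hq := S.q_pos b k
  rw [mem_F, not_le] at h1
  rw [mem_D, not_le] at h2
  have h3 : ((S.x b)⁻¹ ^ 1000) ^ eta = (S.x b)⁻¹ := pow_rpow_eta (inv_pos.2 hx).le
  rw [← h3]
  unfold kap
  apply Real.rpow_le_rpow (pow_pos (inv_pos.2 hx) _).le _ (by unfold eta; norm_num)
  rw [inv_pow]
  apply le_min
  · rw [inv_le_iff_one_le_mul₀ (pow_pos hx _)]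
    refine h2.le.trans ?_
    apply mul_le_mul_of_nonneg_left _ hq.le
    exact pow_le_pow_right₀ (S.x_one b) (by norm_num)
  · apply inv_anti₀ hq
    exact h1.le.trans (pow_le_pow_right₀ (S.x_one b) (by norm_num))

theorem F_anti (b : ℕ) : S.F (b + 1) ⊆ S.F b := by
  intro k hk
  rw [mem_F] at hk ⊢
  have hx := S.x_pos b
  have hx' := S.x_pos (b + 1)
  have hq := S.q_pos (b + 1) k
  rw [← S.q_succ b k]
  calc S.x b ^ 120 = S.x b ^ 45 * S.x b ^ 75 := by rw [← pow_add]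
    _ ≤ S.x (b + 1) ^ 120 * S.g b := by
        apply mul_le_mul (S.x_up b (by norm_num)) (S.g_ge b) (by positivity) (by positivity)
    _ ≤ S.q (b + 1) k * S.g b := mul_le_mul_of_nonneg_right hk (S.g_pos' b).le

theorem D_mono (b : ℕ) : S.D b ⊆ S.D (b + 1) := by
  intro k hk
  rw [mem_D] at hk ⊢
  have hx := S.x_pos b
  have hx' := S.x_pos (b + 1)
  have hq := S.q_pos (b + 1) k
  have hq' := S.q_pos b k
  have h1 : S.q (b + 1) k * S.x b ^ 75 ≤ S.q b k := by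
    rw [← S.q_succ b k]
    exact mul_le_mul_of_nonneg_left (S.g_ge b) hq.le
  have h2 : S.q (b + 1) k ≤ S.q b k := by
    refine le_trans ?_ h1
    exact le_mul_of_one_le_right hq.le (one_le_pow₀ (S.x_one b))
  calc S.q (b + 1) k * S.x (b + 1) ^ 20 ≤ S.q (b + 1) k * S.x b ^ 75 :=
        mul_le_mul_of_nonneg_left (S.x_dn b (by norm_num)) hq.le
    _ ≤ S.q b k := h1
    _ ≤ S.q b k * S.x b ^ 20 := le_mul_of_one_le_right hq'.le (one_le_pow₀ (S.x_one b))
    _ ≤ 1 := hk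

theorem disj_FD (b : ℕ) : Disjoint (S.F b) (S.D b) := by
  rw [Finset.disjoint_left]
  intro k h1 h2
  rw [mem_F] at h1
  rw [mem_D] at h2
  have hx := S.x_pos b
  have h3 : S.x b ^ 120 * S.x b ^ 20 ≤ 1 :=
    (mul_le_mul_of_nonneg_right h1 (by positivity)).trans h2
  have h4 : S.x b ≤ S.x b ^ 120 * S.x b ^ 20 := by
    rw [← pow_add]
    calc S.x b = S.x b ^ 1 := (pow_one _).symm
      _ ≤ S.x b ^ 140 := pow_le_pow_right₀ (S.x_one b) (by norm_num)
  linarith [S.x_two b]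

theorem q_step (b : ℕ) (k : κ) : S.q (b + 1) k * S.x b ^ 75 ≤ S.q b k := by
  rw [← S.q_succ b k]
  exact mul_le_mul_of_nonneg_left (S.g_ge b) (S.q_pos _ _).le

theorem age {b : ℕ} {k : κ} (h : k ∉ S.F b) : k ∈ S.D (b + 2) := by
  rw [mem_F, not_le] at h
  rw [mem_D]
  have hx := S.x_pos b
  have hx1 := S.x_pos (b + 1)
  have hx2 := S.x_pos (b + 2)
  have hq2 := S.q_pos (b + 2) k
  have h1 := S.q_step b k
  have h2 := S.q_step (b + 1) k
  have h3 : S.x (b + 2) ^ 20 ≤ S.x (b + 1) ^ 21 := S.x_dn (b + 1) (by norm_num)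
  have h4 : S.x b ^ 45 ≤ S.x (b + 1) ^ 54 := S.x_up b (by norm_num)
  -- q2 * x1^75 * x^75 ≤ x^120
  have h5 : S.q (b + 2) k * S.x (b + 1) ^ 75 * S.x b ^ 75 ≤ S.x b ^ 120 :=
    ((mul_le_mul_of_nonneg_right h2 (pow_pos hx 75).le).trans h1).trans h.le
  have h6 : S.q (b + 2) k * S.x (b + 1) ^ 75 ≤ S.x b ^ 45 := by
    have : S.q (b + 2) k * S.x (b + 1) ^ 75 * S.x b ^ 75 ≤ S.x b ^ 45 * S.x b ^ 75 := by
      rw [← pow_add]
      exact h5
    exact le_of_mul_le_mul_right this (pow_pos hx 75)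
  have h7 : S.q (b + 2) k * S.x (b + 1) ^ 21 ≤ 1 := by
    have : S.q (b + 2) k * S.x (b + 1) ^ 21 * S.x (b + 1) ^ 54 ≤ 1 * S.x (b + 1) ^ 54 := by
      rw [mul_assoc, ← pow_add, one_mul]
      exact h6.trans h4
    exact le_of_mul_le_mul_right this (pow_pos hx1 54)
  exact (mul_le_mul_of_nonneg_left h3 hq2.le).trans h7

theorem om_le {b : ℕ} {k : κ} (h : k ∉ S.D b) : S.om b k ≤ S.x b ^ 80 := by
  rw [mem_D, not_le] at h
  have hx := S.x_pos b
  have hq := S.q_pos b k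
  unfold om
  rw [inv_le_iff_one_le_mul₀ (by positivity)]
  calc (1 : ℝ) = 1 ^ 4 := by norm_num
    _ ≤ (S.q b k * S.x b ^ 20) ^ 4 := pow_le_pow_left₀ zero_le_one h.le _
    _ = S.x b ^ 80 * S.q b k ^ 4 := by rw [mul_pow, ← pow_mul]; ring

theorem A_small {b : ℕ} {k : κ} (h : k ∈ S.A b) : S.q b k * S.x b ^ 160 ≤ 1 := by
  match b, h with
  | 0, h => simp [A] at h
  | 1, h => simp [A] at h
  | c + 2, h =>
    have h' : k ∈ S.D c := h
    rw [mem_D] at h'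
    have hx := S.x_pos c
    have hx1 := S.x_pos (c + 1)
    have hx2 := S.x_pos (c + 2)
    have hq2 := S.q_pos (c + 2) k
    have h1 := S.q_step c k
    have h2 := S.q_step (c + 1) k
    have h3 : S.x (c + 2) ^ 160 ≤ S.x (c + 1) ^ 162 := S.x_dn (c + 1) (by norm_num)
    have h4 : S.x (c + 1) ^ 87 ≤ S.x c ^ 95 := S.x_dn c (by norm_num)
    calc S.q (c + 2) k * S.x (c + 2) ^ 160 ≤ S.q (c + 2) k * S.x (c + 1) ^ 162 :=
          mul_le_mul_of_nonneg_left h3 hq2.le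
      _ = S.q (c + 2) k * S.x (c + 1) ^ 75 * S.x (c + 1) ^ 87 := by
          rw [mul_assoc, ← pow_add]
      _ ≤ S.q (c + 1) k * S.x c ^ 95 :=
          mul_le_mul h2 h4 (by positivity) (S.q_pos _ _).le
      _ = S.q (c + 1) k * S.x c ^ 75 * S.x c ^ 20 := by
          rw [mul_assoc, ← pow_add]
      _ ≤ S.q c k * S.x c ^ 20 := mul_le_mul_of_nonneg_right h1 (by positivity)
      _ ≤ 1 := h'

theorem E0 (b : ℕ) : 65536 * (4 + S.tau b) ≤ S.x b := by
  have hx := S.x_pos b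
  have hg := S.g_pos' b
  unfold tau
  have h1 : 8 * (S.g b : ℝ) ^ 8 ≤ S.x b ^ 612 := by
    have e1 : (8 : ℝ) ≤ S.x b ^ 3 := by
      calc (8 : ℝ) = 2 ^ 3 := by norm_num
        _ ≤ S.x b ^ 3 := pow_le_pow_left₀ (by norm_num) (S.x_two b) _
    have e2 : (S.g b : ℝ) ^ 8 ≤ S.x b ^ 608 := by
      calc (S.g b : ℝ) ^ 8 ≤ (S.x b ^ 76) ^ 8 := pow_le_pow_left₀ hg.le (S.g_le' b) _
        _ = S.x b ^ 608 := by rw [← pow_mul]
    calc 8 * (S.g b : ℝ) ^ 8 ≤ S.x b ^ 3 * S.x b ^ 608 :=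
          mul_le_mul e1 e2 (by positivity) (by positivity)
      _ = S.x b ^ 611 := by rw [← pow_add]
      _ ≤ S.x b ^ 612 := pow_le_pow_right₀ (S.x_one b) (by norm_num)
  have h2 : Real.log (8 * (S.g b : ℝ) ^ 8) ≤ 612 * Real.log (S.x b) := by
    have := Real.log_le_log (by positivity) h1
    rwa [Real.log_pow] at this
    
  have hs : 0 < √(S.x b) := Real.sqrt_pos.2 hx
  have h3 : Real.log (S.x b) ≤ 2 * √(S.x b) := by
    have e1 : Real.log (S.x b) = 2 * Real.log (√(S.x b)) := by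
      rw [Real.log_sqrt hx.le]
      ring
    have e2 := Real.log_le_sub_one_of_pos hs
    rw [e1]
    linarith
  have h4 : (2 : ℝ) ^ 30 ≤ √(S.x b) := by
    apply Real.le_sqrt_of_sq_le
    refine le_trans ?_ (S.x_ge b)
    unfold x0
    rw [← pow_mul]
    exact pow_le_pow_right₀ (by norm_num) (by norm_num)
  have h5 : S.x b = √(S.x b) * √(S.x b) := (Real.mul_self_sqrt hx.le).symm
  have h6 : 4 ≤ √(S.x b) := by
    refine le_trans ?_ h4
    norm_num
  have h7 : 65536 * (4 + 4 * Real.log (8 * (S.g b : ℝ) ^ 8)) ≤ 65536 * 5000 * √(S.x b) := by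
    linarith
  refine h7.trans ?_
  rw [h5]
  have h8 : √(√(S.x b) * √(S.x b)) = √(S.x b) := by rw [← h5]
  rw [h8]
  apply mul_le_mul_of_nonneg_right _ hs.le
  refine le_trans ?_ h4
  norm_num

theorem psum (b : ℕ) : ∑ k, S.p b k ≤ S.x b ^ 92 := by
  have hx := S.x_pos b
  have h1 : ∀ k ∈ (univ : Finset κ), S.p b k ≤ S.x b ^ 81 * kap (S.q b k) := by
    intro k _
    have hq := S.q_pos b k
    have hk := kap_pos hq
    have hx1 : 1 ≤ S.x b ^ 81 := one_le_pow₀ (S.x_one b)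
    unfold p
    split_ifs with hD
    · rw [mem_D] at hD
      have hq1 : S.q b k ≤ 1 :=
        le_trans (le_mul_of_one_le_right hq.le (one_le_pow₀ (S.x_one b))) hD
      calc S.q b k ^ 2 = S.q b k * S.q b k := sq _
        _ ≤ S.q b k * 1 := mul_le_mul_of_nonneg_left hq1 hq.le
        _ = S.q b k := mul_one _
        _ ≤ kap (S.q b k) := le_kap hq hq1
        _ ≤ S.x b ^ 81 * kap (S.q b k) := le_mul_of_one_le_left hk.le hx1
    · by_cases hF : k ∈ S.F b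
      · rw [mem_F] at hF
        have hq1 : 1 ≤ S.q b k := (one_le_pow₀ (S.x_one b)).trans hF
        calc (S.q b k ^ 4)⁻¹ ≤ (S.q b k)⁻¹ := by
              apply inv_anti₀ hq
              calc S.q b k = S.q b k ^ 1 := (pow_one _).symm
                _ ≤ S.q b k ^ 4 := pow_le_pow_right₀ hq1 (by norm_num)
          _ ≤ kap (S.q b k) := inv_le_kap hq1
          _ ≤ S.x b ^ 81 * kap (S.q b k) := le_mul_of_one_le_left hk.le hx1
      · calc (S.q b k ^ 4)⁻¹ ≤ S.x b ^ 80 := S.om_le hD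
          _ = S.x b ^ 81 * (S.x b)⁻¹ := by field_simp
          _ ≤ S.x b ^ 81 * kap (S.q b k) :=
              mul_le_mul_of_nonneg_left (S.kap_mid hF hD) (by positivity)
  calc ∑ k, S.p b k ≤ ∑ k, S.x b ^ 81 * kap (S.q b k) := Finset.sum_le_sum h1
    _ = S.x b ^ 81 * S.n b := by rw [← Finset.mul_sum]; rfl
    _ ≤ S.x b ^ 81 * S.x b ^ 10 := by
        apply mul_le_mul_of_nonneg_left _ (by positivity)
        rw [x_pow]
        have h2 : (1 : ℝ) ≤ x0 ^ 10 := one_le_pow₀ (one_le_two.trans x0_two)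
        have h3 := S.n_nonneg b
        calc S.n b ≤ 1 * (1 + S.n b) := by linarith
          _ ≤ x0 ^ 10 * (1 + S.n b) := mul_le_mul_of_nonneg_right h2 (by linarith)
    _ = S.x b ^ 91 := by rw [← pow_add]
    _ ≤ S.x b ^ 92 := pow_le_pow_right₀ (S.x_one b) (by norm_num)

theorem beta_sum (b L : ℕ) :
    ∑ l ∈ Finset.Ioc b L, ((S.nu (b + 1) : ℝ) / S.nu l) ^ 4 ≤ 2 := by
  have key : ∀ m : ℕ, ∑ l ∈ Finset.Ioc b (b + 1 + m), ((S.nu (b + 1) : ℝ) / S.nu l) ^ 4 ≤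
      2 - ((S.nu (b + 1) : ℝ) / S.nu (b + 1 + m)) ^ 4 := by
    intro m
    induction m with
    | zero =>
      have h1 : ((S.nu (b + 1) : ℝ) / S.nu (b + 1)) = 1 := div_self (S.nu_pos' _).ne'
      have h2 : Finset.Ioc b (b + 1) = {b + 1} := by
        ext a
        simp only [Finset.mem_Ioc, Finset.mem_singleton]
        omega
      simp only [add_zero, h2, Finset.sum_singleton, h1]
      norm_num
    | succ m ih =>
      have h1 : b + 1 + (m + 1) = (b + 1 + m) + 1 := by ring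
      rw [h1, Finset.sum_Ioc_succ_top (by omega)]
      have h2 : 2 * ((S.nu (b + 1) : ℝ) / S.nu (b + 1 + m + 1)) ^ 4 ≤
          ((S.nu (b + 1) : ℝ) / S.nu (b + 1 + m)) ^ 4 := by
        have e1 := S.nu_pos' (b + 1)
        have e2 := S.nu_pos' (b + 1 + m)
        have e3 := S.g_two (b + 1 + m)
        have e4 : (S.nu (b + 1 + m + 1) : ℝ) = S.nu (b + 1 + m) * S.g (b + 1 + m) := by
          rw [nu_succ]
          push_cast
          rfl
        rw [e4]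
        have e5 : (S.nu (b + 1) : ℝ) / (S.nu (b + 1 + m) * S.g (b + 1 + m)) ≤
            (S.nu (b + 1) : ℝ) / S.nu (b + 1 + m) / 2 := by
          rw [div_div]
          apply div_le_div_of_nonneg_left e1.le (by positivity)
          exact mul_le_mul_of_nonneg_left e3 e2.le
        have e6 : ((S.nu (b + 1) : ℝ) / (S.nu (b + 1 + m) * S.g (b + 1 + m))) ^ 4 ≤
            ((S.nu (b + 1) : ℝ) / S.nu (b + 1 + m) / 2) ^ 4 := by
          apply pow_le_pow_left₀ _ e5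
          have := S.g_pos' (b + 1 + m)
          positivity
        have e7 : 0 ≤ ((S.nu (b + 1) : ℝ) / S.nu (b + 1 + m)) ^ 4 := by positivity
        rw [div_pow _ (2 : ℝ)] at e6
        linarith
      linarith
  rcases Nat.lt_or_ge b L with h | h
  · obtain ⟨m, rfl⟩ : ∃ m, L = b + 1 + m := ⟨L - (b + 1), by omega⟩
    refine (key m).trans ?_
    have : 0 ≤ ((S.nu (b + 1) : ℝ) / S.nu (b + 1 + m)) ^ 4 := by positivity
    linarith
  · rw [Finset.Ioc_eq_empty (by omega)]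
    simp

theorem Dm_sub_D (b : ℕ) : S.Dm b ⊆ S.D b := by
  match b with
  | 0 => exact Finset.empty_subset _
  | b + 1 => exact S.D_mono b

theorem A_sub_Dm (b : ℕ) : S.A b ⊆ S.Dm b := by
  match b with
  | 0 => exact Finset.empty_subset _
  | 1 => exact Finset.empty_subset _
  | b + 2 => exact S.D_mono b

theorem A_mono (b : ℕ) : S.A b ⊆ S.A (b + 1) := by
  match b with
  | 0 => exact Finset.empty_subset _
  | 1 => exact Finset.empty_subset _
  | b + 2 => exact S.D_mono b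

theorem w_pos (b : ℕ) (k : κ) : 0 < S.w b k := by
  unfold w
  positivity

theorem w_le_one (b : ℕ) (k : κ) : S.w b k ≤ 1 := by
  unfold w
  exact pow_le_one₀ (by norm_num) (by norm_num)

theorem w_succ {b : ℕ} {k : κ} (h : k ∉ S.F (b + 1)) : S.w (b + 1) k = S.w b k / 4 := by
  unfold w
  have h1 : Finset.Icc 1 (b + 1) = insert (b + 1) (Finset.Icc 1 b) := by
    ext a
    simp only [Finset.mem_Icc, Finset.mem_insert]
    omega
  rw [h1, Finset.filter_insert, if_pos h, Finset.card_insert_of_notMem (by simp)]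
  rw [pow_succ]
  ring

theorem F_anti' {b c : ℕ} (h : b ≤ c) : S.F c ⊆ S.F b := by
  induction c, h using Nat.le_induction with
  | base => exact subset_rfl
  | succ c _ ih => exact (S.F_anti c).trans ih

theorem w_F {b : ℕ} {k : κ} (h : k ∈ S.F b) : S.w b k = 1 := by
  unfold w
  rw [Finset.filter_eq_empty_iff.2]
  · simp
  · intro c hc
    rw [Finset.mem_Icc] at hc
    rw [not_not]
    exact S.F_anti' hc.2 h

theorem w_lb {b : ℕ} {k : κ} (h : k ∉ S.A b) : 1 / 1024 ≤ S.w (b + 1) k := by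
  unfold w
  have h1 : ((Finset.Icc 1 (b + 1)).filter fun c => k ∉ S.F c) ⊆ Finset.Icc (b - 3) (b + 1) ∩
      Finset.Icc 1 (b + 1) := by
    intro c hc
    rw [Finset.mem_filter, Finset.mem_Icc] at hc
    rw [Finset.mem_inter, Finset.mem_Icc, Finset.mem_Icc]
    refine ⟨⟨?_, hc.1.2⟩, hc.1⟩
    by_contra hcon
    push Not at hcon
    -- c ≤ b - 4
    have h2 : k ∈ S.F (b - 4) := by
      by_contra hF
      have h3 := S.age hF
      apply h
      obtain ⟨d, rfl⟩ : ∃ d, b = d + 4 := ⟨b - 4, by omega⟩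
      exact h3
    exact hc.2 (S.F_anti' (by omega) h2)
  have h2 : (Finset.Icc (b - 3) (b + 1) ∩ Finset.Icc 1 (b + 1)).card ≤ 5 := by
    rcases Nat.lt_or_ge b 4 with hb | hb
    · refine (Finset.card_le_card Finset.inter_subset_right).trans ?_
      rw [Nat.card_Icc]
      omega
    · refine (Finset.card_le_card Finset.inter_subset_left).trans ?_
      rw [Nat.card_Icc]
      omega
  have h3 := (Finset.card_le_card h1).trans h2
  calc (1 : ℝ) / 1024 = (1 / 4) ^ 5 := by norm_num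
    _ ≤ (1 / 4) ^ ((Finset.Icc 1 (b + 1)).filter fun c => k ∉ S.F c).card :=
        pow_le_pow_of_le_one (by norm_num) (by norm_num) h3

end Fam

end Vale.Agent.P262F
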