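import Vale.Agent.P262F.Key

/-!
TASK B. Prefix form of Banaszczyk's theorem, rounding and folding.
-/

open MeasureTheory Set
open scoped ENNReal Pointwise

namespace Vale.Agent.P262F

/-- Unnormalised Gaussian measure on Euclidean space. -/
noncomputable def gE {n : ℕ} (A : Set (EuclideanSpace ℝ (Fin n))) : ℝ≥0∞ :=
  ∫⁻ y in A, ENNReal.ofReal (Real.exp (-‖y‖ ^ 2 / 2))

namespace PrefixAux

/-- points such that the chord through them in direction `u` has length at least `2 |u|` (after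
extension by `|u|`) -/
def star {n : ℕ} (u : EuclideanSpace ℝ (Fin n)) (K : Set (EuclideanSpace ℝ (Fin n))) :
    Set (EuclideanSpace ℝ (Fin n)) :=
  {y | ∃ t₁ t₂ : ℝ, t₁ + 2 ≤ t₂ ∧ y + t₁ • u ∈ K ∧ y + t₂ • u ∈ K ∧ t₁ ≤ 1 ∧ -1 ≤ t₂}

/-- compact convex symmetric -/
structure Body {n : ℕ} (K : Set (EuclideanSpace ℝ (Fin n))) : Prop where
  cpt : IsCompact K
  cvx : Convex ℝ K
  sym : ∀ y ∈ K, -y ∈ K

theorem star_convex {n : ℕ} {u : EuclideanSpace ℝ (Fin n)} {K : Set (EuclideanSpace ℝ (Fin n))}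
    (hc : Convex ℝ K) : Convex ℝ (star u K) := by
  intro y hy z hz a b ha hb hab
  obtain ⟨t₁, t₂, h1, h2, h3, h4, h5⟩ := hy
  obtain ⟨r₁, r₂, k1, k2, k3, k4, k5⟩ := hz
  refine ⟨a * t₁ + b * r₁, a * t₂ + b * r₂, by nlinarith, ?_, ?_, by nlinarith, by nlinarith⟩
  · have := hc h2 k2 ha hb hab
    convert this using 1
    module
  · have := hc h3 k3 ha hb hab
    convert this using 1
    module

theorem star_sym {n : ℕ} {u : EuclideanSpace ℝ (Fin n)} {K : Set (EuclideanSpace ℝ (Fin n))}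
    (hs : ∀ y ∈ K, -y ∈ K) : ∀ y ∈ star u K, -y ∈ star u K := by
  intro y hy
  obtain ⟨t₁, t₂, h1, h2, h3, h4, h5⟩ := hy
  refine ⟨-t₂, -t₁, by linarith, ?_, ?_, by linarith, by linarith⟩
  · have := hs _ h3
    convert this using 1
    module
  · have := hs _ h2
    convert this using 1
    module

theorem star_step {n : ℕ} {u : EuclideanSpace ℝ (Fin n)} {K : Set (EuclideanSpace ℝ (Fin n))}
    (hc : Convex ℝ K) {y : EuclideanSpace ℝ (Fin n)} (hy : y ∈ star u K) :
    ∃ ε : ℝ, (ε = 1 ∨ ε = -1) ∧ y + ε • u ∈ K := by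
  obtain ⟨t₁, t₂, h1, h2, h3, h4, h5⟩ := hy
  have key : ∀ ε : ℝ, t₁ ≤ ε → ε ≤ t₂ → y + ε • u ∈ K := by
    intro ε he1 he2
    have hpos : 0 < t₂ - t₁ := by linarith
    have := hc h2 h3 (a := (t₂ - ε) / (t₂ - t₁)) (b := (ε - t₁) / (t₂ - t₁))
      (div_nonneg (by linarith) hpos.le) (div_nonneg (by linarith) hpos.le)
      (by field_simp; ring)
    convert this using 1
    have e1 : (t₂ - ε) / (t₂ - t₁) + (ε - t₁) / (t₂ - t₁) = 1 := by field_simp; ring
    have e2 : (t₂ - ε) / (t₂ - t₁) * t₁ + (ε - t₁) / (t₂ - t₁) * t₂ = ε := by field_simp; ring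
    calc y + ε • u = ((t₂ - ε) / (t₂ - t₁) + (ε - t₁) / (t₂ - t₁)) • y +
          ((t₂ - ε) / (t₂ - t₁) * t₁ + (ε - t₁) / (t₂ - t₁) * t₂) • u := by
            rw [e1, e2, one_smul]
      _ = _ := by module
  by_cases h : t₁ ≤ -1
  · exact ⟨-1, Or.inr rfl, key _ h h5⟩
  · exact ⟨1, Or.inl rfl, key _ h4 (by linarith [not_le.1 h])⟩

theorem star_compact {n : ℕ} {u : EuclideanSpace ℝ (Fin n)} {K : Set (EuclideanSpace ℝ (Fin n))}
    (hK : IsCompact K) : IsCompact (star u K) := by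
  rcases eq_or_ne u 0 with rfl | hu
  · have : star 0 K = K := by
      ext y
      constructor
      · rintro ⟨t₁, t₂, h1, h2, h3, h4, h5⟩
        simpa using h2
      · intro hy
        exact ⟨-1, 1, by norm_num, by simpa using hy, by simpa using hy, by norm_num, by norm_num⟩
    rw [this]; exact hK
  · obtain ⟨R, hR⟩ := hK.isBounded.exists_norm_le
    have hu0 : 0 < ‖u‖ := norm_pos_iff.2 hu
    set D := 2 * R / ‖u‖ + 1 with hD
    have hP : IsCompact (K ×ˢ (Icc (-D) D ×ˢ Icc (-D) D) : Set (EuclideanSpace ℝ (Fin n) × ℝ × ℝ)) :=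
      hK.prod (isCompact_Icc.prod isCompact_Icc)
    have hC : IsClosed {p : EuclideanSpace ℝ (Fin n) × ℝ × ℝ | p.2.1 + 2 ≤ p.2.2 ∧
        p.1 + (p.2.2 - p.2.1) • u ∈ K ∧ p.2.1 ≤ 1 ∧ -1 ≤ p.2.2} := by
      have c1 : IsClosed {p : EuclideanSpace ℝ (Fin n) × ℝ × ℝ | p.2.1 + 2 ≤ p.2.2} :=
        isClosed_le (by fun_prop) (by fun_prop)
      have c2 : IsClosed {p : EuclideanSpace ℝ (Fin n) × ℝ × ℝ |
          p.1 + (p.2.2 - p.2.1) • u ∈ K} := hK.isClosed.preimage (by fun_prop)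
      have c3 : IsClosed {p : EuclideanSpace ℝ (Fin n) × ℝ × ℝ | p.2.1 ≤ 1} :=
        isClosed_le (by fun_prop) (by fun_prop)
      have c4 : IsClosed {p : EuclideanSpace ℝ (Fin n) × ℝ × ℝ | -1 ≤ p.2.2} :=
        isClosed_le (by fun_prop) (by fun_prop)
      exact c1.inter (c2.inter (c3.inter c4))
    have him := (hP.inter_right hC).image (f := fun p : EuclideanSpace ℝ (Fin n) × ℝ × ℝ =>
      p.1 - p.2.1 • u) (by fun_prop)
    convert him using 1
    ext y
    simp only [mem_image, mem_inter_iff, mem_prod, mem_ofPred_eq, Prod.exists]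
    constructor
    · rintro ⟨t₁, t₂, h1, h2, h3, h4, h5⟩
      have hdiff : (t₂ - t₁) * ‖u‖ ≤ 2 * R := by
        have e : (t₂ - t₁) • u = (y + t₂ • u) - (y + t₁ • u) := by module
        have h6 : ‖(t₂ - t₁) • u‖ ≤ 2 * R := by
          rw [e]
          exact (norm_sub_le _ _).trans (by linarith [hR _ h2, hR _ h3])
        rwa [norm_smul, Real.norm_eq_abs, abs_of_nonneg (by linarith)] at h6
      have hle : t₂ - t₁ ≤ 2 * R / ‖u‖ := by rwa [le_div_iff₀ hu0]
      refine ⟨y + t₁ • u, t₁, t₂, ⟨⟨h2, ⟨by linarith, by linarith⟩, ⟨by linarith, by linarith⟩⟩,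
        h1, ?_, h4, h5⟩, by module⟩
      convert h3 using 1
      module
    · rintro ⟨x, t₁, t₂, ⟨⟨hx, -, -⟩, h1, h3, h4, h5⟩, rfl⟩
      refine ⟨t₁, t₂, h1, ?_, ?_, h4, h5⟩
      · convert hx using 1; module
      · convert h3 using 1; module

theorem integrable_gauss (n : ℕ) :
    Integrable (fun y : EuclideanSpace ℝ (Fin n) => Real.exp (-‖y‖ ^ 2 / 2)) := by
  by_contra h
  have h1 := integral_undef h
  have h2 := GaussianFourier.integral_rexp_neg_mul_sq_norm (V := EuclideanSpace ℝ (Fin n))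
    (b := 1 / 2) (by norm_num)
  have h3 : (fun v : EuclideanSpace ℝ (Fin n) => Real.exp (-(1 / 2) * ‖v‖ ^ 2)) =
      fun y => Real.exp (-‖y‖ ^ 2 / 2) := by
    funext v; congr 1; ring
  rw [h3, h1] at h2
  have h4 : 0 < (Real.pi / (1 / 2)) ^ ((Module.finrank ℝ (EuclideanSpace ℝ (Fin n)) : ℝ) / 2) := by
    positivity
  linarith

theorem gE_univ_ne_top (n : ℕ) : gE (univ : Set (EuclideanSpace ℝ (Fin n))) ≠ ∞ := by
  rw [gE, setLIntegral_univ]
  exact (integrable_gauss n).lintegral_lt_top.ne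

theorem gE_univ_pos (n : ℕ) : 0 < gE (univ : Set (EuclideanSpace ℝ (Fin n))) := by
  rw [gE, setLIntegral_univ, pos_iff_ne_zero]
  intro h
  rw [lintegral_eq_zero_iff (by fun_prop)] at h
  have h1 : ∀ᵐ y : EuclideanSpace ℝ (Fin n), False := by
    filter_upwards [h] with y hy
    simp only [Pi.zero_apply, ENNReal.ofReal_eq_zero] at hy
    exact absurd (Real.exp_pos (-‖y‖ ^ 2 / 2)) (not_lt.2 hy)
  rw [Filter.eventually_false_iff_eq_bot, ae_eq_bot] at h1
  exact NeZero.ne _ h1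

theorem gE_mono {n : ℕ} {A B : Set (EuclideanSpace ℝ (Fin n))} (h : A ⊆ B) : gE A ≤ gE B :=
  lintegral_mono_set h

theorem gE_ne_top {n : ℕ} (A : Set (EuclideanSpace ℝ (Fin n))) : gE A ≠ ∞ :=
  ne_top_of_le_ne_top (gE_univ_ne_top n) (gE_mono (subset_univ A))

theorem gE_compl {n : ℕ} {A : Set (EuclideanSpace ℝ (Fin n))} (hA : MeasurableSet A) :
    gE A + gE Aᶜ = gE (univ : Set (EuclideanSpace ℝ (Fin n))) := by
  rw [gE, gE, gE, setLIntegral_univ]
  exact lintegral_add_compl _ hA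

theorem gE_union {n : ℕ} (A B : Set (EuclideanSpace ℝ (Fin n))) :
    gE (A ∪ B) ≤ gE A + gE B := lintegral_union_le _ _ _

theorem gE_empty {n : ℕ} : gE (∅ : Set (EuclideanSpace ℝ (Fin n))) = 0 := by
  simp [gE]

/-- the map to coordinates -/
noncomputable def T {m : ℕ} (R : EuclideanSpace ℝ (Fin (m + 1)) ≃ₗᵢ[ℝ]
    EuclideanSpace ℝ (Fin (m + 1))) : EuclideanSpace ℝ (Fin (m + 1)) ≃ᵐ (Fin (m + 1) → ℝ) :=
  R.toHomeomorph.toMeasurableEquiv.trans (MeasurableEquiv.toLp 2 (Fin (m + 1) → ℝ)).symm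

theorem T_apply {m : ℕ} (R : EuclideanSpace ℝ (Fin (m + 1)) ≃ₗᵢ[ℝ]
    EuclideanSpace ℝ (Fin (m + 1))) (y : EuclideanSpace ℝ (Fin (m + 1))) (i : Fin (m + 1)) :
    T R y i = R y i := rfl

theorem gE_eq_gw {m : ℕ} (R : EuclideanSpace ℝ (Fin (m + 1)) ≃ₗᵢ[ℝ]
    EuclideanSpace ℝ (Fin (m + 1))) (A : Set (EuclideanSpace ℝ (Fin (m + 1)))) :
    gE A = gw (m + 1) (T R '' A) := by
  have hmp : MeasurePreserving (T R) volume volume :=
    (R.measurePreserving).trans (EuclideanSpace.volume_preserving_symm_measurableEquiv_toLp _)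
  rw [gw, ← hmp.setLIntegral_comp_preimage_emb (T R).measurableEmbedding,
    (T R).injective.preimage_image, gE]
  refine lintegral_congr fun y => ?_
  congr 3
  have h1 : ‖y‖ = ‖R y‖ := (R.norm_map y).symm
  rw [h1, EuclideanSpace.norm_sq_eq]
  congr 1
  refine Finset.sum_congr rfl fun i _ => ?_
  rw [T_apply, Real.norm_eq_abs, sq_abs]

theorem star_measure {n : ℕ} {u : EuclideanSpace ℝ (Fin n)} {K : Set (EuclideanSpace ℝ (Fin n))}
    (hK : IsCompact K) (hc : Convex ℝ K) (hm : gE (univ : Set (EuclideanSpace ℝ (Fin n))) ≤ 2 * gE K) (hu : ‖u‖ ≤ 1 / 64) :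
    gE K ≤ gE (star u K) := by
  rcases eq_or_ne u 0 with rfl | hu0
  · refine gE_mono fun y hy => ?_
    exact ⟨-1, 1, by norm_num, by simpa using hy, by simpa using hy, by norm_num, by norm_num⟩
  obtain ⟨m, rfl⟩ : ∃ m, n = m + 1 := by
    rcases n with _ | m
    · exact absurd (Subsingleton.elim u 0) hu0
    · exact ⟨m, rfl⟩
  set a := ‖u‖ with ha
  have ha0 : 0 < a := norm_pos_iff.2 hu0
  set e : EuclideanSpace ℝ (Fin (m + 1)) := EuclideanSpace.single 0 a with he
  have hen : ‖u‖ = ‖e‖ := by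
    rw [he, PiLp.norm_single, Real.norm_eq_abs, abs_of_pos ha0]
  obtain ⟨R, hR⟩ : ∃ R : EuclideanSpace ℝ (Fin (m + 1)) ≃ₗᵢ[ℝ] EuclideanSpace ℝ (Fin (m + 1)),
      R u = e := ⟨Submodule.reflection (Submodule.span ℝ {u - e})ᗮ, Submodule.reflection_sub hen⟩
  have hTadd : ∀ (y : EuclideanSpace ℝ (Fin (m + 1))) (t : ℝ),
      T R (y + t • u) = Function.update (T R y) 0 (T R y 0 + t * a) := by
    intro y t
    funext i
    rw [T_apply, map_add, map_smul, hR]
    by_cases hi : i = 0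
    · subst hi
      simp [he, T_apply]
    · rw [Function.update_of_ne hi, T_apply]
      simp [he, hi]
  have himg : T R '' (star u K) = chordExt (T R '' K) a := by
    ext z
    constructor
    · rintro ⟨y, ⟨t₁, t₂, h1, h2, h3, h4, h5⟩, rfl⟩
      refine ⟨T R y 0 + t₁ * a, T R y 0 + t₂ * a, by nlinarith, ?_, ?_, by nlinarith, by nlinarith⟩
      · rw [← hTadd]; exact mem_image_of_mem _ h2
      · rw [← hTadd]; exact mem_image_of_mem _ h3
    · rintro ⟨s, t, h1, h2, h3, h4, h5⟩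
      obtain ⟨y, rfl⟩ := (T R).surjective z
      have hs : s = T R y 0 + (s - T R y 0) / a * a := by field_simp; ring
      have ht : t = T R y 0 + (t - T R y 0) / a * a := by field_simp; ring
      rw [hs, ← hTadd] at h2
      rw [ht, ← hTadd] at h3
      refine ⟨y, ⟨(s - T R y 0) / a, (t - T R y 0) / a, ?_, ?_, ?_, ?_, ?_⟩, rfl⟩
      · rw [le_div_iff₀ ha0, add_mul, div_mul_cancel₀ _ ha0.ne']; linarith
      · exact ((T R).injective.mem_set_image).1 h2
      · exact ((T R).injective.mem_set_image).1 h3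
      · rw [div_le_one ha0]; linarith
      · rw [le_div_iff₀ ha0]; linarith
  have hKc : IsCompact (T R '' K) := by
    refine hK.image ?_
    exact (PiLp.continuous_ofLp 2 _).comp R.continuous
  have hKv : Convex ℝ (T R '' K) := by
    rintro _ ⟨y, hy, rfl⟩ _ ⟨z, hz, rfl⟩ p q hp hq hpq
    refine ⟨p • y + q • z, hc hy hz hp hq hpq, ?_⟩
    funext i
    rw [T_apply, map_add, map_smul, map_smul]
    simp [T_apply]
  have huniv : gw (m + 1) univ = gE (univ : Set (EuclideanSpace ℝ (Fin (m + 1)))) := by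
    rw [gE_eq_gw R, image_univ, (T R).surjective.range_eq]
  have hmain := gw_chordExt_ge hKc hKv (by rw [huniv, ← gE_eq_gw R]; exact hm) ha0 hu
  rwa [← himg, ← gE_eq_gw R, ← gE_eq_gw R] at hmain

theorem compl_le {n : ℕ} {C D : Set (EuclideanSpace ℝ (Fin n))} (hC : MeasurableSet C)
    (hD : MeasurableSet D) (h : gE C ≤ gE D) : gE Dᶜ ≤ gE Cᶜ := by
  have h1 := gE_compl hC
  have h2 := gE_compl hD
  by_contra hcon
  have h3 : gE C + gE Cᶜ < gE D + gE Dᶜ :=
    ENNReal.add_lt_add_of_le_of_lt (gE_ne_top C) h (not_le.1 hcon)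
  rw [h1, h2] at h3
  exact lt_irrefl _ h3

theorem half_of_compl {n : ℕ} {C : Set (EuclideanSpace ℝ (Fin n))} (hC : MeasurableSet C)
    (h : 2 * gE Cᶜ ≤ gE (univ : Set (EuclideanSpace ℝ (Fin n)))) :
    gE (univ : Set (EuclideanSpace ℝ (Fin n))) ≤ 2 * gE C := by
  rw [← gE_compl hC, two_mul] at h
  have h1 : gE Cᶜ ≤ gE C := (ENNReal.add_le_add_iff_right (gE_ne_top Cᶜ)).1 h
  rw [← gE_compl hC, two_mul]
  gcongr

theorem zero_mem {n : ℕ} {C : Set (EuclideanSpace ℝ (Fin n))} (hc : Convex ℝ C)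
    (hs : ∀ y ∈ C, -y ∈ C) (hm : gE (univ : Set (EuclideanSpace ℝ (Fin n))) ≤ 2 * gE C) :
    (0 : EuclideanSpace ℝ (Fin n)) ∈ C := by
  have hne : C.Nonempty := by
    by_contra hcon
    rw [Set.not_nonempty_iff_eq_empty.1 hcon, gE_empty, mul_zero] at hm
    exact absurd hm (not_le.2 (gE_univ_pos n))
  obtain ⟨y, hy⟩ := hne
  have := hc hy (hs y hy) (a := 1 / 2) (b := 1 / 2) (by norm_num) (by norm_num) (by norm_num)
  convert this using 1
  module

theorem star_finset {n : ℕ} {V : Type*} [DecidableEq V] (φ : V → EuclideanSpace ℝ (Fin n))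
    (S : Finset V) : (∀ e ∈ S, ‖φ e‖ ≤ 1 / 64) → ∀ {C : Set (EuclideanSpace ℝ (Fin n))},
    Body C → gE (univ : Set (EuclideanSpace ℝ (Fin n))) ≤ 2 * gE C →
    ∃ C' : Set (EuclideanSpace ℝ (Fin n)), Body C' ∧ gE C ≤ gE C' ∧
      ∀ y ∈ C', ∃ ε : V → ℝ, (∀ e, ε e = 1 ∨ ε e = -1) ∧ y + ∑ e ∈ S, ε e • φ e ∈ C := by
  induction S using Finset.induction_on with
  | empty =>
    intro _ C hC _
    exact ⟨C, hC, le_rfl, fun y hy => ⟨fun _ => 1, fun _ => Or.inl rfl, by simpa using hy⟩⟩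
  | insert e S he ih =>
    intro hφ C hC hm
    obtain ⟨C1, hb1, hm1, h1⟩ := ih (fun e' he' => hφ e' (Finset.mem_insert_of_mem he')) hC hm
    have hm1' : gE (univ : Set (EuclideanSpace ℝ (Fin n))) ≤ 2 * gE C1 := hm.trans (by gcongr)
    refine ⟨star (φ e) C1, ⟨star_compact hb1.cpt, star_convex hb1.cvx, star_sym hb1.sym⟩,
      hm1.trans (star_measure hb1.cpt hb1.cvx hm1' (hφ e (Finset.mem_insert_self _ _))),
      fun y hy => ?_⟩
    obtain ⟨δ, hδ, hy1⟩ := star_step hb1.cvx hy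
    obtain ⟨ε, hε, hy2⟩ := h1 _ hy1
    refine ⟨Function.update ε e δ, fun x => ?_, ?_⟩
    · by_cases hx : x = e
      · subst hx; simpa using hδ
      · rw [Function.update_of_ne hx]; exact hε x
    · have hsum : ∑ x ∈ S, Function.update ε e δ x • φ x = ∑ x ∈ S, ε x • φ x :=
        Finset.sum_congr rfl fun x hx => by
          rw [Function.update_of_ne (ne_of_mem_of_not_mem hx he)]
      rw [Finset.sum_insert he, Function.update_self, hsum, ← add_assoc]
      exact hy2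

/-- prefix theorem, with a set of good starting points -/
theorem prefix_aux {n : ℕ} {V : Type*} [DecidableEq V] (G : Finset V)
    (φ : V → EuclideanSpace ℝ (Fin n)) (hφ : ∀ e ∈ G, ‖φ e‖ ≤ 1 / 64)
    {K : Set (EuclideanSpace ℝ (Fin n))} (hK : Body K) (w : V → ℕ) (r : ℕ) :
    ∀ j : ℕ, 2 * ((r : ℝ≥0∞) * gE Kᶜ) ≤ gE (univ : Set (EuclideanSpace ℝ (Fin n))) →
    ∃ C : Set (EuclideanSpace ℝ (Fin n)), IsClosed C ∧ Convex ℝ C ∧ (∀ y ∈ C, -y ∈ C) ∧
      gE Cᶜ ≤ r * gE Kᶜ ∧ ∀ y ∈ C, ∃ ε : V → ℝ, (∀ e, ε e = 1 ∨ ε e = -1) ∧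
        ∀ i, 1 ≤ i → i ≤ r →
          y + ∑ e ∈ G.filter (fun e => j ≤ w e ∧ w e < j + i), ε e • φ e ∈ K := by
  induction r with
  | zero =>
    intro j _
    refine ⟨univ, isClosed_univ, convex_univ, fun _ _ => mem_univ _, ?_, fun y _ =>
      ⟨fun _ => 1, fun _ => Or.inl rfl, fun i h1 h2 => by omega⟩⟩
    rw [compl_univ, gE_empty]; exact zero_le
  | succ r ih =>
    intro j hr
    have hr0 : 2 * ((r : ℝ≥0∞) * gE Kᶜ) ≤ gE (univ : Set (EuclideanSpace ℝ (Fin n))) := by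
      refine le_trans ?_ hr
      gcongr
      exact Nat.le_succ r
    obtain ⟨C, hCc, hCv, hCs, hCm, hC⟩ := ih (j + 1) hr0
    have hB : Body (C ∩ K) := ⟨hK.cpt.inter_left hCc, hCv.inter hK.cvx,
      fun y hy => ⟨hCs y hy.1, hK.sym y hy.2⟩⟩
    have hBm : gE (C ∩ K)ᶜ ≤ ((r + 1 : ℕ) : ℝ≥0∞) * gE Kᶜ := by
      rw [compl_inter]
      refine (gE_union _ _).trans ?_
      push_cast
      rw [add_mul, one_mul]
      gcongr
    have hBh : gE (univ : Set (EuclideanSpace ℝ (Fin n))) ≤ 2 * gE (C ∩ K) := by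
      refine half_of_compl hB.cpt.isClosed.measurableSet (le_trans ?_ hr)
      gcongr
    obtain ⟨C', hC'b, hC'm, hC'⟩ := star_finset φ (G.filter (fun e => w e = j))
      (fun e he => hφ e (Finset.mem_filter.1 he).1) hB hBh
    refine ⟨C', hC'b.cpt.isClosed, hC'b.cvx, hC'b.sym,
      (compl_le hB.cpt.isClosed.measurableSet hC'b.cpt.isClosed.measurableSet hC'm).trans hBm,
      fun y hy => ?_⟩
    obtain ⟨ε₁, hε₁, h1⟩ := hC' y hy
    obtain ⟨ε₂, hε₂, h2⟩ := hC _ h1.1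
    refine ⟨fun e => if w e = j then ε₁ e else ε₂ e, fun e => ?_, fun i hi1 hi2 => ?_⟩
    · by_cases he : w e = j
      · simp only [he, if_true]; exact hε₁ e
      · simp only [he, if_false]; exact hε₂ e
    · have hsplit : G.filter (fun e => j ≤ w e ∧ w e < j + i) =
          G.filter (fun e => w e = j) ∪ G.filter (fun e => j + 1 ≤ w e ∧ w e < j + 1 + (i - 1)) := by
        ext e
        simp only [Finset.mem_filter, Finset.mem_union]
        constructor
        · rintro ⟨h3, h4, h5⟩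
          by_cases h6 : w e = j
          · exact Or.inl ⟨h3, h6⟩
          · exact Or.inr ⟨h3, by omega, by omega⟩
        · rintro (⟨h3, h4⟩ | ⟨h3, h4, h5⟩)
          · exact ⟨h3, by omega, by omega⟩
          · exact ⟨h3, by omega, by omega⟩
      have hdisj : Disjoint (G.filter (fun e => w e = j))
          (G.filter (fun e => j + 1 ≤ w e ∧ w e < j + 1 + (i - 1))) := by
        rw [Finset.disjoint_left]
        intro e he1 he2
        have h3 := (Finset.mem_filter.1 he1).2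
        have h4 := (Finset.mem_filter.1 he2).2
        omega
      rw [hsplit, Finset.sum_union hdisj]
      have hs1 : ∑ e ∈ G.filter (fun e => w e = j), (if w e = j then ε₁ e else ε₂ e) • φ e =
          ∑ e ∈ G.filter (fun e => w e = j), ε₁ e • φ e :=
        Finset.sum_congr rfl fun e he => by rw [if_pos (Finset.mem_filter.1 he).2]
      have hs2 : ∑ e ∈ G.filter (fun e => j + 1 ≤ w e ∧ w e < j + 1 + (i - 1)),
          (if w e = j then ε₁ e else ε₂ e) • φ e =
          ∑ e ∈ G.filter (fun e => j + 1 ≤ w e ∧ w e < j + 1 + (i - 1)), ε₂ e • φ e :=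
        Finset.sum_congr rfl fun e he => by
          have h3 := (Finset.mem_filter.1 he).2
          rw [if_neg (by omega)]
      rw [hs1, hs2, ← add_assoc]
      by_cases hi : i = 1
      · subst hi
        have hemp : G.filter (fun e => j + 1 ≤ w e ∧ w e < j + 1 + (1 - 1)) = ∅ := by
          rw [Finset.filter_eq_empty_iff]
          intro e _
          omega
        rw [hemp, Finset.sum_empty, add_zero]
        exact h1.2
      · exact h2 (i - 1) (by omega) (by omega)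

/-- prefix theorem -/
theorem prefix_signs {n : ℕ} {V : Type*} [DecidableEq V] (G : Finset V)
    (φ : V → EuclideanSpace ℝ (Fin n)) (hφ : ∀ e ∈ G, ‖φ e‖ ≤ 1 / 64)
    {K : Set (EuclideanSpace ℝ (Fin n))} (hK : Body K) (w : V → ℕ) (M : ℕ)
    (hm : 2 * ((M : ℝ≥0∞) * gE Kᶜ) ≤ gE (univ : Set (EuclideanSpace ℝ (Fin n)))) :
    ∃ ε : V → ℝ, (∀ e, ε e = 1 ∨ ε e = -1) ∧
      ∀ i, 1 ≤ i → i ≤ M → ∑ e ∈ G.filter (fun e => w e < i), ε e • φ e ∈ K := by
  obtain ⟨C, hCc, hCv, hCs, hCm, hC⟩ := prefix_aux G φ hφ hK w M 0 hm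
  have h0 : (0 : EuclideanSpace ℝ (Fin n)) ∈ C := by
    refine zero_mem hCv hCs (half_of_compl hCc.measurableSet (le_trans ?_ hm))
    gcongr
  obtain ⟨ε, hε, h⟩ := hC 0 h0
  refine ⟨ε, hε, fun i h1 h2 => ?_⟩
  have := h i h1 h2
  rw [zero_add] at this
  convert this using 2
  ext e
  simp

theorem prefix_signs' {n : ℕ} {V : Type*} [DecidableEq V] (G : Finset V)
    (φ : V → EuclideanSpace ℝ (Fin n)) (hφ : ∀ e ∈ G, ‖φ e‖ ≤ 1 / 64)
    {K : Set (EuclideanSpace ℝ (Fin n))} (hK : Body K) (w : V → ℕ) (M : ℕ)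
    (hm : 2 * ((M : ℝ≥0∞) * gE Kᶜ) ≤ gE (univ : Set (EuclideanSpace ℝ (Fin n))))
    (h0 : (0 : EuclideanSpace ℝ (Fin n)) ∈ K) :
    ∃ ε : V → ℝ, (∀ e, ε e = 1 ∨ ε e = -1) ∧
      ∀ i ≤ M, ∑ e ∈ G.filter (fun e => w e < i), ε e • φ e ∈ K := by
  obtain ⟨ε, hε, h⟩ := prefix_signs G φ hφ hK w M hm
  refine ⟨ε, hε, fun i hi => ?_⟩
  rcases Nat.eq_zero_or_pos i with rfl | hi0
  · have : G.filter (fun e => w e < 0) = ∅ := by
      rw [Finset.filter_eq_empty_iff]
      intro e _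
      omega
    rw [this, Finset.sum_empty]; exact h0
  · exact h i hi0 hi

theorem round_dyadic {n : ℕ} {V : Type*} [DecidableEq V] (G : Finset V)
    (φ : V → EuclideanSpace ℝ (Fin n)) (hφ : ∀ e ∈ G, ‖φ e‖ ≤ 1 / 64)
    {K : Set (EuclideanSpace ℝ (Fin n))} (hK : Body K)
    (hm : 2 * gE Kᶜ ≤ gE (univ : Set (EuclideanSpace ℝ (Fin n)))) (m : ℕ) :
    ∀ k : V → ℕ, (∀ e ∈ G, k e ≤ 2 ^ m) → ∃ A ⊆ G, ∃ z ∈ K,
      ∑ e ∈ A, φ e - ∑ e ∈ G, ((k e : ℝ) / 2 ^ m) • φ e = (1 - 1 / 2 ^ m : ℝ) • z := by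
  have h0 := zero_mem hK.cvx hK.sym (half_of_compl hK.cpt.isClosed.measurableSet hm)
  induction m with
  | zero =>
    intro k hk
    refine ⟨G.filter (fun e => k e = 1), Finset.filter_subset _ _, 0, h0, ?_⟩
    have h1 : ∑ e ∈ G, ((k e : ℝ) / 2 ^ 0) • φ e = ∑ e ∈ G, if k e = 1 then φ e else 0 := by
      refine Finset.sum_congr rfl fun e he => ?_
      have h2 := hk e he
      rw [pow_zero] at h2
      rcases Nat.le_one_iff_eq_zero_or_eq_one.1 h2 with h3 | h3 <;> simp [h3]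
    rw [h1, Finset.sum_filter, sub_self, smul_zero]
  | succ m ih =>
    intro k hk
    obtain ⟨ε, hε, h⟩ := prefix_signs (G.filter (fun e => k e % 2 = 1)) φ
      (fun e he => hφ e (Finset.mem_filter.1 he).1) hK (fun _ => 0) 1 (by simpa using hm)
    have hz' := h 1 le_rfl le_rfl
    simp only [zero_lt_one, Finset.filter_true] at hz'
    set z' := ∑ e ∈ G.filter (fun e => k e % 2 = 1), ε e • φ e with hz'def
    set k' : V → ℕ := fun e =>
      if k e % 2 = 1 then (if ε e = 1 then (k e + 1) / 2 else (k e - 1) / 2) else k e / 2 with hk'def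
    have hk'1 : ∀ e, (k' e : ℝ) = (k e + if k e % 2 = 1 then ε e else 0) / 2 := by
      intro e
      by_cases ho : k e % 2 = 1
      · obtain ⟨a, ha⟩ : ∃ a, k e = 2 * a + 1 := ⟨k e / 2, by omega⟩
        rcases hε e with h1 | h1
        · have h2 : k' e = a + 1 := by
            simp only [hk'def, ho, if_true, h1]; omega
          rw [h2, if_pos ho, h1, ha]; push_cast; ring
        · have h2 : k' e = a := by
            have h3 : ¬ (ε e = 1) := by rw [h1]; norm_num
            simp only [hk'def, ho, if_true, h3, if_false]; omega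
          rw [h2, if_pos ho, h1, ha]; push_cast; ring
      · obtain ⟨a, ha⟩ : ∃ a, k e = 2 * a := ⟨k e / 2, by omega⟩
        have h2 : k' e = a := by
          simp only [hk'def, ho, if_false]; omega
        rw [h2, if_neg ho, ha]; push_cast; ring
    have hk'2 : ∀ e ∈ G, k' e ≤ 2 ^ m := by
      intro e he
      have h2 := hk e he
      rw [pow_succ] at h2
      simp only [hk'def]
      split_ifs <;> omega
    obtain ⟨A, hA, z, hz, hAz⟩ := ih k' hk'2
    have hsum : ∑ e ∈ G, ((k' e : ℝ) / 2 ^ m) • φ e =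
        ∑ e ∈ G, ((k e : ℝ) / 2 ^ (m + 1)) • φ e + (1 / 2 ^ (m + 1) : ℝ) • z' := by
      rw [hz'def, Finset.sum_filter, Finset.smul_sum, ← Finset.sum_add_distrib]
      refine Finset.sum_congr rfl fun e _ => ?_
      rw [hk'1 e, pow_succ]
      split_ifs
      · rw [smul_smul, ← add_smul]; congr 1; field_simp
      · rw [smul_zero, add_zero, add_zero]; congr 1; field_simp
    have hmem : (1 - 1 / 2 ^ m : ℝ) • z + (1 / 2 ^ (m + 1) : ℝ) • z' ∈
        ((1 - 1 / 2 ^ m : ℝ) + 1 / 2 ^ (m + 1)) • K := by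
      rw [hK.cvx.add_smul (sub_nonneg.2 ?_) (by positivity)]
      · exact Set.add_mem_add (Set.smul_mem_smul_set hz) (Set.smul_mem_smul_set hz')
      · rw [div_le_one (by positivity)]
        exact one_le_pow₀ (by norm_num)
    have hcoef : ((1 - 1 / 2 ^ m : ℝ) + 1 / 2 ^ (m + 1)) = 1 - 1 / 2 ^ (m + 1) := by
      rw [pow_succ]; field_simp; ring
    rw [hcoef] at hmem
    obtain ⟨z'', hz'', hzz⟩ := hmem
    refine ⟨A, hA, z'', hz'', ?_⟩
    rw [hsum] at hAz
    have hzz' : (1 - 1 / 2 ^ (m + 1) : ℝ) • z'' =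
      (1 - 1 / 2 ^ m : ℝ) • z + (1 / 2 ^ (m + 1) : ℝ) • z' := hzz
    rw [hzz', ← hAz]
    module

end PrefixAux

open PrefixAux

/-- Rounding of fractional marginals inside a symmetric convex body. -/
theorem exists_round {n : ℕ} {V : Type*} [DecidableEq V] (G : Finset V)
    (φ : V → EuclideanSpace ℝ (Fin n)) (hφ : ∀ e ∈ G, ‖φ e‖ ≤ 1 / 64)
    {K : Set (EuclideanSpace ℝ (Fin n))} (hK : IsCompact K) (hc : Convex ℝ K)
    (hs : ∀ y ∈ K, -y ∈ K) (hm : 2 * gE Kᶜ ≤ gE (univ : Set (EuclideanSpace ℝ (Fin n))))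
    (y : V → ℝ) (hy : ∀ e ∈ G, 0 ≤ y e ∧ y e ≤ 1) :
    ∃ A ⊆ G, ∑ e ∈ A, φ e - ∑ e ∈ G, y e • φ e ∈ K := by
  have hB : Body K := ⟨hK, hc, hs⟩
  have h0 := zero_mem hc hs (half_of_compl hK.isClosed.measurableSet hm)
  set R : Set (EuclideanSpace ℝ (Fin n)) :=
    ⋃ A ∈ (G.powerset : Set (Finset V)), {z | ∑ e ∈ A, φ e - z ∈ K} with hR
  have hRc : IsClosed R :=
    (G.powerset.finite_toSet).isClosed_biUnion fun A _ => hK.isClosed.preimage (by fun_prop)
  have hmem : ∀ m : ℕ, ∑ e ∈ G, ((⌊y e * 2 ^ m⌋₊ : ℝ) / 2 ^ m) • φ e ∈ R := by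
    intro m
    obtain ⟨A, hA, z, hz, hAz⟩ := round_dyadic G φ hφ hB hm m (fun e => ⌊y e * 2 ^ m⌋₊)
      (fun e he => by
        have h1 : y e * 2 ^ m ≤ ((2 ^ m : ℕ) : ℝ) := by
          push_cast
          have := (hy e he).2
          have h2 : (0 : ℝ) < 2 ^ m := by positivity
          nlinarith
        exact Nat.floor_le_of_le h1)
    simp only [hR, Finset.coe_powerset, mem_iUnion, mem_ofPred_eq, exists_prop]
    refine ⟨A, by simpa using hA, ?_⟩
    rw [hAz]
    have h2 : (0 : ℝ) ≤ 1 / 2 ^ m := by positivity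
    have h3 : (1 : ℝ) / 2 ^ m ≤ 1 := by
      rw [div_le_one (by positivity)]
      exact one_le_pow₀ (by norm_num)
    have := hc hz h0 (a := 1 - 1 / 2 ^ m) (b := 1 / 2 ^ m) (by linarith) h2 (by ring)
    rwa [smul_zero, add_zero] at this
  have hlim : Filter.Tendsto (fun m : ℕ => ∑ e ∈ G, ((⌊y e * 2 ^ m⌋₊ : ℝ) / 2 ^ m) • φ e)
      Filter.atTop (nhds (∑ e ∈ G, y e • φ e)) := by
    refine tendsto_finsetSum _ fun e he => Filter.Tendsto.smul_const ?_ _
    have h1 : Filter.Tendsto (fun x : ℝ => (⌊y e * x⌋₊ : ℝ) / x) Filter.atTop (nhds (y e)) :=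
      tendsto_nat_floor_mul_div_atTop (hy e he).1
    exact h1.comp (tendsto_pow_atTop_atTop_of_one_lt (by norm_num : (1 : ℝ) < 2))
  have hfin : ∑ e ∈ G, y e • φ e ∈ R := hRc.mem_of_tendsto hlim (Filter.Eventually.of_forall hmem)
  simp only [hR, Finset.coe_powerset, mem_iUnion, mem_ofPred_eq, exists_prop] at hfin
  obtain ⟨A, hA, hz⟩ := hfin
  exact ⟨A, by simpa using hA, hz⟩

/-- Folding of a family into `2 ^ l` windows with all prefix errors in the body. -/
theorem exists_cross {n : ℕ} {V : Type*} [DecidableEq V] (G : Finset V)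
    (φ : V → EuclideanSpace ℝ (Fin n)) (hφ : ∀ e ∈ G, ‖φ e‖ ≤ 1 / 64)
    {K : Set (EuclideanSpace ℝ (Fin n))} (hK : IsCompact K) (hc : Convex ℝ K)
    (hs : ∀ y ∈ K, -y ∈ K) (l : ℕ)
    (hm : 2 ^ l * gE Kᶜ ≤ gE (univ : Set (EuclideanSpace ℝ (Fin n)))) (hm2 : 2 * gE Kᶜ ≤
      gE (univ : Set (EuclideanSpace ℝ (Fin n)))) :
    ∃ w : V → ℕ, (∀ e ∈ G, w e < 2 ^ l) ∧ ∀ i ≤ 2 ^ l,
      ∑ e ∈ G.filter (fun e => w e < i), φ e - ((i : ℝ) / 2 ^ l) • ∑ e ∈ G, φ e ∈ K := by
  have hB : Body K := ⟨hK, hc, hs⟩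
  have h0 := zero_mem hc hs (half_of_compl hK.isClosed.measurableSet hm2)
  have hhalf : ∀ a ∈ K, ∀ b ∈ K, (1 / 2 : ℝ) • a + (1 / 2 : ℝ) • b ∈ K := fun a ha b hb =>
    hc ha hb (by norm_num) (by norm_num) (by norm_num)
  suffices H : ∀ t ≤ l, ∃ w : V → ℕ, (∀ e ∈ G, w e < 2 ^ t) ∧ ∀ i ≤ 2 ^ t,
      ∑ e ∈ G.filter (fun e => w e < i), φ e - ((i : ℝ) / 2 ^ t) • ∑ e ∈ G, φ e ∈ K from
    H l le_rfl
  intro t
  induction t with
  | zero =>
    intro _
    refine ⟨fun _ => 0, fun _ _ => by norm_num, fun i hi => ?_⟩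
    rw [pow_zero] at hi
    rcases Nat.le_one_iff_eq_zero_or_eq_one.1 hi with rfl | rfl
    · simpa using h0
    · simpa using h0
  | succ t ih =>
    intro htl
    obtain ⟨w, hw, herr⟩ := ih (by omega)
    obtain ⟨ε, hε, hS⟩ := prefix_signs' G φ hφ hB w (2 ^ t) (by
      refine le_trans ?_ hm
      rw [← mul_assoc]
      gcongr
      push_cast
      rw [← pow_succ']
      exact pow_le_pow_right₀ (by norm_num) htl) h0
    have hsub1 : ∀ j, ∑ e ∈ G.filter (fun e => w e < j ∧ ε e = 1), φ e =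
        (1 / 2 : ℝ) • (∑ e ∈ G.filter (fun e => w e < j), φ e +
          ∑ e ∈ G.filter (fun e => w e < j), ε e • φ e) := by
      intro j
      rw [← Finset.sum_add_distrib, Finset.smul_sum, ← Finset.filter_filter, Finset.sum_filter]
      refine Finset.sum_congr rfl fun e _ => ?_
      rcases hε e with h1 | h1
      · rw [if_pos h1, h1]; module
      · rw [if_neg (by rw [h1]; norm_num), h1]; module
    have hsub2 : ∀ j, ∑ e ∈ G.filter (fun e => w e < j ∧ ε e = -1), φ e =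
        (1 / 2 : ℝ) • (∑ e ∈ G.filter (fun e => w e < j), φ e -
          ∑ e ∈ G.filter (fun e => w e < j), ε e • φ e) := by
      intro j
      rw [← Finset.sum_sub_distrib, Finset.smul_sum, ← Finset.filter_filter, Finset.sum_filter]
      refine Finset.sum_congr rfl fun e _ => ?_
      rcases hε e with h1 | h1
      · rw [if_neg (by rw [h1]; norm_num), h1]; module
      · rw [if_pos h1, h1]; module
    have hpow : 2 ^ (t + 1) = 2 ^ t + 2 ^ t := by rw [pow_succ]; ring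
    refine ⟨fun e => if ε e = 1 then w e else 2 ^ (t + 1) - 1 - w e, fun e he => ?_,
      fun i hi => ?_⟩
    · have := hw e he
      simp only
      split_ifs <;> omega
    · by_cases hit : i ≤ 2 ^ t
      · have hfil : G.filter (fun e => (if ε e = 1 then w e else 2 ^ (t + 1) - 1 - w e) < i) =
            G.filter (fun e => w e < i ∧ ε e = 1) := by
          refine Finset.filter_congr fun e he => ?_
          have := hw e he
          split_ifs with h1
          · simp [h1]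
          · simp only [h1, and_false, iff_false]; omega
        rw [hfil, hsub1]
        have := hhalf _ (herr i hit) _ (hS i hit)
        convert this using 1
        rw [pow_succ]
        have e1 : (i : ℝ) / (2 ^ t * 2) = (1 / 2) * ((i : ℝ) / 2 ^ t) := by field_simp
        rw [e1]
        module
      · obtain ⟨j, hj⟩ : ∃ j, i + j = 2 ^ (t + 1) := ⟨2 ^ (t + 1) - i, by omega⟩
        have hjt : j ≤ 2 ^ t := by omega
        have hsplit : ∑ e ∈ G.filter
              (fun e => (if ε e = 1 then w e else 2 ^ (t + 1) - 1 - w e) < i), φ e =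
            ∑ e ∈ G, φ e - ∑ e ∈ G.filter (fun e => w e < j ∧ ε e = -1), φ e := by
          rw [eq_sub_iff_add_eq, ← Finset.sum_filter_add_sum_filter_not G
            (fun e => (if ε e = 1 then w e else 2 ^ (t + 1) - 1 - w e) < i) φ]
          congr 1
          refine Finset.sum_congr (Finset.filter_congr fun e he => ?_) fun _ _ => rfl
          have := hw e he
          rcases hε e with h1 | h1
          · have h2 : ¬ ((1 : ℝ) = -1) := by norm_num
            rw [if_pos h1, h1]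
            simp only [h2, and_false, not_lt, false_iff, not_le]
            omega
          · have h2 : ¬ ((-1 : ℝ) = 1) := by norm_num
            rw [h1, if_neg h2]
            simp only [and_true, not_lt]
            omega
        rw [hsplit, hsub2]
        have := hhalf _ (hs _ (herr j hjt)) _ (hS j hjt)
        convert this using 1
        have e1 : (i : ℝ) / 2 ^ (t + 1) = 1 - (1 / 2) * ((j : ℝ) / 2 ^ t) := by
          have h3 : (i : ℝ) + j = 2 ^ (t + 1) := by exact_mod_cast hj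
          have h4 : (i : ℝ) = 2 ^ (t + 1) - j := by linarith
          rw [h4, pow_succ]; field_simp
        rw [e1]
        module

end Vale.Agent.P262F
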