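import Mathlib

/-!
TASK D. Linear algebra: steering.
-/

namespace Vale.Agent.P262F

/-- If the second moments of the family `G` in the directions `F` are close to `diag r`
(in the weighted Hilbert–Schmidt sense), every `s` is `∑ ⟨v_e, Y⟩ v_e` with a small `Y`. -/
theorem steer {V κ : Type} [DecidableEq κ] (G : Finset V) (F : Finset κ) (v : V → κ → ℝ)
    (r : κ → ℝ) (hr : ∀ k ∈ F, 0 < r k)
    (hX : ∑ i ∈ F, ∑ k ∈ F, (∑ e ∈ G, v e i * v e k - if i = k then r i else 0) ^ 2 /
      (r i * r k) ≤ 1 / 4) (s : κ → ℝ) :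
    ∃ Y : κ → ℝ, (∀ k ∈ F, ∑ e ∈ G, (∑ i ∈ F, v e i * Y i) * v e k = s k) ∧
      ∑ e ∈ G, (∑ i ∈ F, v e i * Y i) ^ 2 ≤ 2 * ∑ k ∈ F, s k ^ 2 / r k ∧
      ∑ k ∈ F, r k * Y k ^ 2 ≤ 4 * ∑ k ∈ F, s k ^ 2 / r k := by
  classical
  set q : κ → ℝ := fun k => Real.sqrt (r k) with hq
  have hq0 : ∀ k ∈ F, 0 < q k := fun k hk => Real.sqrt_pos.2 (hr k hk)
  have hqq : ∀ k ∈ F, q k * q k = r k := fun k hk => Real.mul_self_sqrt (hr k hk).le
  set M : κ → κ → ℝ := fun i k => ∑ e ∈ G, v e i * v e k with hM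
  set Z : κ → κ → ℝ := fun k i => (M i k - if i = k then r i else 0) / (q i * q k) with hZ
  have hZ2 : ∑ k ∈ F, ∑ i ∈ F, Z k i ^ 2 ≤ 1 / 4 := by
    refine le_trans (le_of_eq ?_) hX
    rw [Finset.sum_comm]
    refine Finset.sum_congr rfl fun i hi => Finset.sum_congr rfl fun k hk => ?_
    rw [hZ]
    simp only [div_pow]
    congr 1
    rw [← hqq i hi, ← hqq k hk]
    ring
  -- the operator
  have hCS : ∀ y : κ → ℝ, ∑ k ∈ F, (∑ i ∈ F, Z k i * y i) ^ 2 ≤ (1 / 4) * ∑ i ∈ F, y i ^ 2 := by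
    intro y
    calc ∑ k ∈ F, (∑ i ∈ F, Z k i * y i) ^ 2
        ≤ ∑ k ∈ F, ((∑ i ∈ F, Z k i ^ 2) * ∑ i ∈ F, y i ^ 2) :=
          Finset.sum_le_sum fun k _ => Finset.sum_mul_sq_le_sq_mul_sq _ _ _
      _ = (∑ k ∈ F, ∑ i ∈ F, Z k i ^ 2) * ∑ i ∈ F, y i ^ 2 := by rw [Finset.sum_mul]
      _ ≤ (1 / 4) * ∑ i ∈ F, y i ^ 2 :=
          mul_le_mul_of_nonneg_right hZ2 (Finset.sum_nonneg fun _ _ => sq_nonneg _)
  let T : (F → ℝ) →ₗ[ℝ] (F → ℝ) :=
    { toFun := fun y k => y k + ∑ i : F, Z k i * y i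
      map_add' := by
        intro x y
        funext k
        simp only [Pi.add_apply, mul_add, Finset.sum_add_distrib]
        ring
      map_smul' := by
        intro c x
        funext k
        simp only [Pi.smul_apply, smul_eq_mul, RingHom.id_apply, mul_add, Finset.mul_sum]
        congr 1
        refine Finset.sum_congr rfl fun i _ => ?_
        ring }
  have hTapp : ∀ y k, T y k = y k + ∑ i : F, Z k i * y i := fun y k => rfl
  have hbound : ∀ (y t : κ → ℝ), (∀ k ∈ F, t k = y k + ∑ i ∈ F, Z k i * y i) →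
      ∑ k ∈ F, y k ^ 2 ≤ 4 * ∑ k ∈ F, t k ^ 2 := by
    intro y t h
    have h1 : ∑ k ∈ F, y k ^ 2 ≤ ∑ k ∈ F, (2 * t k ^ 2 + 2 * (∑ i ∈ F, Z k i * y i) ^ 2) := by
      refine Finset.sum_le_sum fun k hk => ?_
      have h2 : y k = t k - ∑ i ∈ F, Z k i * y i := by
        have := h k hk
        linarith
      have h3 : y k ^ 2 = (t k - ∑ i ∈ F, Z k i * y i) ^ 2 := by rw [← h2]
      rw [h3]
      nlinarith [sq_nonneg (t k + ∑ i ∈ F, Z k i * y i)]
    rw [Finset.sum_add_distrib, ← Finset.mul_sum, ← Finset.mul_sum] at h1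
    have h2 := hCS y
    linarith
  have hinj : Function.Injective T := by
    rw [← LinearMap.ker_eq_bot, LinearMap.ker_eq_bot']
    intro y hy
    let y' : κ → ℝ := fun k => if h : k ∈ F then y ⟨k, h⟩ else 0
    have hy' : ∀ k : F, y' k = y k := fun k => by simp [y']
    have hk : ∀ k ∈ F, (0 : ℝ) = y' k + ∑ i ∈ F, Z k i * y' i := by
      intro k hk
      have := congrFun hy ⟨k, hk⟩
      rw [hTapp] at this
      rw [← Finset.sum_coe_sort F (fun i => Z k i * y' i), hy' ⟨k, hk⟩]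
      simp only [hy']
      exact this.symm
    have h0 := hbound y' (fun _ => 0) hk
    simp only [ne_eq, OfNat.ofNat_ne_zero, not_false_eq_true, zero_pow, Finset.sum_const_zero,
      mul_zero] at h0
    have hz : ∀ k ∈ F, y' k ^ 2 = 0 := by
      have h0' : ∑ k ∈ F, y' k ^ 2 = 0 :=
        le_antisymm h0 (Finset.sum_nonneg fun _ _ => sq_nonneg _)
      exact fun k hk => (Finset.sum_eq_zero_iff_of_nonneg (fun _ _ => sq_nonneg _)).1 h0' k hk
    funext k
    rw [← hy' k]
    exact pow_eq_zero_iff (two_ne_zero) |>.1 (hz k k.2)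
  have hsurj : Function.Surjective T := LinearMap.injective_iff_surjective.1 hinj
  obtain ⟨y0, hy0⟩ := hsurj (fun k => s k / q k)
  let y : κ → ℝ := fun k => if h : k ∈ F then y0 ⟨k, h⟩ else 0
  have hy : ∀ k : F, y k = y0 k := fun k => by simp [y]
  have hyk : ∀ k ∈ F, s k / q k = y k + ∑ i ∈ F, Z k i * y i := by
    intro k hk
    have := congrFun hy0 ⟨k, hk⟩
    rw [hTapp] at this
    rw [← Finset.sum_coe_sort F (fun i => Z k i * y i), hy ⟨k, hk⟩]
    simp only [hy]
    exact this.symm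
  have hb := hbound y (fun k => s k / q k) hyk
  have ht : ∑ k ∈ F, (s k / q k) ^ 2 = ∑ k ∈ F, s k ^ 2 / r k := by
    refine Finset.sum_congr rfl fun k hk => ?_
    rw [div_pow, ← hqq k hk]
    ring_nf
  rw [ht] at hb
  -- main identity
  have hmain : ∀ k ∈ F, ∑ i ∈ F, M i k * (y i / q i) = s k := by
    intro k hk
    have hqk := (hq0 k hk).ne'
    have h1 : ∑ i ∈ F, M i k * (y i / q i) = q k * (y k + ∑ i ∈ F, Z k i * y i) := by
      have h2 : ∀ i ∈ F, M i k * (y i / q i) =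
          q k * (Z k i * y i) + (if i = k then r i * (y i / q i) else 0) := by
        intro i hi
        have hqi := (hq0 i hi).ne'
        have hZe : Z k i = (M i k - if i = k then r i else 0) / (q i * q k) := rfl
        rw [hZe]
        by_cases hik : i = k
        · rw [if_pos hik, if_pos hik]
          field_simp
          ring
        · rw [if_neg hik, if_neg hik]
          field_simp
          ring
      rw [Finset.sum_congr rfl h2, Finset.sum_add_distrib, Finset.sum_ite_eq' F k, if_pos hk,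
        ← Finset.mul_sum, ← hqq k hk]
      field_simp
      ring
    rw [h1, ← hyk k hk]
    field_simp
  have hsw : ∀ k, ∑ e ∈ G, (∑ i ∈ F, v e i * (y i / q i)) * v e k =
      ∑ i ∈ F, M i k * (y i / q i) := by
    intro k
    simp only [hM, Finset.sum_mul]
    rw [Finset.sum_comm]
    refine Finset.sum_congr rfl fun i _ => Finset.sum_congr rfl fun e _ => ?_
    ring
  refine ⟨fun k => y k / q k, fun k hk => ?_, ?_, ?_⟩
  · rw [hsw, hmain k hk]
  · have h1 : ∑ e ∈ G, (∑ i ∈ F, v e i * (y i / q i)) ^ 2 = ∑ k ∈ F, (y k / q k) * s k := by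
      have h2 : ∀ e ∈ G, (∑ i ∈ F, v e i * (y i / q i)) ^ 2 =
          ∑ k ∈ F, (∑ i ∈ F, v e i * (y i / q i)) * v e k * (y k / q k) := by
        intro e _
        rw [sq]
        conv_lhs => rw [Finset.mul_sum]
        refine Finset.sum_congr rfl fun k _ => ?_
        ring
      rw [Finset.sum_congr rfl h2, Finset.sum_comm]
      refine Finset.sum_congr rfl fun k hk => ?_
      rw [← Finset.sum_mul, hsw, hmain k hk]
      ring
    rw [h1]
    have h3 : ∑ k ∈ F, (y k / q k) * s k ≤ ∑ k ∈ F, (y k ^ 2 / 4 + (s k / q k) ^ 2) := by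
      refine Finset.sum_le_sum fun k hk => ?_
      have : (y k / q k) * s k = y k * (s k / q k) := by ring
      rw [this]
      nlinarith [sq_nonneg (y k / 2 - s k / q k)]
    rw [Finset.sum_add_distrib, ht, ← Finset.sum_div] at h3
    linarith
  · refine le_trans (le_of_eq ?_) hb
    refine Finset.sum_congr rfl fun k hk => ?_
    have hqk := (hq0 k hk).ne'
    rw [div_pow, ← hqq k hk]
    field_simp

end Vale.Agent.P262F
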