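import Vale.Agent.P262F.Fresh
import Vale.Agent.P262F.Steer

/-!
TASK G. The refresh of one block `G` with boundary values `pa`, `pc`.
-/

open Finset

namespace Vale.Agent.P262F

namespace RefreshAux

/-- Schur test for a nonnegative symmetric kernel. -/
theorem kernel_bound {V : Type} (G : Finset V) (x : V → ℝ) (K : V → V → ℝ)
    (hK : ∀ e e', 0 ≤ K e e') (hsym : ∀ e e', K e e' = K e' e) (M : ℝ)
    (hM : ∀ e ∈ G, ∑ e' ∈ G, K e e' ≤ M) :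
    ∑ e ∈ G, ∑ e' ∈ G, x e * x e' * K e e' ≤ M * ∑ e ∈ G, x e ^ 2 := by
  have h1 : ∑ e ∈ G, ∑ e' ∈ G, x e * x e' * K e e' ≤
      ∑ e ∈ G, ∑ e' ∈ G, (x e ^ 2 / 2 * K e e' + x e' ^ 2 / 2 * K e' e) := by
    refine sum_le_sum fun e _ => sum_le_sum fun e' _ => ?_
    rw [hsym e' e, ← add_mul]
    exact mul_le_mul_of_nonneg_right (by nlinarith [sq_nonneg (x e - x e')]) (hK e e')
  have h2 : ∑ e ∈ G, ∑ e' ∈ G, (x e ^ 2 / 2 * K e e' + x e' ^ 2 / 2 * K e' e) =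
      ∑ e ∈ G, x e ^ 2 * ∑ e' ∈ G, K e e' := by
    simp only [sum_add_distrib]
    rw [sum_comm (f := fun e e' => x e' ^ 2 / 2 * K e' e), ← sum_add_distrib]
    refine sum_congr rfl fun e _ => ?_
    rw [← sum_add_distrib, mul_sum]
    refine sum_congr rfl fun e' _ => ?_
    ring
  rw [h2] at h1
  refine h1.trans ?_
  rw [mul_sum]
  refine sum_le_sum fun e he => ?_
  rw [mul_comm M]
  exact mul_le_mul_of_nonneg_left (hM e he) (sq_nonneg _)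

/-- Expansion of the weighted Hilbert–Schmidt norm. -/
theorem hs_expand {V κ : Type} [Fintype κ] (G : Finset V) (x : V → ℝ) (v : V → κ → ℝ)
    (om : κ → ℝ) :
    ∑ i, ∑ k, om i * om k * (∑ e ∈ G, x e * (v e i * v e k)) ^ 2 =
      ∑ e ∈ G, ∑ e' ∈ G, x e * x e' * (∑ k, om k * v e k * v e' k) ^ 2 := by
  have hL : ∀ i k, om i * om k * (∑ e ∈ G, x e * (v e i * v e k)) ^ 2 =
      ∑ e ∈ G, ∑ e' ∈ G, om i * om k * (x e * (v e i * v e k)) * (x e' * (v e' i * v e' k)) := by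
    intro i k
    rw [sq, sum_mul_sum, mul_sum]
    refine sum_congr rfl fun e _ => ?_
    rw [mul_sum]
    refine sum_congr rfl fun e' _ => ?_
    ring
  have hR : ∀ e e', x e * x e' * (∑ k, om k * v e k * v e' k) ^ 2 =
      ∑ i, ∑ k, om i * om k * (x e * (v e i * v e k)) * (x e' * (v e' i * v e' k)) := by
    intro e e'
    rw [sq, sum_mul_sum, mul_sum]
    refine sum_congr rfl fun i _ => ?_
    rw [mul_sum]
    refine sum_congr rfl fun k _ => ?_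
    ring
  simp only [hL, hR]
  rw [sum_congr rfl fun i _ => sum_comm, sum_comm]
  refine sum_congr rfl fun e _ => ?_
  rw [sum_congr rfl fun i _ => sum_comm, sum_comm]

/-- Sum of squared weighted inner products. -/
theorem inner_expand {V κ : Type} [Fintype κ] (G : Finset V) (a : κ → ℝ) (v : V → κ → ℝ)
    (om : κ → ℝ) :
    ∑ e ∈ G, (∑ k, om k * a k * v e k) ^ 2 =
      ∑ i, ∑ k, om i * om k * (a i * a k) * ∑ e ∈ G, v e i * v e k := by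
  have hL : ∀ e, (∑ k, om k * a k * v e k) ^ 2 =
      ∑ i, ∑ k, om i * om k * (a i * a k) * (v e i * v e k) := by
    intro e
    rw [sq, sum_mul_sum]
    refine sum_congr rfl fun i _ => sum_congr rfl fun k _ => ?_
    ring
  simp only [hL, mul_sum]
  rw [sum_comm]
  refine sum_congr rfl fun i _ => ?_
  rw [sum_comm]

/-- `∑_{e'} ⟨v_e, v_e'⟩² ≤ 1 + ...` in terms of the deviation `X`. -/
theorem inner_bound {κ : Type} [Fintype κ] [DecidableEq κ] (a om q8 : κ → ℝ)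
    (X Q : κ → κ → ℝ) (hom : ∀ k, 0 < om k) (hq : ∀ k, om k ^ 2 * q8 k = 1)
    (hQ : ∀ i k, Q i k = X i k + if i = k then q8 i else 0)
    (ha : ∑ k, a k ^ 2 ≤ 1) (t A B : ℝ) (ht : 0 < t) (hA : (∑ k, om k * a k ^ 2) ^ 2 ≤ A)
    (hB : ∑ i, ∑ k, om i * om k * X i k ^ 2 ≤ B) :
    ∑ i, ∑ k, om i * om k * (a i * a k) * Q i k ≤ 1 + (t * A + B / t) / 2 := by
  have h1 : ∑ i, ∑ k, om i * om k * (a i * a k) * Q i k =
      ∑ i, ∑ k, om i * om k * (a i * a k) * X i k +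
        ∑ i, ∑ k, om i * om k * (a i * a k) * (if i = k then q8 i else 0) := by
    rw [← sum_add_distrib]
    refine sum_congr rfl fun i _ => ?_
    rw [← sum_add_distrib]
    refine sum_congr rfl fun k _ => ?_
    rw [hQ]
    ring
  have h2 : ∑ i, ∑ k, om i * om k * (a i * a k) * (if i = k then q8 i else 0) =
      ∑ i, a i ^ 2 := by
    refine sum_congr rfl fun i _ => ?_
    rw [sum_eq_single i]
    · rw [if_pos rfl]
      calc om i * om i * (a i * a i) * q8 i = (om i ^ 2 * q8 i) * a i ^ 2 := by ring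
        _ = a i ^ 2 := by rw [hq, one_mul]
    · intro k _ hk
      rw [if_neg (Ne.symm hk), mul_zero]
    · intro h
      exact absurd (mem_univ i) h
  have h3 : ∑ i, ∑ k, om i * om k * (a i * a k) * X i k ≤
      ∑ i, ∑ k, (t / 2 * (om i * om k * (a i * a k) ^ 2) + 1 / (2 * t) *
        (om i * om k * X i k ^ 2)) := by
    refine sum_le_sum fun i _ => sum_le_sum fun k _ => ?_
    have ho : 0 ≤ om i * om k := mul_nonneg (hom i).le (hom k).le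
    have hamgm : (a i * a k) * X i k ≤ t / 2 * (a i * a k) ^ 2 + 1 / (2 * t) * X i k ^ 2 := by
      have : 0 ≤ (t * (a i * a k) - X i k) ^ 2 / (2 * t) := by positivity
      have hexp : (t * (a i * a k) - X i k) ^ 2 / (2 * t) =
          t / 2 * (a i * a k) ^ 2 + 1 / (2 * t) * X i k ^ 2 - (a i * a k) * X i k := by
        field_simp
        ring
      linarith
    calc om i * om k * (a i * a k) * X i k = om i * om k * ((a i * a k) * X i k) := by ring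
      _ ≤ om i * om k * (t / 2 * (a i * a k) ^ 2 + 1 / (2 * t) * X i k ^ 2) :=
          mul_le_mul_of_nonneg_left hamgm ho
      _ = _ := by ring
  have h4 : ∑ i, ∑ k, (t / 2 * (om i * om k * (a i * a k) ^ 2) + 1 / (2 * t) *
        (om i * om k * X i k ^ 2)) =
      t / 2 * (∑ k, om k * a k ^ 2) ^ 2 +
        1 / (2 * t) * ∑ i, ∑ k, om i * om k * X i k ^ 2 := by
    simp only [sum_add_distrib, ← mul_sum]
    congr 2
    rw [sq, sum_mul_sum]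
    refine sum_congr rfl fun i _ => sum_congr rfl fun k _ => ?_
    ring
  have h5 : t / 2 * (∑ k, om k * a k ^ 2) ^ 2 ≤ t / 2 * A :=
    mul_le_mul_of_nonneg_left hA (by positivity)
  have h6 : 1 / (2 * t) * ∑ i, ∑ k, om i * om k * X i k ^ 2 ≤ 1 / (2 * t) * B :=
    mul_le_mul_of_nonneg_left hB (by positivity)
  have h7 : (t * A + B / t) / 2 = t / 2 * A + 1 / (2 * t) * B := by
    field_simp
  rw [h1, h2, h7]
  linarith

end RefreshAux

namespace Fam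

variable {V κ : Type} [Fintype V] [DecidableEq V] [Fintype κ] [DecidableEq κ] (S : Fam V κ)

theorem rf_x_ge (b : ℕ) : 1000 ≤ S.x b := by
  refine le_trans ?_ (S.x_ge b)
  unfold x0
  calc (1000 : ℝ) ≤ 2 ^ (10 : ℕ) := by norm_num
    _ ≤ 2 ^ (1000 : ℕ) := pow_le_pow_right₀ (by norm_num) (by norm_num)

theorem rf_om_pos (b : ℕ) (k : κ) : 0 < S.om b k :=
  inv_pos.2 (pow_pos (S.q_pos b k) 4)

theorem rf_om_sq_q8 (b : ℕ) (k : κ) : S.om b k ^ 2 * S.q b k ^ 8 = 1 := by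
  have h := (S.q_pos b k).ne'
  unfold om
  field_simp

/-- The energy of the steering target. -/
theorem rf_sigma_bound (b : ℕ) (pa pc hv : κ → ℝ)
    (hpa : ∑ k ∈ S.F b, kap (S.q b k) * pa k ^ 2 ≤ S.x b ^ 15)
    (hpc2 : ∑ k ∈ S.F b, kap (S.q b k) * pc k ^ 2 ≤ S.x b ^ 15)
    (hhv : ∑ k, hv k ^ 2 ≤ 4 * S.x b ^ 2) :
    (∑ k ∈ S.F b, ((pa k + pc k - hv k) / 2) ^ 2 / S.q b k ^ 8) * S.x b ^ 823 ≤ 1 := by
  set x := S.x b with hx
  have hx1 : 1000 ≤ x := S.rf_x_ge b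
  have hx0 : 0 < x := by linarith
  have hk : ∀ k ∈ S.F b, ((pa k + pc k - hv k) / 2) ^ 2 / S.q b k ^ 8 ≤
      3 / 4 * (kap (S.q b k) * pa k ^ 2 + kap (S.q b k) * pc k ^ 2) * (x ^ 840)⁻¹ +
        3 / 4 * (hv k ^ 2 * (x ^ 960)⁻¹) := by
    intro k hkF
    have hq : x ^ 120 ≤ S.q b k := (mem_filter.1 hkF).2
    have hq0 : 0 < S.q b k := S.q_pos b k
    have hq1 : 1 ≤ S.q b k := le_trans (one_le_pow₀ (by linarith)) hq
    have h7 : x ^ 840 ≤ S.q b k ^ 7 := by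
      calc x ^ 840 = (x ^ 120) ^ 7 := by rw [← pow_mul]
        _ ≤ S.q b k ^ 7 := pow_le_pow_left₀ (by positivity) hq 7
    have h8 : x ^ 960 ≤ S.q b k ^ 8 := by
      calc x ^ 960 = (x ^ 120) ^ 8 := by rw [← pow_mul]
        _ ≤ S.q b k ^ 8 := pow_le_pow_left₀ (by positivity) hq 8
    have i1 : (S.q b k ^ 8)⁻¹ ≤ kap (S.q b k) * (x ^ 840)⁻¹ := by
      calc (S.q b k ^ 8)⁻¹ = (S.q b k)⁻¹ * (S.q b k ^ 7)⁻¹ := by
            rw [← mul_inv]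
            ring
        _ ≤ kap (S.q b k) * (x ^ 840)⁻¹ :=
            mul_le_mul (inv_le_kap hq1) (inv_anti₀ (by positivity) h7) (by positivity)
              (kap_pos hq0).le
    have i2 : (S.q b k ^ 8)⁻¹ ≤ (x ^ 960)⁻¹ := inv_anti₀ (by positivity) h8
    have hs : ((pa k + pc k - hv k) / 2) ^ 2 ≤ 3 / 4 * (pa k ^ 2 + pc k ^ 2) + 3 / 4 * hv k ^ 2 := by
      nlinarith [sq_nonneg (pa k - pc k), sq_nonneg (pa k + hv k), sq_nonneg (pc k + hv k)]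
    calc ((pa k + pc k - hv k) / 2) ^ 2 / S.q b k ^ 8
        = ((pa k + pc k - hv k) / 2) ^ 2 * (S.q b k ^ 8)⁻¹ := div_eq_mul_inv _ _
      _ ≤ (3 / 4 * (pa k ^ 2 + pc k ^ 2) + 3 / 4 * hv k ^ 2) * (S.q b k ^ 8)⁻¹ :=
          mul_le_mul_of_nonneg_right hs (by positivity)
      _ = 3 / 4 * (pa k ^ 2 + pc k ^ 2) * (S.q b k ^ 8)⁻¹ +
          3 / 4 * hv k ^ 2 * (S.q b k ^ 8)⁻¹ := by ring
      _ ≤ 3 / 4 * (pa k ^ 2 + pc k ^ 2) * (kap (S.q b k) * (x ^ 840)⁻¹) +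
          3 / 4 * hv k ^ 2 * (x ^ 960)⁻¹ :=
          add_le_add (mul_le_mul_of_nonneg_left i1 (by positivity))
            (mul_le_mul_of_nonneg_left i2 (by positivity))
      _ = _ := by ring
  have hsum := sum_le_sum hk
  rw [sum_add_distrib, ← sum_mul, ← mul_sum, sum_add_distrib, ← mul_sum, ← sum_mul] at hsum
  have hhv' : ∑ k ∈ S.F b, hv k ^ 2 ≤ 4 * x ^ 2 :=
    le_trans (sum_le_univ_sum_of_nonneg fun k => sq_nonneg _) hhv
  set W := (x ^ 960)⁻¹ with hW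
  have hW0 : 0 < W := by positivity
  have hWx : x ^ 960 * W = 1 := mul_inv_cancel₀ (by positivity)
  have e840 : (x ^ 840)⁻¹ = x ^ 120 * W := by
    rw [hW, show (960 : ℕ) = 120 + 840 by norm_num, pow_add, mul_inv, ← mul_assoc,
      mul_inv_cancel₀ (by positivity), one_mul]
  rw [e840] at hsum
  have h2 : ∑ k ∈ S.F b, ((pa k + pc k - hv k) / 2) ^ 2 / S.q b k ^ 8 ≤
      (3 / 2 * x ^ 135 + 3 * x ^ 2) * W := by
    refine hsum.trans ?_
    have j1 : 3 / 4 * (∑ k ∈ S.F b, kap (S.q b k) * pa k ^ 2 +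
        ∑ k ∈ S.F b, kap (S.q b k) * pc k ^ 2) * (x ^ 120 * W) ≤
        3 / 4 * (x ^ 15 + x ^ 15) * (x ^ 120 * W) :=
      mul_le_mul_of_nonneg_right (by linarith) (by positivity)
    have j2 : 3 / 4 * ((∑ k ∈ S.F b, hv k ^ 2) * W) ≤ 3 / 4 * ((4 * x ^ 2) * W) :=
      mul_le_mul_of_nonneg_left (mul_le_mul_of_nonneg_right hhv' hW0.le) (by norm_num)
    refine (add_le_add j1 j2).trans (le_of_eq ?_)
    ring
  have h3 : 3 / 2 * x ^ 135 + 3 * x ^ 2 ≤ x ^ 137 := by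
    have e : x ^ 137 = x ^ 135 * x ^ 2 := by rw [← pow_add]
    have : x ^ 2 ≤ x ^ 135 := pow_le_pow_right₀ (by linarith) (by norm_num)
    have h5 : 5 ≤ x ^ 2 := by nlinarith
    have h135 : 0 < x ^ 135 := by positivity
    rw [e]
    nlinarith
  calc (∑ k ∈ S.F b, ((pa k + pc k - hv k) / 2) ^ 2 / S.q b k ^ 8) * x ^ 823
      ≤ ((3 / 2 * x ^ 135 + 3 * x ^ 2) * W) * x ^ 823 :=
        mul_le_mul_of_nonneg_right h2 (by positivity)
    _ ≤ (x ^ 137 * W) * x ^ 823 :=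
        mul_le_mul_of_nonneg_right (mul_le_mul_of_nonneg_right h3 hW0.le) (by positivity)
    _ = x ^ 960 * W := by
        rw [show (960 : ℕ) = 137 + 823 by norm_num, pow_add]
        ring
    _ = 1 := hWx

omit [DecidableEq V] in
/-- The heavy part of the block is small. -/
theorem rf_heavy_sum_sq (G : Finset V) {m : ℝ} (h : (G.card : ℝ) ≤ m) :
    ∑ k, (∑ e ∈ G, S.v e k) ^ 2 ≤ m ^ 2 := by
  have h1 : ∀ k, (∑ e ∈ G, S.v e k) ^ 2 ≤ (G.card : ℝ) * ∑ e ∈ G, S.v e k ^ 2 :=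
    fun k => sq_sum_le_card_mul_sum_sq
  calc ∑ k, (∑ e ∈ G, S.v e k) ^ 2 ≤ ∑ k, (G.card : ℝ) * ∑ e ∈ G, S.v e k ^ 2 :=
        sum_le_sum fun k _ => h1 k
    _ = (G.card : ℝ) * ∑ e ∈ G, ∑ k, S.v e k ^ 2 := by rw [← mul_sum, sum_comm]
    _ ≤ (G.card : ℝ) * ∑ e ∈ G, 1 :=
        mul_le_mul_of_nonneg_left (sum_le_sum fun e _ => S.hv e) (by positivity)
    _ = (G.card : ℝ) ^ 2 := by rw [sum_const, nsmul_eq_mul, mul_one, sq]
    _ ≤ m ^ 2 := pow_le_pow_left₀ (by positivity) h 2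

/-- The steering condition. -/
theorem rf_steer_cond (b : ℕ) (G : Finset V) (hX : S.NX b (S.Xd b G) ≤ S.x b ^ 800) :
    ∑ i ∈ S.F b, ∑ k ∈ S.F b, (∑ e ∈ G \ S.H b, S.v e i * S.v e k -
      if i = k then S.q b i ^ 8 else 0) ^ 2 / (S.q b i ^ 8 * S.q b k ^ 8) ≤ 1 / 4 := by
  set x := S.x b with hx
  have hx1 : 1000 ≤ x := S.rf_x_ge b
  have hx0 : 0 < x := by linarith
  have hp : ∀ n : ℕ, 0 < x ^ n := fun n => pow_pos hx0 n
  have hom : ∀ k ∈ S.F b, (S.q b k ^ 8)⁻¹ ≤ S.om b k * (x ^ 480)⁻¹ := by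
    intro k hkF
    have hq : x ^ 120 ≤ S.q b k := (mem_filter.1 hkF).2
    have hq0 : 0 < S.q b k := S.q_pos b k
    have h4 : x ^ 480 ≤ S.q b k ^ 4 := by
      calc x ^ 480 = (x ^ 120) ^ 4 := by rw [← pow_mul]
        _ ≤ S.q b k ^ 4 := pow_le_pow_left₀ (hp _).le hq 4
    calc (S.q b k ^ 8)⁻¹ = (S.q b k ^ 4)⁻¹ * (S.q b k ^ 4)⁻¹ := by
          rw [← mul_inv]
          ring
      _ ≤ (S.q b k ^ 4)⁻¹ * (x ^ 480)⁻¹ :=
          mul_le_mul_of_nonneg_left (inv_anti₀ (hp _) h4) (inv_nonneg.2 (pow_nonneg hq0.le 4))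
  have h1 : ∑ i ∈ S.F b, ∑ k ∈ S.F b, (∑ e ∈ G \ S.H b, S.v e i * S.v e k -
      if i = k then S.q b i ^ 8 else 0) ^ 2 / (S.q b i ^ 8 * S.q b k ^ 8) ≤
      ∑ i ∈ S.F b, ∑ k ∈ S.F b, S.om b i * S.om b k * S.Xd b G i k ^ 2 *
        ((x ^ 480)⁻¹ * (x ^ 480)⁻¹) := by
    refine sum_le_sum fun i hi => sum_le_sum fun k hk => ?_
    rw [div_eq_mul_inv, mul_inv]
    have hprod : (S.q b i ^ 8)⁻¹ * (S.q b k ^ 8)⁻¹ ≤
        (S.om b i * (x ^ 480)⁻¹) * (S.om b k * (x ^ 480)⁻¹) :=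
      mul_le_mul (hom i hi) (hom k hk) (inv_nonneg.2 (pow_nonneg (S.q_pos b k).le 8))
        (mul_nonneg (S.rf_om_pos b i).le (inv_pos.2 (hp _)).le)
    calc _ ≤ (S.Xd b G i k) ^ 2 * ((S.om b i * (x ^ 480)⁻¹) * (S.om b k * (x ^ 480)⁻¹)) :=
          mul_le_mul_of_nonneg_left hprod (sq_nonneg _)
      _ = _ := by ring
  refine h1.trans ?_
  have h2 : ∑ i ∈ S.F b, ∑ k ∈ S.F b, S.om b i * S.om b k * S.Xd b G i k ^ 2 *
        ((x ^ 480)⁻¹ * (x ^ 480)⁻¹) ≤ S.NX b (S.Xd b G) * ((x ^ 480)⁻¹ * (x ^ 480)⁻¹) := by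
    simp only [← sum_mul]
    refine mul_le_mul_of_nonneg_right ?_ (mul_pos (inv_pos.2 (hp _)) (inv_pos.2 (hp _))).le
    have hnn : ∀ i k, 0 ≤ S.om b i * S.om b k * S.Xd b G i k ^ 2 := fun i k =>
      mul_nonneg (mul_nonneg (S.rf_om_pos b i).le (S.rf_om_pos b k).le) (sq_nonneg _)
    refine le_trans (sum_le_sum fun i _ => sum_le_univ_sum_of_nonneg fun k => hnn i k) ?_
    exact sum_le_univ_sum_of_nonneg fun i => sum_nonneg fun k _ => hnn i k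
  refine h2.trans ?_
  calc S.NX b (S.Xd b G) * ((x ^ 480)⁻¹ * (x ^ 480)⁻¹)
      ≤ x ^ 800 * ((x ^ 480)⁻¹ * (x ^ 480)⁻¹) :=
        mul_le_mul_of_nonneg_right hX (mul_pos (inv_pos.2 (hp _)) (inv_pos.2 (hp _))).le
    _ = (x ^ 160)⁻¹ := by
        rw [← mul_inv, ← pow_add, show (480 + 480 : ℕ) = 160 + 800 by norm_num, pow_add, mul_inv]
        field_simp
    _ ≤ 1 / 4 := by
        rw [one_div]
        refine inv_anti₀ (by norm_num) ?_
        calc (4 : ℝ) ≤ x := by linarith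
          _ = x ^ 1 := (pow_one x).symm
          _ ≤ x ^ 160 := pow_le_pow_right₀ (by linarith) (by norm_num)

/-- Norm of the second order error of the steering. -/
theorem rf_NX_T_le (b : ℕ) (G : Finset V) (hX : S.NX b (S.Xd b G) ≤ S.x b ^ 800)
    (xs : V → ℝ) (hxs : (∑ e ∈ G \ S.H b, xs e ^ 2) * S.x b ^ 823 ≤ 2) :
    S.NX b (fun i k => ∑ e ∈ G \ S.H b, xs e * (S.v e i * S.v e k)) ≤ 1 := by
  set x := S.x b with hx
  have hx1 : 1000 ≤ x := S.rf_x_ge b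
  have hx0 : 0 < x := by linarith
  have hp : ∀ n : ℕ, 0 < x ^ n := fun n => pow_pos hx0 n
  unfold NX
  rw [RefreshAux.hs_expand]
  have hM : ∀ e ∈ G \ S.H b, ∑ e' ∈ G \ S.H b,
      (∑ k, S.om b k * S.v e k * S.v e' k) ^ 2 ≤ 4 * x ^ 480 := by
    intro e he
    rw [RefreshAux.inner_expand]
    have hle := RefreshAux.inner_bound (S.v e) (S.om b) (fun k => S.q b k ^ 8) (S.Xd b G)
      (S.Qs b G) (S.rf_om_pos b) (S.rf_om_sq_q8 b) (fun i k => by unfold Xd; ring) (S.hv e)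
      (x ^ 320) (4 * x ^ 160) (x ^ 800) (hp _) (by
        have h1 := S.light_om (mem_sdiff.1 he).2
        calc (∑ k, S.om b k * S.v e k ^ 2) ^ 2 ≤ (2 * x ^ 80) ^ 2 :=
              pow_le_pow_left₀ (sum_nonneg fun k _ => mul_nonneg (S.rf_om_pos b k).le
                (sq_nonneg _)) h1 2
          _ = 4 * x ^ 160 := by
              rw [mul_pow, ← pow_mul]
              norm_num) hX
    refine hle.trans ?_
    have e1 : x ^ 320 * (4 * x ^ 160) = 4 * x ^ 480 := by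
      rw [show (480 : ℕ) = 320 + 160 by norm_num, pow_add]
      ring
    have e2 : x ^ 800 / x ^ 320 = x ^ 480 := by
      rw [show (800 : ℕ) = 480 + 320 by norm_num, pow_add]
      field_simp
    rw [e1, e2]
    have : 1 ≤ x ^ 480 := one_le_pow₀ (by linarith)
    linarith
  have hb := RefreshAux.kernel_bound (G \ S.H b) xs
    (fun e e' => (∑ k, S.om b k * S.v e k * S.v e' k) ^ 2) (fun _ _ => sq_nonneg _)
    (fun e e' => by
      congr 1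
      refine sum_congr rfl fun k _ => ?_
      ring) (4 * x ^ 480) hM
  refine hb.trans ?_
  have h2 : 8 ≤ x ^ 343 := by
    calc (8 : ℝ) ≤ x := by linarith
      _ = x ^ 1 := (pow_one x).symm
      _ ≤ x ^ 343 := pow_le_pow_right₀ (by linarith) (by norm_num)
  have h3 : 0 ≤ ∑ e ∈ G \ S.H b, xs e ^ 2 := sum_nonneg fun _ _ => sq_nonneg _
  have h4 : x ^ 823 = x ^ 480 * x ^ 343 := by rw [← pow_add]
  rw [h4] at hxs
  have h480 : 0 < x ^ 480 := hp _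
  nlinarith [mul_nonneg h3 h480.le]

/-- The steering changes the dead sums only slightly. -/
theorem rf_zs_le (b : ℕ) (G : Finset V) (Y : κ → ℝ) :
    ∑ k ∈ univ \ S.F b, S.om b k *
        (∑ e ∈ G \ S.H b, (-∑ i ∈ S.F b, S.v e i * Y i) * S.v e k) ^ 2 ≤
      (∑ i ∈ S.F b, S.q b i ^ 4 * Y i ^ 2) * S.NX b (S.Xd b G) := by
  have h1 : ∀ k ∈ univ \ S.F b,
      (∑ e ∈ G \ S.H b, (-∑ i ∈ S.F b, S.v e i * Y i) * S.v e k) ^ 2 ≤
        (∑ i ∈ S.F b, S.q b i ^ 4 * Y i ^ 2) * ∑ i ∈ S.F b, S.om b i * S.Xd b G i k ^ 2 := by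
    intro k hk
    have hkF : k ∉ S.F b := (mem_sdiff.1 hk).2
    have e1 : ∑ e ∈ G \ S.H b, (-∑ i ∈ S.F b, S.v e i * Y i) * S.v e k =
        -∑ i ∈ S.F b, (S.q b i ^ 2 * Y i) * ((S.q b i ^ 2)⁻¹ * S.Xd b G i k) := by
      have e2 : ∀ e, (-∑ i ∈ S.F b, S.v e i * Y i) * S.v e k =
          -∑ i ∈ S.F b, Y i * (S.v e i * S.v e k) := by
        intro e
        rw [neg_mul, sum_mul]
        congr 1
        refine sum_congr rfl fun i _ => ?_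
        ring
      simp only [e2]
      rw [sum_neg_distrib, sum_comm]
      congr 1
      refine sum_congr rfl fun i hi => ?_
      have hik : i ≠ k := fun h => hkF (h ▸ hi)
      have hX : S.Xd b G i k = ∑ e ∈ G \ S.H b, S.v e i * S.v e k := by
        unfold Xd Qs
        rw [if_neg hik, sub_zero]
      rw [hX, ← mul_sum]
      have hq := (S.q_pos b i).ne'
      field_simp
    rw [e1, neg_sq]
    refine (sum_mul_sq_le_sq_mul_sq _ _ _).trans (le_of_eq ?_)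
    congr 1
    · refine sum_congr rfl fun i _ => ?_
      ring
    · refine sum_congr rfl fun i _ => ?_
      unfold om
      rw [mul_pow, inv_pow, ← pow_mul]
  have h2 : ∑ k ∈ univ \ S.F b, S.om b k *
        (∑ e ∈ G \ S.H b, (-∑ i ∈ S.F b, S.v e i * Y i) * S.v e k) ^ 2 ≤
      ∑ k ∈ univ \ S.F b, S.om b k * ((∑ i ∈ S.F b, S.q b i ^ 4 * Y i ^ 2) *
        ∑ i ∈ S.F b, S.om b i * S.Xd b G i k ^ 2) :=
    sum_le_sum fun k hk => mul_le_mul_of_nonneg_left (h1 k hk) (S.rf_om_pos b k).le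
  refine h2.trans ?_
  have h3 : ∑ k ∈ univ \ S.F b, S.om b k * ((∑ i ∈ S.F b, S.q b i ^ 4 * Y i ^ 2) *
        ∑ i ∈ S.F b, S.om b i * S.Xd b G i k ^ 2) =
      (∑ i ∈ S.F b, S.q b i ^ 4 * Y i ^ 2) *
        ∑ k ∈ univ \ S.F b, ∑ i ∈ S.F b, S.om b i * S.om b k * S.Xd b G i k ^ 2 := by
    rw [mul_sum]
    refine sum_congr rfl fun k _ => ?_
    rw [mul_sum, mul_sum, mul_sum]
    refine sum_congr rfl fun i _ => ?_
    ring
  rw [h3]
  refine mul_le_mul_of_nonneg_left ?_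
    (sum_nonneg fun i _ => mul_nonneg (pow_nonneg (S.q_pos b i).le 4) (sq_nonneg _))
  have hnn : ∀ i k, 0 ≤ S.om b i * S.om b k * S.Xd b G i k ^ 2 := fun i k =>
    mul_nonneg (mul_nonneg (S.rf_om_pos b i).le (S.rf_om_pos b k).le) (sq_nonneg _)
  unfold NX
  rw [sum_comm]
  refine le_trans (sum_le_sum fun i _ => sum_le_univ_sum_of_nonneg fun k => hnn i k) ?_
  exact sum_le_univ_sum_of_nonneg fun i => sum_nonneg fun k _ => hnn i k

theorem refresh_block (L b : ℕ) (G : Finset V) (pa pc : κ → ℝ)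
    (hpc : ∀ k, pc k = pa k + ∑ e ∈ G, S.v e k)
    (hX : S.NX b (S.Xd b G) ≤ S.x b ^ 800)
    (hpa : ∑ k ∈ S.F b, kap (S.q b k) * pa k ^ 2 ≤ S.x b ^ 15)
    (hpc2 : ∑ k ∈ S.F b, kap (S.q b k) * pc k ^ 2 ≤ S.x b ^ 15)
    (hcount : ((G ∩ S.H b).card : ℝ) ≤ 2 * S.x b)
    (hcl : ∀ l, b < l → l ≤ L → ((G ∩ S.H l).card : ℝ) ≤
      2 * S.x b * ((S.nu l : ℝ) / S.nu b) ^ 8) :
    ∃ A ⊆ G \ S.H b, ∃ (ξ : κ → ℝ) (ξ2 : κ → κ → ℝ) (ξ3 : ℕ → ℝ) (zs : κ → ℝ)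
      (T : κ → κ → ℝ) (tl : ℕ → ℝ), S.Fresh L b ξ ξ2 ξ3 ∧
      (∀ k ∈ S.F b, pa k + ∑ e ∈ A, S.v e k = ξ k) ∧
      (∀ k ∉ S.F b, ∑ e ∈ A, S.v e k = S.Ls b G k / 2 + zs k + ξ k) ∧
      (∀ i k, ∑ e ∈ A, S.v e i * S.v e k = S.Qs b G i k / 2 + T i k + ξ2 i k) ∧
      (∀ l, b < l → l ≤ L → ((A ∩ S.H l).card : ℝ) =
        (((G \ S.H b) ∩ S.H l).card : ℝ) / 2 + tl l + ξ3 l) ∧
      S.NX b T ≤ 1 ∧
      ∑ k ∈ univ \ S.F b, S.om b k * zs k ^ 2 ≤ 1 ∧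
      ∑ k ∈ univ \ S.F b, zs k ^ 2 ≤ 1 ∧
      (∀ l, b < l → l ≤ L → |tl l| ≤ ((S.nu l : ℝ) / S.nu b) ^ 4) := by
  have hx1 : 1000 ≤ S.x b := S.rf_x_ge b
  have hx0 : 0 < S.x b := by linarith
  have hp : ∀ n : ℕ, 0 < S.x b ^ n := fun n => pow_pos hx0 n
  have hge : ∀ n : ℕ, 0 < n → S.x b ≤ S.x b ^ n := fun n hn => by
    calc S.x b = S.x b ^ 1 := (pow_one _).symm
      _ ≤ S.x b ^ n := pow_le_pow_right₀ (by linarith) hn
  obtain ⟨hv, hhvdef⟩ : ∃ hv : κ → ℝ, ∀ k, hv k = ∑ e ∈ G ∩ S.H b, S.v e k :=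
    ⟨fun k => ∑ e ∈ G ∩ S.H b, S.v e k, fun _ => rfl⟩
  have hhv : ∑ k, hv k ^ 2 ≤ 4 * S.x b ^ 2 := by
    simp only [hhvdef]
    refine (S.rf_heavy_sum_sq (G ∩ S.H b) hcount).trans (le_of_eq ?_)
    ring
  have hLs : ∀ k, S.Ls b G k = pc k - pa k - hv k := by
    intro k
    have h := sum_inter_add_sum_sdiff G (S.H b) (fun e => S.v e k)
    rw [hpc, hhvdef]
    unfold Ls
    linarith
  have hσ := S.rf_sigma_bound b pa pc hv hpa hpc2 hhv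
  obtain ⟨Y, hY1, hY2, hY3⟩ := steer (G \ S.H b) (S.F b) S.v (fun k => S.q b k ^ 8)
    (fun k _ => pow_pos (S.q_pos b k) 8) (S.rf_steer_cond b G hX)
    (fun k => (pa k + pc k - hv k) / 2)
  obtain ⟨σ, hσdef⟩ : ∃ σ : ℝ, σ = ∑ k ∈ S.F b, ((pa k + pc k - hv k) / 2) ^ 2 / S.q b k ^ 8 :=
    ⟨_, rfl⟩
  simp only [← hσdef] at hσ hY2 hY3
  have hσ0 : 0 ≤ σ := by
    rw [hσdef]
    exact sum_nonneg fun k _ => div_nonneg (sq_nonneg _) (pow_nonneg (S.q_pos b k).le 8)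
  obtain ⟨xs, hxsdef⟩ : ∃ xs : V → ℝ, ∀ e, xs e = -∑ i ∈ S.F b, S.v e i * Y i :=
    ⟨fun e => -∑ i ∈ S.F b, S.v e i * Y i, fun _ => rfl⟩
  have hxs2 : (∑ e ∈ G \ S.H b, xs e ^ 2) * S.x b ^ 823 ≤ 2 := by
    have : ∑ e ∈ G \ S.H b, xs e ^ 2 ≤ 2 * σ := by
      simp only [hxsdef, neg_sq]
      exact hY2
    calc _ ≤ 2 * σ * S.x b ^ 823 := mul_le_mul_of_nonneg_right this (hp _).le
      _ ≤ 2 := by linarith
  have hY4 : (∑ i ∈ S.F b, S.q b i ^ 4 * Y i ^ 2) * S.x b ^ 480 ≤ 4 * σ := by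
    refine le_trans ?_ hY3
    rw [sum_mul]
    refine sum_le_sum fun k hk => ?_
    have hq : S.x b ^ 120 ≤ S.q b k := (mem_filter.1 hk).2
    have h4 : S.x b ^ 480 ≤ S.q b k ^ 4 := by
      calc S.x b ^ 480 = (S.x b ^ 120) ^ 4 := by rw [← pow_mul]
        _ ≤ S.q b k ^ 4 := pow_le_pow_left₀ (hp _).le hq 4
    have hnn : 0 ≤ S.q b k ^ 4 * Y k ^ 2 :=
      mul_nonneg (pow_nonneg (S.q_pos b k).le 4) (sq_nonneg _)
    calc S.q b k ^ 4 * Y k ^ 2 * S.x b ^ 480 ≤ S.q b k ^ 4 * Y k ^ 2 * S.q b k ^ 4 :=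
          mul_le_mul_of_nonneg_left h4 hnn
      _ = S.q b k ^ 8 * Y k ^ 2 := by ring
  have hYsum : ∑ k ∈ S.F b, Y k ^ 2 ≤ 1 / 4 := by
    have h1 : ∑ k ∈ S.F b, Y k ^ 2 ≤ ∑ i ∈ S.F b, S.q b i ^ 4 * Y i ^ 2 := by
      refine sum_le_sum fun k hk => ?_
      have hq : S.x b ^ 120 ≤ S.q b k := (mem_filter.1 hk).2
      have hq1 : 1 ≤ S.q b k ^ 4 := one_le_pow₀ (le_trans (one_le_pow₀ (by linarith)) hq)
      nlinarith [sq_nonneg (Y k)]
    have h2 : (∑ k ∈ S.F b, Y k ^ 2) * S.x b ^ 480 ≤ 4 * σ :=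
      le_trans (mul_le_mul_of_nonneg_right h1 (hp _).le) hY4
    have h3 : σ ≤ 1 := by
      have := hge 823 (by norm_num)
      nlinarith
    have h4 := hge 480 (by norm_num)
    have h5 : 0 ≤ ∑ k ∈ S.F b, Y k ^ 2 := sum_nonneg fun _ _ => sq_nonneg _
    nlinarith
  have hxs : ∀ e, |xs e| ≤ 1 / 2 := by
    intro e
    refine abs_le_of_sq_le_sq ?_ (by norm_num)
    rw [hxsdef, neg_sq]
    calc (∑ i ∈ S.F b, S.v e i * Y i) ^ 2
        ≤ (∑ i ∈ S.F b, S.v e i ^ 2) * ∑ i ∈ S.F b, Y i ^ 2 := sum_mul_sq_le_sq_mul_sq _ _ _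
      _ ≤ 1 * (1 / 4) :=
          mul_le_mul (le_trans (sum_le_univ_sum_of_nonneg fun _ => sq_nonneg _) (S.hv e)) hYsum
            (sum_nonneg fun _ _ => sq_nonneg _) (by norm_num)
      _ = (1 / 2) ^ 2 := by norm_num
  obtain ⟨A, hAG, ξ, ξ2, ξ3, hfr, h1, h2, h3⟩ := S.round_fresh L b (G \ S.H b) sdiff_disjoint
    (fun e => 1 / 2 + xs e) (fun e _ => by
      have := abs_le.1 (hxs e)
      constructor <;> linarith [this.1, this.2])
  have hzs : ∑ k ∈ univ \ S.F b, S.om b k * (∑ e ∈ G \ S.H b, xs e * S.v e k) ^ 2 ≤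
      (∑ i ∈ S.F b, S.q b i ^ 4 * Y i ^ 2) * S.NX b (S.Xd b G) := by
    simp only [hxsdef]
    exact S.rf_zs_le b G Y
  obtain ⟨Z, hZdef⟩ : ∃ Z : ℝ, Z = ∑ k ∈ univ \ S.F b, S.om b k *
    (∑ e ∈ G \ S.H b, xs e * S.v e k) ^ 2 := ⟨_, rfl⟩
  have hZ0 : 0 ≤ Z := by
    rw [hZdef]
    exact sum_nonneg fun k _ => mul_nonneg (S.rf_om_pos b k).le (sq_nonneg _)
  rw [← hZdef] at hzs
  have hZ : Z * S.x b ^ 503 ≤ 4 := by
    obtain ⟨y4, hy4⟩ : ∃ y4 : ℝ, y4 = ∑ i ∈ S.F b, S.q b i ^ 4 * Y i ^ 2 := ⟨_, rfl⟩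
    have hy40 : 0 ≤ y4 := by
      rw [hy4]
      exact sum_nonneg fun i _ => mul_nonneg (pow_nonneg (S.q_pos b i).le 4) (sq_nonneg _)
    rw [← hy4] at hzs hY4
    have a1 : Z ≤ y4 * S.x b ^ 800 := hzs.trans (mul_le_mul_of_nonneg_left hX hy40)
    have a2 : Z * S.x b ^ 503 * S.x b ^ 800 ≤ 4 * S.x b ^ 800 := by
      calc Z * S.x b ^ 503 * S.x b ^ 800 = Z * (S.x b ^ 480 * S.x b ^ 823) := by
            rw [mul_assoc, ← pow_add, ← pow_add]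
        _ ≤ (y4 * S.x b ^ 800) * (S.x b ^ 480 * S.x b ^ 823) :=
            mul_le_mul_of_nonneg_right a1 (mul_pos (hp _) (hp _)).le
        _ = (y4 * S.x b ^ 480) * (S.x b ^ 823 * S.x b ^ 800) := by ring
        _ ≤ (4 * σ) * (S.x b ^ 823 * S.x b ^ 800) :=
            mul_le_mul_of_nonneg_right hY4 (mul_pos (hp _) (hp _)).le
        _ = 4 * (σ * S.x b ^ 823) * S.x b ^ 800 := by ring
        _ ≤ 4 * 1 * S.x b ^ 800 :=
            mul_le_mul_of_nonneg_right (mul_le_mul_of_nonneg_left hσ (by norm_num)) (hp _).le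
        _ = 4 * S.x b ^ 800 := by ring
    exact le_of_mul_le_mul_right a2 (hp 800)
  have hZ1 : Z ≤ 1 := by
    have := hge 503 (by norm_num)
    nlinarith
  refine ⟨A, hAG, ξ, ξ2, ξ3, fun k => ∑ e ∈ G \ S.H b, xs e * S.v e k,
    fun i k => ∑ e ∈ G \ S.H b, xs e * (S.v e i * S.v e k),
    fun l => ∑ e ∈ (G \ S.H b) ∩ S.H l, xs e, hfr, ?_, ?_, ?_, ?_, ?_, ?_, ?_, ?_⟩
  · intro k hk
    rw [h1]
    have e1 : ∑ e ∈ G \ S.H b, (1 / 2 + xs e) * S.v e k =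
        S.Ls b G k / 2 + ∑ e ∈ G \ S.H b, xs e * S.v e k := by
      simp only [add_mul, sum_add_distrib, ← mul_sum]
      unfold Ls
      ring
    have e2 : ∑ e ∈ G \ S.H b, xs e * S.v e k = -((pa k + pc k - hv k) / 2) := by
      rw [← hY1 k hk, ← sum_neg_distrib]
      refine sum_congr rfl fun e _ => ?_
      rw [hxsdef]
      ring
    rw [e1, e2, hLs]
    ring
  · intro k _
    rw [h1]
    have e1 : ∑ e ∈ G \ S.H b, (1 / 2 + xs e) * S.v e k =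
        S.Ls b G k / 2 + ∑ e ∈ G \ S.H b, xs e * S.v e k := by
      simp only [add_mul, sum_add_distrib, ← mul_sum]
      unfold Ls
      ring
    rw [e1]
  · intro i k
    rw [h2]
    have e1 : ∑ e ∈ G \ S.H b, (1 / 2 + xs e) * (S.v e i * S.v e k) =
        S.Qs b G i k / 2 + ∑ e ∈ G \ S.H b, xs e * (S.v e i * S.v e k) := by
      simp only [add_mul, sum_add_distrib, ← mul_sum]
      unfold Qs
      ring
    rw [e1]
  · intro l hl hL
    rw [h3 l hl hL, sum_add_distrib, sum_const, nsmul_eq_mul]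
    ring
  · exact S.rf_NX_T_le b G hX xs hxs2
  · show ∑ k ∈ univ \ S.F b, S.om b k * (∑ e ∈ G \ S.H b, xs e * S.v e k) ^ 2 ≤ 1
    rw [← hZdef]
    exact hZ1
  · show ∑ k ∈ univ \ S.F b, (∑ e ∈ G \ S.H b, xs e * S.v e k) ^ 2 ≤ 1
    have a1 : ∑ k ∈ univ \ S.F b, (∑ e ∈ G \ S.H b, xs e * S.v e k) ^ 2 ≤ S.x b ^ 480 * Z := by
      rw [hZdef, mul_sum]
      refine sum_le_sum fun k hk => ?_
      have hkF : k ∉ S.F b := (mem_sdiff.1 hk).2
      have hq : S.q b k < S.x b ^ 120 := by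
        by_contra hcon
        exact hkF (mem_filter.2 ⟨mem_univ k, not_lt.1 hcon⟩)
      have h4 : S.q b k ^ 4 ≤ S.x b ^ 480 := by
        calc S.q b k ^ 4 ≤ (S.x b ^ 120) ^ 4 := pow_le_pow_left₀ (S.q_pos b k).le hq.le 4
          _ = S.x b ^ 480 := by rw [← pow_mul]
      have h5 : 1 ≤ S.x b ^ 480 * S.om b k := by
        unfold om
        rw [← div_eq_mul_inv, one_le_div (pow_pos (S.q_pos b k) 4)]
        exact h4
      calc (∑ e ∈ G \ S.H b, xs e * S.v e k) ^ 2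
          = 1 * (∑ e ∈ G \ S.H b, xs e * S.v e k) ^ 2 := (one_mul _).symm
        _ ≤ (S.x b ^ 480 * S.om b k) * (∑ e ∈ G \ S.H b, xs e * S.v e k) ^ 2 :=
            mul_le_mul_of_nonneg_right h5 (sq_nonneg _)
        _ = _ := by ring
    refine a1.trans ?_
    have a2 : S.x b ^ 480 * Z * S.x b ^ 23 ≤ 4 := by
      calc S.x b ^ 480 * Z * S.x b ^ 23 = Z * S.x b ^ 503 := by
            rw [mul_comm (S.x b ^ 480), mul_assoc, ← pow_add]
        _ ≤ 4 := hZ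
    have a3 := hge 23 (by norm_num)
    have a4 : 0 ≤ S.x b ^ 480 * Z := mul_nonneg (hp _).le hZ0
    nlinarith
  · intro l hl hL
    refine abs_le_of_sq_le_sq ?_ (pow_nonneg (div_nonneg (Nat.cast_nonneg _)
      (Nat.cast_nonneg _)) 4)
    have c1 : (∑ e ∈ (G \ S.H b) ∩ S.H l, xs e) ^ 2 ≤
        (((G \ S.H b) ∩ S.H l).card : ℝ) * ∑ e ∈ (G \ S.H b) ∩ S.H l, xs e ^ 2 :=
      sq_sum_le_card_mul_sum_sq
    have c2 : (((G \ S.H b) ∩ S.H l).card : ℝ) ≤ 2 * S.x b * ((S.nu l : ℝ) / S.nu b) ^ 8 := by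
      refine le_trans ?_ (hcl l hl hL)
      exact_mod_cast card_le_card (inter_subset_inter_right sdiff_subset)
    have c3 : ∑ e ∈ (G \ S.H b) ∩ S.H l, xs e ^ 2 ≤ ∑ e ∈ G \ S.H b, xs e ^ 2 :=
      sum_le_sum_of_subset_of_nonneg inter_subset_left fun _ _ _ => sq_nonneg _
    obtain ⟨X2, hX2⟩ : ∃ X2 : ℝ, X2 = ∑ e ∈ G \ S.H b, xs e ^ 2 := ⟨_, rfl⟩
    rw [← hX2] at c3 hxs2
    obtain ⟨ν, hν⟩ : ∃ ν : ℝ, ν = (S.nu l : ℝ) / S.nu b := ⟨_, rfl⟩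
    rw [← hν] at c2 ⊢
    have hν8 : 0 ≤ ν ^ 8 := by
      have : (0 : ℝ) ≤ ν := by
        rw [hν]
        exact div_nonneg (Nat.cast_nonneg _) (Nat.cast_nonneg _)
      exact pow_nonneg this 8
    have hX20 : 0 ≤ X2 := by
      rw [hX2]
      exact sum_nonneg fun _ _ => sq_nonneg _
    have c4 : (∑ e ∈ (G \ S.H b) ∩ S.H l, xs e) ^ 2 ≤ (2 * S.x b * ν ^ 8) * X2 :=
      c1.trans (mul_le_mul c2 c3 (sum_nonneg fun _ _ => sq_nonneg _)
        (mul_nonneg (by linarith) hν8))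
    refine c4.trans ?_
    have c5 : 2 * S.x b * X2 ≤ 1 := by
      have d1 : S.x b ^ 823 = S.x b * S.x b ^ 822 := by
        rw [← pow_succ']
      have d2 := hge 822 (by norm_num)
      have d3 : 0 ≤ X2 * S.x b := mul_nonneg hX20 hx0.le
      rw [d1] at hxs2
      nlinarith
    calc 2 * S.x b * ν ^ 8 * X2 = (2 * S.x b * X2) * ν ^ 8 := by ring
      _ ≤ 1 * ν ^ 8 := mul_le_mul_of_nonneg_right c5 hν8
      _ = (ν ^ 4) ^ 2 := by ring

end Fam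

end Vale.Agent.P262F
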