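import Vale.Agent.P262F.Refresh

/-!
TASK H. The refresh of the whole arrangement.
-/

set_option linter.unusedSectionVars false

open Finset

namespace Vale.Agent.P262F

namespace Fam

variable {V κ : Type} [Fintype V] [DecidableEq V] [Fintype κ] [DecidableEq κ] (S : Fam V κ)

namespace StateRaux

theorem P_step (s : St V κ) (z : ℕ) (k : κ) :
    S.P s (z + 1) k = S.P s z k + ∑ e ∈ Bl s z, S.v e k := by
  unfold P Bl
  have h1 : (univ.filter fun e => s.pos e < z + 1) =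
      (univ.filter fun e => s.pos e < z) ∪ (univ.filter fun e => s.pos e = z) := by
    ext e
    simp only [mem_filter, mem_univ, true_and, mem_union]
    omega
  rw [h1, sum_union, add_assoc]
  rw [disjoint_filter]
  intro e _ h1 h2
  omega

theorem P_zero (s : St V κ) (k : κ) : S.P s 0 k = s.P0 k := by
  simp [P]

theorem P_last {b : ℕ} {s : St V κ} (h : ∀ e, s.pos e < S.N b) (k : κ) :
    S.P s (S.N b) k = S.P s 0 k := by
  have h1 : (univ.filter fun e => s.pos e < S.N b) = univ := by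
    ext e
    simp [h e]
  rw [P_zero]
  unfold P
  rw [h1, S.hsum k, add_zero]

theorem mod_aux {N p z : ℕ} (hp : p < N) (hz : z < N) :
    (p + N - 1) % N = z ↔ p = (z + 1) % N := by
  have h1 : (p + N - 1) % N = if p = 0 then N - 1 else p - 1 := by
    split_ifs with h
    · subst h
      rw [zero_add]
      exact Nat.mod_eq_of_lt (by omega)
    · have : p + N - 1 = (p - 1) + N := by omega
      rw [this, Nat.add_mod_right]
      exact Nat.mod_eq_of_lt (by omega)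
  have h2 : (z + 1) % N = if z + 1 = N then 0 else z + 1 := by
    split_ifs with h
    · rw [h]
      exact Nat.mod_self N
    · exact Nat.mod_eq_of_lt (by omega)
  rw [h1, h2]
  split_ifs <;> omega

theorem mem_Bl {s : St V κ} {z : ℕ} {e : V} : e ∈ Bl s z ↔ s.pos e = z := by
  simp [Bl]

/-- The refreshed arrangement. -/
noncomputable def refr (b : ℕ) (s : St V κ) (A : ℕ → Finset V) : St V κ :=
  ⟨fun e => if e ∈ A (s.pos e) then (s.pos e + S.N b - 1) % S.N b else s.pos e,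
    fun k => s.P0 k + ∑ e ∈ A 0, S.v e k⟩

theorem Bl_refr {b : ℕ} {s : St V κ} {A : ℕ → Finset V} (hp : ∀ e, s.pos e < S.N b)
    (hA : ∀ z < S.N b, A z ⊆ Bl s z) {z : ℕ} (hz : z < S.N b) :
    Bl (refr S b s A) z = (Bl s z \ A z) ∪ A ((z + 1) % S.N b) := by
  have hN : 0 < S.N b := by omega
  have hz' : (z + 1) % S.N b < S.N b := Nat.mod_lt _ hN
  ext e
  have hmem : ∀ y < S.N b, e ∈ A y → s.pos e = y := by
    intro y hy he
    exact mem_Bl.1 (hA y hy he)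
  rw [mem_Bl, mem_union, mem_sdiff, mem_Bl]
  have hpos : (refr S b s A).pos e =
      if e ∈ A (s.pos e) then (s.pos e + S.N b - 1) % S.N b else s.pos e := rfl
  rw [hpos]
  by_cases he : e ∈ A (s.pos e)
  · rw [if_pos he, mod_aux (hp e) hz]
    constructor
    · intro h
      right
      rw [← h]
      exact he
    · rintro (⟨h1, h2⟩ | h)
      · rw [h1] at he
        exact absurd he h2
      · exact hmem _ hz' h
  · rw [if_neg he]
    constructor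
    · intro h
      left
      refine ⟨h, ?_⟩
      rw [← h]
      exact he
    · rintro (⟨h1, _⟩ | h)
      · exact h1
      · exfalso
        apply he
        rw [hmem _ hz' h]
        exact h

theorem disj_refr {b : ℕ} {s : St V κ} {A : ℕ → Finset V}
    (hA : ∀ z < S.N b, A z ⊆ Bl s z) {z : ℕ} (hz : z < S.N b) :
    Disjoint (Bl s z \ A z) (A ((z + 1) % S.N b)) := by
  have hN : 0 < S.N b := by omega
  have hz' : (z + 1) % S.N b < S.N b := Nat.mod_lt _ hN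
  rw [disjoint_left]
  intro e h1 h2
  rw [mem_sdiff] at h1
  have h3 : s.pos e = z := mem_Bl.1 h1.1
  have h4 : s.pos e = (z + 1) % S.N b := mem_Bl.1 (hA _ hz' h2)
  apply h1.2
  rw [← h3, h4]
  exact h2

theorem sum_refr {b : ℕ} {s : St V κ} {A : ℕ → Finset V} (hp : ∀ e, s.pos e < S.N b)
    (hA : ∀ z < S.N b, A z ⊆ Bl s z) {z : ℕ} (hz : z < S.N b) (f : V → ℝ) :
    ∑ e ∈ Bl (refr S b s A) z, f e =
      ∑ e ∈ Bl s z, f e - ∑ e ∈ A z, f e + ∑ e ∈ A ((z + 1) % S.N b), f e := by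
  rw [Bl_refr S hp hA hz, sum_union (disj_refr S hA hz)]
  have := sum_sdiff (f := f) (hA z hz)
  linarith

theorem P_refr {b : ℕ} {s : St V κ} {A : ℕ → Finset V} (hp : ∀ e, s.pos e < S.N b)
    (hA : ∀ z < S.N b, A z ⊆ Bl s z) (k : κ) :
    ∀ z < S.N b, S.P (refr S b s A) z k = S.P s z k + ∑ e ∈ A z, S.v e k := by
  intro z
  induction z with
  | zero =>
    intro _
    rw [P_zero, P_zero]
    rfl
  | succ z ih =>
    intro hz
    have hz0 : z < S.N b := by omega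
    rw [P_step, ih hz0, P_step, sum_refr S hp hA hz0]
    rw [Nat.mod_eq_of_lt hz]
    ring

/-- Light sums. -/
theorem light_refr {b : ℕ} {s : St V κ} {A : ℕ → Finset V} (hp : ∀ e, s.pos e < S.N b)
    (hA : ∀ z < S.N b, A z ⊆ Bl s z \ S.H b) {z : ℕ} (hz : z < S.N b) (f : V → ℝ) :
    ∑ e ∈ Bl (refr S b s A) z \ S.H b, f e =
      ∑ e ∈ Bl s z \ S.H b, f e - ∑ e ∈ A z, f e + ∑ e ∈ A ((z + 1) % S.N b), f e := by
  have hN : 0 < S.N b := by omega
  have hz' : (z + 1) % S.N b < S.N b := Nat.mod_lt _ hN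
  have hA' : ∀ z < S.N b, A z ⊆ Bl s z := fun z hz => (hA z hz).trans sdiff_subset
  have key : ∀ X : Finset V, ∑ e ∈ X \ S.H b, f e = ∑ e ∈ X, if e ∈ S.H b then 0 else f e := by
    intro X
    rw [← filter_notMem_eq_sdiff, sum_filter]
    apply sum_congr rfl
    intro e _
    by_cases h : e ∈ S.H b <;> simp [h]
  have keyA : ∀ y < S.N b, ∑ e ∈ A y, (if e ∈ S.H b then 0 else f e) = ∑ e ∈ A y, f e := by
    intro y hy
    apply sum_congr rfl
    intro e he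
    have := hA y hy he
    rw [mem_sdiff] at this
    rw [if_neg this.2]
  rw [key, sum_refr S hp hA' hz, key, keyA z hz, keyA _ hz']

theorem card_refr {b : ℕ} {s : St V κ} {A : ℕ → Finset V} (hp : ∀ e, s.pos e < S.N b)
    (hA : ∀ z < S.N b, A z ⊆ Bl s z) {z : ℕ} (hz : z < S.N b) (H : Finset V) :
    ((Bl (refr S b s A) z ∩ H).card : ℝ) =
      ((Bl s z ∩ H).card : ℝ) - ((A z ∩ H).card : ℝ) + ((A ((z + 1) % S.N b) ∩ H).card : ℝ) := by
  have key : ∀ X : Finset V, ((X ∩ H).card : ℝ) = ∑ e ∈ X, if e ∈ H then (1 : ℝ) else 0 := by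
    intro X
    rw [sum_ite_mem]
    simp
  rw [key, key, key, key, sum_refr S hp hA hz]

theorem six (a b c0 c1 d0 d1 : ℝ) : ((a + b) / 2 + (c1 - c0) + (d1 - d0)) ^ 2 ≤
    3 / 2 * a ^ 2 + 3 / 2 * b ^ 2 + 6 * c0 ^ 2 + 6 * c1 ^ 2 + 6 * d0 ^ 2 + 6 * d1 ^ 2 := by
  nlinarith [sq_nonneg (a - b), sq_nonneg (c0 + c1), sq_nonneg (d0 + d1),
    sq_nonneg ((a + b) / 2 - (c1 - c0)), sq_nonneg ((a + b) / 2 - (d1 - d0)),
    sq_nonneg ((c1 - c0) - (d1 - d0))]

theorem wsum6 {ι : Type} (I : Finset ι) (w a b c0 c1 d0 d1 : ι → ℝ) (hw : ∀ i ∈ I, 0 ≤ w i) :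
    ∑ i ∈ I, w i * ((a i + b i) / 2 + (c1 i - c0 i) + (d1 i - d0 i)) ^ 2 ≤
      3 / 2 * ∑ i ∈ I, w i * a i ^ 2 + 3 / 2 * ∑ i ∈ I, w i * b i ^ 2 +
      6 * ∑ i ∈ I, w i * c0 i ^ 2 + 6 * ∑ i ∈ I, w i * c1 i ^ 2 +
      6 * ∑ i ∈ I, w i * d0 i ^ 2 + 6 * ∑ i ∈ I, w i * d1 i ^ 2 := by
  simp only [mul_sum, ← sum_add_distrib]
  apply sum_le_sum
  intro i hi
  have := mul_le_mul_of_nonneg_left (six (a i) (b i) (c0 i) (c1 i) (d0 i) (d1 i)) (hw i hi)
  linarith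

theorem wsum3 {ι : Type} (I : Finset ι) (w a b c : ι → ℝ) (hw : ∀ i ∈ I, 0 ≤ w i) :
    ∑ i ∈ I, w i * (a i + b i + c i) ^ 2 ≤
      3 * ∑ i ∈ I, w i * a i ^ 2 + 3 * ∑ i ∈ I, w i * b i ^ 2 +
      3 * ∑ i ∈ I, w i * c i ^ 2 := by
  simp only [mul_sum, ← sum_add_distrib]
  apply sum_le_sum
  intro i hi
  have h0 : (a i + b i + c i) ^ 2 ≤ 3 * a i ^ 2 + 3 * b i ^ 2 + 3 * c i ^ 2 := by
    nlinarith [sq_nonneg (a i - b i), sq_nonneg (a i - c i), sq_nonneg (b i - c i)]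
  have := mul_le_mul_of_nonneg_left h0 (hw i hi)
  linarith

theorem om_pos (b : ℕ) (k : κ) : 0 < S.om b k := by
  unfold om
  have := S.q_pos b k
  positivity

theorem NX6 (b : ℕ) (X a c c0 c1 d0 d1 : κ → κ → ℝ)
    (hX : ∀ i k, X i k = (a i k + c i k) / 2 + (c1 i k - c0 i k) + (d1 i k - d0 i k)) :
    S.NX b X ≤ 3 / 2 * S.NX b a + 3 / 2 * S.NX b c + 6 * S.NX b c0 + 6 * S.NX b c1 +
      6 * S.NX b d0 + 6 * S.NX b d1 := by
  unfold NX
  simp only [mul_sum, ← sum_add_distrib]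
  apply sum_le_sum
  intro i _
  apply sum_le_sum
  intro k _
  rw [hX i k]
  have h1 : 0 ≤ S.om b i * S.om b k := (mul_pos (om_pos S b i) (om_pos S b k)).le
  have := mul_le_mul_of_nonneg_left (six (a i k) (c i k) (c0 i k) (c1 i k) (d0 i k) (d1 i k)) h1
  linarith

theorem x_big (b : ℕ) : (1000000 : ℝ) ≤ S.x b := by
  have h1 : (1000000 : ℝ) ≤ x0 := by
    unfold x0
    calc (1000000 : ℝ) ≤ 2 ^ 20 := by norm_num
      _ ≤ 2 ^ 1000 := pow_le_pow_right₀ (by norm_num) (by norm_num)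
  exact h1.trans (S.x_ge b)

theorem fresh_om {L b : ℕ} {ξ : κ → ℝ} {ξ2 : κ → κ → ℝ} {ξ3 : ℕ → ℝ}
    (h : S.Fresh L b ξ ξ2 ξ3) :
    ∑ k ∈ univ \ S.F b, S.om b k * ξ k ^ 2 ≤ S.x b + S.x b ^ 93 := by
  have hx := x_big S b
  have h1 : ∑ k ∈ univ \ S.F b, S.om b k * ξ k ^ 2 ≤
      ∑ k ∈ S.D b, S.om b k * ξ k ^ 2 + ∑ k ∈ (univ \ S.F b) \ S.D b, S.om b k * ξ k ^ 2 := by
    rw [← sum_inter_add_sum_sdiff (univ \ S.F b) (S.D b)]
    have : ∑ k ∈ (univ \ S.F b) ∩ S.D b, S.om b k * ξ k ^ 2 ≤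
        ∑ k ∈ S.D b, S.om b k * ξ k ^ 2 := by
      apply sum_le_sum_of_subset_of_nonneg inter_subset_right
      intro k _ _
      have := om_pos S b k
      positivity
    linarith
  have h2 : ∑ k ∈ (univ \ S.F b) \ S.D b, S.om b k * ξ k ^ 2 ≤
      ∑ k ∈ (univ \ S.F b) \ S.D b, S.x b ^ 81 * (kap (S.q b k) * ξ k ^ 2) := by
    apply sum_le_sum
    intro k hk
    rw [mem_sdiff, mem_sdiff] at hk
    have h3 := S.om_le hk.2
    have h4 := S.kap_mid hk.1.2 hk.2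
    have h5 : 1 ≤ S.x b * kap (S.q b k) := by
      have := mul_le_mul_of_nonneg_left h4 (show 0 ≤ S.x b by linarith)
      rwa [mul_inv_cancel₀ (by linarith)] at this
    have h6 : S.om b k ≤ S.x b ^ 81 * kap (S.q b k) := by
      calc S.om b k ≤ S.x b ^ 80 * 1 := by linarith
        _ ≤ S.x b ^ 80 * (S.x b * kap (S.q b k)) := by
          apply mul_le_mul_of_nonneg_left h5
          positivity
        _ = _ := by ring
    calc S.om b k * ξ k ^ 2 ≤ (S.x b ^ 81 * kap (S.q b k)) * ξ k ^ 2 := by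
          apply mul_le_mul_of_nonneg_right h6 (sq_nonneg _)
      _ = _ := by ring
  have h3 : ∑ k ∈ (univ \ S.F b) \ S.D b, S.x b ^ 81 * (kap (S.q b k) * ξ k ^ 2) ≤
      S.x b ^ 81 * ∑ k, kap (S.q b k) * ξ k ^ 2 := by
    rw [← mul_sum]
    apply mul_le_mul_of_nonneg_left _ (by positivity)
    apply sum_le_sum_of_subset_of_nonneg (subset_univ _)
    intro k _ _
    have := kap_pos (S.q_pos b k)
    positivity
  have h4 : S.x b ^ 81 * ∑ k, kap (S.q b k) * ξ k ^ 2 ≤ S.x b ^ 81 * S.x b ^ 12 :=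
    mul_le_mul_of_nonneg_left h.c3 (by positivity)
  have h5 : S.x b ^ 81 * S.x b ^ 12 = S.x b ^ 93 := by ring
  linarith [h.c5]

/-- Data of the refresh of all blocks. -/
structure RD (L b : ℕ) (s : St V κ) (A : ℕ → Finset V) (ξ : ℕ → κ → ℝ) (ξ2 : ℕ → κ → κ → ℝ)
    (ξ3 : ℕ → ℕ → ℝ) (zs : ℕ → κ → ℝ) (T : ℕ → κ → κ → ℝ) (tl : ℕ → ℕ → ℝ) : Prop where
  hN : 0 < S.N b
  hx : 1000000 ≤ S.x b
  hnub : (0 : ℝ) < S.nu b
  hp : ∀ e, s.pos e < S.N b
  hnext : ∀ z < S.N b, ∃ y < S.N b, ∀ k, S.P s (z + 1) k = S.P s y k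
  hr1 : ∀ l, b ≤ l → 1 ≤ (S.nu l : ℝ) / S.nu b
  hcount : ∀ z < S.N b, ((Bl s z ∩ S.H b).card : ℝ) ≤ 2 * S.x b
  hA : ∀ z < S.N b, A z ⊆ Bl s z \ S.H b
  hfr : ∀ z < S.N b, S.Fresh L b (ξ z) (ξ2 z) (ξ3 z)
  hF : ∀ z < S.N b, ∀ k ∈ S.F b, S.P s z k + ∑ e ∈ A z, S.v e k = ξ z k
  hnF : ∀ z < S.N b, ∀ k ∉ S.F b,
    ∑ e ∈ A z, S.v e k = S.Ls b (Bl s z) k / 2 + zs z k + ξ z k
  hQ : ∀ z < S.N b, ∀ i k,
    ∑ e ∈ A z, S.v e i * S.v e k = S.Qs b (Bl s z) i k / 2 + T z i k + ξ2 z i k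
  hct : ∀ z < S.N b, ∀ l, b < l → l ≤ L → ((A z ∩ S.H l).card : ℝ) =
    (((Bl s z \ S.H b) ∩ S.H l).card : ℝ) / 2 + tl z l + ξ3 z l
  hT : ∀ z < S.N b, S.NX b (T z) ≤ 1
  hz1 : ∀ z < S.N b, ∑ k ∈ univ \ S.F b, S.om b k * zs z k ^ 2 ≤ 1
  hz2 : ∀ z < S.N b, ∑ k ∈ univ \ S.F b, zs z k ^ 2 ≤ 1
  htl : ∀ z < S.N b, ∀ l, b < l → l ≤ L → |tl z l| ≤ ((S.nu l : ℝ) / S.nu b) ^ 4

section RDsec

variable {S} {L b : ℕ} {s : St V κ} {A : ℕ → Finset V} {ξ : ℕ → κ → ℝ} {ξ2 : ℕ → κ → κ → ℝ}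
    {ξ3 : ℕ → ℕ → ℝ} {zs : ℕ → κ → ℝ} {T : ℕ → κ → κ → ℝ} {tl : ℕ → ℕ → ℝ}
    {Kb Bb : ℝ}

theorem RD.hA' (r : RD S L b s A ξ ξ2 ξ3 zs T tl) : ∀ z < S.N b, A z ⊆ Bl s z :=
  fun z hz => (r.hA z hz).trans sdiff_subset

theorem RD.hmod (r : RD S L b s A ξ ξ2 ξ3 zs T tl) (z : ℕ) : (z + 1) % S.N b < S.N b :=
  Nat.mod_lt _ r.hN

theorem RD.hAH (r : RD S L b s A ξ ξ2 ξ3 zs T tl) : ∀ z < S.N b, A z ∩ S.H b = ∅ := by
  intro z hz
  ext e
  simp only [mem_inter, notMem_empty, iff_false, not_and]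
  intro he
  have := r.hA z hz he
  rw [mem_sdiff] at this
  exact this.2

theorem RD.hP (r : RD S L b s A ξ ξ2 ξ3 zs T tl) :
    ∀ z < S.N b, ∀ k, S.P (refr S b s A) z k = S.P s z k + ∑ e ∈ A z, S.v e k :=
  fun z hz k => P_refr S r.hp r.hA' k z hz

theorem Dm_F {k : κ} (hk : k ∈ S.Dm b) : k ∉ S.F b := by
  intro hkF
  exact (disjoint_left.1 (S.disj_FD b)) hkF (S.Dm_sub_D b hk)

theorem RD.hLs (r : RD S L b s A ξ ξ2 ξ3 zs T tl) :
    ∀ z < S.N b, ∀ k ∉ S.F b, S.Ls b (Bl (refr S b s A) z) k =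
      (S.Ls b (Bl s z) k + S.Ls b (Bl s ((z + 1) % S.N b)) k) / 2 +
      (zs ((z + 1) % S.N b) k - zs z k) + (ξ ((z + 1) % S.N b) k - ξ z k) := by
  intro z hz k hk
  unfold Ls
  rw [light_refr S r.hp r.hA hz, r.hnF z hz k hk, r.hnF _ (r.hmod z) k hk]
  unfold Ls
  ring

theorem RD.X_ (r : RD S L b s A ξ ξ2 ξ3 zs T tl) (h : S.Inv L b s Kb Bb) :
    ∀ z < S.N b, S.NX b (S.Xd b (Bl (refr S b s A) z)) ≤ S.x b ^ 802 := by
  have hN := r.hN
  have hx := r.hx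
  have hnub := r.hnub
  have hr1 := r.hr1
  have hnext := r.hnext
  have hcount := r.hcount
  have hA := r.hA
  have hA' := r.hA'
  have hmod := r.hmod
  have hAH := r.hAH
  have hfr := r.hfr
  have hF := r.hF
  have hnF := r.hnF
  have hQ := r.hQ
  have hct := r.hct
  have hT := r.hT
  have hz1 := r.hz1
  have hz2 := r.hz2
  have htl := r.htl
  have hP := r.hP
  have hLs := r.hLs
  have hDm : ∀ k ∈ S.Dm b, k ∉ S.F b := fun k hk => Dm_F hk
  intro z hz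
  have heq : ∀ i k, S.Xd b (Bl (refr S b s A) z) i k =
      (S.Xd b (Bl s z) i k + S.Xd b (Bl s ((z + 1) % S.N b)) i k) / 2 +
      (T ((z + 1) % S.N b) i k - T z i k) + (ξ2 ((z + 1) % S.N b) i k - ξ2 z i k) := by
    intro i k
    unfold Xd Qs
    rw [light_refr S r.hp hA hz, hQ z hz, hQ _ (hmod z)]
    unfold Qs
    ring
  have h1 := NX6 S b _ _ _ _ _ _ _ heq
  have h2 := h.X z hz
  have h3 := h.X _ (hmod z)
  have h4 := hT z hz
  have h5 := hT _ (hmod z)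
  have h6 := (hfr z hz).c6
  have h7 := (hfr _ (hmod z)).c6
  have h8 : S.x b ^ 185 ≤ S.x b ^ 800 := pow_le_pow_right₀ (by linarith) (by norm_num)
  have h9 : (1 : ℝ) ≤ S.x b ^ 800 := one_le_pow₀ (by linarith)
  have h10 : S.x b ^ 802 = S.x b ^ 2 * S.x b ^ 800 := by ring
  have h11 : 27 * S.x b ^ 800 ≤ S.x b ^ 2 * S.x b ^ 800 := by
    apply mul_le_mul_of_nonneg_right _ (by positivity)
    nlinarith
  rw [h10]
  linarith

theorem RD.Lf_ (r : RD S L b s A ξ ξ2 ξ3 zs T tl) (h : S.Inv L b s Kb Bb) :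
    ∀ z < S.N b, ∑ k ∈ univ \ S.F b, S.om b k * S.Ls b (Bl (refr S b s A) z) k ^ 2 ≤ S.x b ^ 412 := by
  have hN := r.hN
  have hx := r.hx
  have hnub := r.hnub
  have hr1 := r.hr1
  have hnext := r.hnext
  have hcount := r.hcount
  have hA := r.hA
  have hA' := r.hA'
  have hmod := r.hmod
  have hAH := r.hAH
  have hfr := r.hfr
  have hF := r.hF
  have hnF := r.hnF
  have hQ := r.hQ
  have hct := r.hct
  have hT := r.hT
  have hz1 := r.hz1
  have hz2 := r.hz2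
  have htl := r.htl
  have hP := r.hP
  have hLs := r.hLs
  have hDm : ∀ k ∈ S.Dm b, k ∉ S.F b := fun k hk => Dm_F hk
  intro z hz
  have h0 : ∑ k ∈ univ \ S.F b, S.om b k * S.Ls b (Bl (refr S b s A) z) k ^ 2 =
      ∑ k ∈ univ \ S.F b, S.om b k *
        ((S.Ls b (Bl s z) k + S.Ls b (Bl s ((z + 1) % S.N b)) k) / 2 +
        (zs ((z + 1) % S.N b) k - zs z k) + (ξ ((z + 1) % S.N b) k - ξ z k)) ^ 2 := by
    apply sum_congr rfl
    intro k hk
    rw [hLs z hz k (mem_sdiff.1 hk).2]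
  rw [h0]
  have h1 := wsum6 (univ \ S.F b) (S.om b) (S.Ls b (Bl s z))
    (S.Ls b (Bl s ((z + 1) % S.N b))) (zs z) (zs ((z + 1) % S.N b)) (ξ z)
    (ξ ((z + 1) % S.N b)) (fun i _ => (om_pos S b i).le)
  have h2 := h.Lf z hz
  have h3 := h.Lf _ (hmod z)
  have h4 := hz1 z hz
  have h5 := hz1 _ (hmod z)
  have h6 := fresh_om S (hfr z hz)
  have h7 := fresh_om S (hfr _ (hmod z))
  have h8 : S.x b ^ 93 ≤ S.x b ^ 410 := pow_le_pow_right₀ (by linarith) (by norm_num)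
  have h9 : (1 : ℝ) ≤ S.x b ^ 410 := one_le_pow₀ (by linarith)
  have h9' : S.x b ≤ S.x b ^ 410 := by
    calc S.x b = S.x b ^ 1 := by ring
      _ ≤ _ := pow_le_pow_right₀ (by linarith) (by norm_num)
  have h10 : S.x b ^ 412 = S.x b ^ 2 * S.x b ^ 410 := by ring
  have h11 : 39 * S.x b ^ 410 ≤ S.x b ^ 2 * S.x b ^ 410 := by
    apply mul_le_mul_of_nonneg_right _ (by positivity)
    nlinarith
  rw [h10]
  linarith

theorem RD.LD_ (r : RD S L b s A ξ ξ2 ξ3 zs T tl) (h : S.Inv L b s Kb Bb) :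
    ∀ z < S.N b, ∑ k ∈ S.Dm b, S.om b k * S.Ls b (Bl (refr S b s A) z) k ^ 2 ≤ S.x b ^ 312 := by
  have hN := r.hN
  have hx := r.hx
  have hnub := r.hnub
  have hr1 := r.hr1
  have hnext := r.hnext
  have hcount := r.hcount
  have hA := r.hA
  have hA' := r.hA'
  have hmod := r.hmod
  have hAH := r.hAH
  have hfr := r.hfr
  have hF := r.hF
  have hnF := r.hnF
  have hQ := r.hQ
  have hct := r.hct
  have hT := r.hT
  have hz1 := r.hz1
  have hz2 := r.hz2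
  have htl := r.htl
  have hP := r.hP
  have hLs := r.hLs
  have hDm : ∀ k ∈ S.Dm b, k ∉ S.F b := fun k hk => Dm_F hk
  intro z hz
  have hsub : S.Dm b ⊆ univ \ S.F b := fun k hk => mem_sdiff.2 ⟨mem_univ _, hDm k hk⟩
  have h0 : ∑ k ∈ S.Dm b, S.om b k * S.Ls b (Bl (refr S b s A) z) k ^ 2 =
      ∑ k ∈ S.Dm b, S.om b k *
        ((S.Ls b (Bl s z) k + S.Ls b (Bl s ((z + 1) % S.N b)) k) / 2 +
        (zs ((z + 1) % S.N b) k - zs z k) + (ξ ((z + 1) % S.N b) k - ξ z k)) ^ 2 := by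
    apply sum_congr rfl
    intro k hk
    rw [hLs z hz k (hDm k hk)]
  rw [h0]
  have hmono : ∀ f : κ → ℝ, ∑ k ∈ S.Dm b, S.om b k * f k ^ 2 ≤
      ∑ k ∈ univ \ S.F b, S.om b k * f k ^ 2 := by
    intro f
    apply sum_le_sum_of_subset_of_nonneg hsub
    intro k _ _
    have := om_pos S b k
    positivity
  have hmono2 : ∀ f : κ → ℝ, ∑ k ∈ S.Dm b, S.om b k * f k ^ 2 ≤
      ∑ k ∈ S.D b, S.om b k * f k ^ 2 := by
    intro f
    apply sum_le_sum_of_subset_of_nonneg (S.Dm_sub_D b)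
    intro k _ _
    have := om_pos S b k
    positivity
  have h1 := wsum6 (S.Dm b) (S.om b) (S.Ls b (Bl s z))
    (S.Ls b (Bl s ((z + 1) % S.N b))) (zs z) (zs ((z + 1) % S.N b)) (ξ z)
    (ξ ((z + 1) % S.N b)) (fun i _ => (om_pos S b i).le)
  have h2 := h.LD z hz
  have h3 := h.LD _ (hmod z)
  have h4 := (hmono (zs z)).trans (hz1 z hz)
  have h5 := (hmono (zs ((z + 1) % S.N b))).trans (hz1 _ (hmod z))
  have h6 := (hmono2 (ξ z)).trans (hfr z hz).c5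
  have h7 := (hmono2 (ξ ((z + 1) % S.N b))).trans (hfr _ (hmod z)).c5
  have h9 : (1 : ℝ) ≤ S.x b ^ 310 := one_le_pow₀ (by linarith)
  have h9' : S.x b ≤ S.x b ^ 310 := by
    calc S.x b = S.x b ^ 1 := by ring
      _ ≤ _ := pow_le_pow_right₀ (by linarith) (by norm_num)
  have h10 : S.x b ^ 312 = S.x b ^ 2 * S.x b ^ 310 := by ring
  have h11 : 39 * S.x b ^ 310 ≤ S.x b ^ 2 * S.x b ^ 310 := by
    apply mul_le_mul_of_nonneg_right _ (by positivity)
    nlinarith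
  rw [h10]
  linarith

theorem RD.cnt_ (r : RD S L b s A ξ ξ2 ξ3 zs T tl) (h : S.Inv L b s Kb Bb) :
    ∀ z < S.N b, ∀ l, b ≤ l → l ≤ L → ((Bl (refr S b s A) z ∩ S.H l).card : ℝ) ≤
      (S.H l).card / (S.N b : ℝ) + 3 * S.x b * ((S.nu l : ℝ) / S.nu b) ^ 6 := by
  have hN := r.hN
  have hx := r.hx
  have hnub := r.hnub
  have hr1 := r.hr1
  have hnext := r.hnext
  have hcount := r.hcount
  have hA := r.hA
  have hA' := r.hA'
  have hmod := r.hmod
  have hAH := r.hAH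
  have hfr := r.hfr
  have hF := r.hF
  have hnF := r.hnF
  have hQ := r.hQ
  have hct := r.hct
  have hT := r.hT
  have hz1 := r.hz1
  have hz2 := r.hz2
  have htl := r.htl
  have hP := r.hP
  have hLs := r.hLs
  have hDm : ∀ k ∈ S.Dm b, k ∉ S.F b := fun k hk => Dm_F hk
  intro z hz l hl hlL
  rw [card_refr S r.hp hA' hz]
  have hr := hr1 l hl
  have hr6 : (1 : ℝ) ≤ ((S.nu l : ℝ) / S.nu b) ^ 6 := one_le_pow₀ hr
  rcases hl.eq_or_lt with hl' | hl'
  · subst hl'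
    rw [hAH z hz, hAH _ (hmod z)]
    have h1 := h.cnt z hz b le_rfl hlL
    simp only [card_empty, Nat.cast_zero, sub_zero, add_zero]
    nlinarith
  · have h1 := h.cnt z hz l hl hlL
    have h1' := h.cnt _ (hmod z) l hl hlL
    have h2 := hct z hz l hl' hlL
    have h3 := hct _ (hmod z) l hl' hlL
    have h4 : ∀ y, (((Bl s y \ S.H b) ∩ S.H l).card : ℝ) =
        ((Bl s y ∩ S.H l).card : ℝ) - ((Bl s y ∩ S.H b).card : ℝ) := by
      intro y
      have hsub : S.H b ⊆ S.H l := S.H_mono hl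
      have e1 : (Bl s y ∩ S.H l) = ((Bl s y \ S.H b) ∩ S.H l) ∪ (Bl s y ∩ S.H b) := by
        ext e
        simp only [mem_inter, mem_union, mem_sdiff]
        constructor
        · rintro ⟨h1, h2⟩
          by_cases h3 : e ∈ S.H b
          · right; exact ⟨h1, h3⟩
          · left; exact ⟨⟨h1, h3⟩, h2⟩
        · rintro (⟨⟨h1, _⟩, h2⟩ | ⟨h1, h2⟩)
          · exact ⟨h1, h2⟩
          · exact ⟨h1, hsub h2⟩
      have e2 : Disjoint ((Bl s y \ S.H b) ∩ S.H l) (Bl s y ∩ S.H b) := by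
        rw [disjoint_left]
        intro e h1 h2
        simp only [mem_inter, mem_sdiff] at h1 h2
        exact h1.1.2 h2.2
      rw [e1, card_union_of_disjoint e2]
      push_cast
      ring
    rw [h4] at h2 h3
    have h5 := abs_le.1 (htl z hz l hl' hlL)
    have h6 := abs_le.1 (htl _ (hmod z) l hl' hlL)
    have h7 := hcount z hz
    have h8 := hcount _ (hmod z)
    have hg : 1 ≤ (S.nu (b + 1) : ℝ) / S.nu b := by
      rw [one_le_div hnub]
      exact_mod_cast S.nu_mono (Nat.le_succ b)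
    have hxi : ∀ y < S.N b, |ξ3 y l| ≤ S.x b * ((S.nu l : ℝ) / S.nu b) ^ 4 := by
      intro y hy
      have h9 := (hfr y hy).c7 l hl' hlL
      have h10 : (S.nu l : ℝ) / S.nu (b + 1) ≤ (S.nu l : ℝ) / S.nu b := by
        apply div_le_div_of_nonneg_left (Nat.cast_nonneg _) hnub
        exact_mod_cast S.nu_mono (Nat.le_succ b)
      have h11 : ((S.nu l : ℝ) / S.nu (b + 1)) ^ 8 ≤ ((S.nu l : ℝ) / S.nu b) ^ 8 := by
        apply pow_le_pow_left₀ (by positivity) h10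
      apply abs_le_of_sq_le_sq _ (by positivity)
      calc ξ3 y l ^ 2 ≤ S.x b * ((S.nu l : ℝ) / S.nu (b + 1)) ^ 8 := h9
        _ ≤ S.x b * ((S.nu l : ℝ) / S.nu b) ^ 8 := by
          apply mul_le_mul_of_nonneg_left h11 (by linarith)
        _ ≤ S.x b ^ 2 * ((S.nu l : ℝ) / S.nu b) ^ 8 := by
          apply mul_le_mul_of_nonneg_right _ (by positivity)
          nlinarith
        _ = _ := by ring
    have h9 := abs_le.1 (hxi z hz)
    have h10 := abs_le.1 (hxi _ (hmod z))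
    have hrg : S.x b ≤ (S.nu l : ℝ) / S.nu b := by
      have e1 : (S.g b : ℝ) ≤ (S.nu l : ℝ) / S.nu b := by
        rw [le_div_iff₀ hnub]
        have e2 := S.nu_succ b
        have e3 : S.nu (b + 1) ≤ S.nu l := S.nu_mono (Nat.succ_le_of_lt hl')
        have e4 : S.g b * S.nu b ≤ S.nu l := by
          rw [mul_comm, ← e2]
          exact e3
        exact_mod_cast e4
      have e5 := S.g_ge b
      have e6 : S.x b ≤ S.x b ^ 75 := by
        calc S.x b = S.x b ^ 1 := by ring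
          _ ≤ _ := pow_le_pow_right₀ (by linarith) (by norm_num)
      linarith
    have hr4 : (1 : ℝ) ≤ ((S.nu l : ℝ) / S.nu b) ^ 4 := one_le_pow₀ hr
    have hr2 : (100 : ℝ) ≤ ((S.nu l : ℝ) / S.nu b) ^ 2 := by nlinarith
    have h11 : 100 * ((S.nu l : ℝ) / S.nu b) ^ 4 ≤ ((S.nu l : ℝ) / S.nu b) ^ 6 := by
      calc 100 * ((S.nu l : ℝ) / S.nu b) ^ 4 ≤
          ((S.nu l : ℝ) / S.nu b) ^ 2 * ((S.nu l : ℝ) / S.nu b) ^ 4 :=
            mul_le_mul_of_nonneg_right hr2 (by positivity)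
        _ = _ := by ring
    have h12 : S.x b * (100 * ((S.nu l : ℝ) / S.nu b) ^ 4) ≤
        S.x b * ((S.nu l : ℝ) / S.nu b) ^ 6 := mul_le_mul_of_nonneg_left h11 (by linarith)
    have h13 : S.x b ≤ S.x b * ((S.nu l : ℝ) / S.nu b) ^ 4 := by nlinarith
    have h14 : ((S.nu l : ℝ) / S.nu b) ^ 4 ≤ S.x b * ((S.nu l : ℝ) / S.nu b) ^ 4 := by
      nlinarith
    linarith [h5.1, h5.2, h6.1, h6.2, h9.1, h9.2, h10.1, h10.2]

theorem RD.cnt0_ (r : RD S L b s A ξ ξ2 ξ3 zs T tl) :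
    ∀ z < S.N b, ((Bl (refr S b s A) z ∩ S.H b).card : ℝ) ≤ 2 * S.x b := by
  have hN := r.hN
  have hx := r.hx
  have hnub := r.hnub
  have hr1 := r.hr1
  have hnext := r.hnext
  have hcount := r.hcount
  have hA := r.hA
  have hA' := r.hA'
  have hmod := r.hmod
  have hAH := r.hAH
  have hfr := r.hfr
  have hF := r.hF
  have hnF := r.hnF
  have hQ := r.hQ
  have hct := r.hct
  have hT := r.hT
  have hz1 := r.hz1
  have hz2 := r.hz2
  have htl := r.htl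
  have hP := r.hP
  have hLs := r.hLs
  have hDm : ∀ k ∈ S.Dm b, k ∉ S.F b := fun k hk => Dm_F hk
  intro z hz
  rw [card_refr S r.hp hA' hz, hAH z hz, hAH _ (hmod z)]
  simp only [card_empty, Nat.cast_zero, sub_zero, add_zero]
  exact hcount z hz

theorem RD.one_ (r : RD S L b s A ξ ξ2 ξ3 zs T tl) (h : S.Inv L b s Kb Bb) :
    ∀ z < S.N b, (Bl (refr S b s A) z ∩ S.Hm b).card ≤ 1 := by
  have hN := r.hN
  have hx := r.hx
  have hnub := r.hnub
  have hr1 := r.hr1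
  have hnext := r.hnext
  have hcount := r.hcount
  have hA := r.hA
  have hA' := r.hA'
  have hmod := r.hmod
  have hAH := r.hAH
  have hfr := r.hfr
  have hF := r.hF
  have hnF := r.hnF
  have hQ := r.hQ
  have hct := r.hct
  have hT := r.hT
  have hz1 := r.hz1
  have hz2 := r.hz2
  have htl := r.htl
  have hP := r.hP
  have hLs := r.hLs
  have hDm : ∀ k ∈ S.Dm b, k ∉ S.F b := fun k hk => Dm_F hk
  intro z hz
  have hsub : S.Hm b ⊆ S.H b := by
    cases b with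
    | zero => exact empty_subset _
    | succ b => exact S.H_mono (Nat.le_succ b)
  have hAm : ∀ z < S.N b, A z ∩ S.Hm b = ∅ := by
    intro z hz
    rw [← subset_empty, ← hAH z hz]
    exact inter_subset_inter_left hsub
  have h1 := card_refr S r.hp hA' hz (S.Hm b)
  rw [hAm z hz, hAm _ (hmod z)] at h1
  simp only [card_empty, Nat.cast_zero, sub_zero, add_zero] at h1
  have h2 : (Bl (refr S b s A) z ∩ S.Hm b).card = (Bl s z ∩ S.Hm b).card := by
    exact_mod_cast h1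
  rw [h2]
  exact h.one z hz

theorem RD.PF1_ (r : RD S L b s A ξ ξ2 ξ3 zs T tl) :
    ∀ z < S.N b, ∑ k ∈ S.F b, S.P (refr S b s A) z k ^ 2 ≤
      131072 * Fintype.card κ + S.x b := by
  have hN := r.hN
  have hx := r.hx
  have hnub := r.hnub
  have hr1 := r.hr1
  have hnext := r.hnext
  have hcount := r.hcount
  have hA := r.hA
  have hA' := r.hA'
  have hmod := r.hmod
  have hAH := r.hAH
  have hfr := r.hfr
  have hF := r.hF
  have hnF := r.hnF
  have hQ := r.hQ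
  have hct := r.hct
  have hT := r.hT
  have hz1 := r.hz1
  have hz2 := r.hz2
  have htl := r.htl
  have hP := r.hP
  have hLs := r.hLs
  have hDm : ∀ k ∈ S.Dm b, k ∉ S.F b := fun k hk => Dm_F hk
  intro z hz
  have h0 : ∑ k ∈ S.F b, S.P (refr S b s A) z k ^ 2 = ∑ k ∈ S.F b, ξ z k ^ 2 := by
    apply sum_congr rfl
    intro k hk
    rw [hP z hz, hF z hz k hk]
  rw [h0]
  refine le_trans ?_ (hfr z hz).c2
  apply sum_le_sum_of_subset_of_nonneg (subset_univ _)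
  intro k _ _
  positivity

theorem RD.PFS_ (r : RD S L b s A ξ ξ2 ξ3 zs T tl) :
    ∀ z < S.N b, ∑ k ∈ S.F b ∩ S.Sx b, S.P (refr S b s A) z k ^ 2 ≤
      131072 * (S.Sx b).card + S.x b := by
  have hN := r.hN
  have hx := r.hx
  have hnub := r.hnub
  have hr1 := r.hr1
  have hnext := r.hnext
  have hcount := r.hcount
  have hA := r.hA
  have hA' := r.hA'
  have hmod := r.hmod
  have hAH := r.hAH
  have hfr := r.hfr
  have hF := r.hF
  have hnF := r.hnF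
  have hQ := r.hQ
  have hct := r.hct
  have hT := r.hT
  have hz1 := r.hz1
  have hz2 := r.hz2
  have htl := r.htl
  have hP := r.hP
  have hLs := r.hLs
  have hDm : ∀ k ∈ S.Dm b, k ∉ S.F b := fun k hk => Dm_F hk
  intro z hz
  have h0 : ∑ k ∈ S.F b ∩ S.Sx b, S.P (refr S b s A) z k ^ 2 =
      ∑ k ∈ S.F b ∩ S.Sx b, ξ z k ^ 2 := by
    apply sum_congr rfl
    intro k hk
    rw [hP z hz, hF z hz k (mem_inter.1 hk).1]
  rw [h0]
  refine le_trans ?_ (hfr z hz).c1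
  apply sum_le_sum_of_subset_of_nonneg inter_subset_right
  intro k _ _
  positivity

theorem RD.PF2_ (r : RD S L b s A ξ ξ2 ξ3 zs T tl) :
    ∀ z < S.N b, ∑ k ∈ S.F b, kap (S.q b k) * S.P (refr S b s A) z k ^ 2 ≤ S.x b ^ 12 := by
  have hN := r.hN
  have hx := r.hx
  have hnub := r.hnub
  have hr1 := r.hr1
  have hnext := r.hnext
  have hcount := r.hcount
  have hA := r.hA
  have hA' := r.hA'
  have hmod := r.hmod
  have hAH := r.hAH
  have hfr := r.hfr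
  have hF := r.hF
  have hnF := r.hnF
  have hQ := r.hQ
  have hct := r.hct
  have hT := r.hT
  have hz1 := r.hz1
  have hz2 := r.hz2
  have htl := r.htl
  have hP := r.hP
  have hLs := r.hLs
  have hDm : ∀ k ∈ S.Dm b, k ∉ S.F b := fun k hk => Dm_F hk
  intro z hz
  have h0 : ∑ k ∈ S.F b, kap (S.q b k) * S.P (refr S b s A) z k ^ 2 =
      ∑ k ∈ S.F b, kap (S.q b k) * ξ z k ^ 2 := by
    apply sum_congr rfl
    intro k hk
    rw [hP z hz, hF z hz k hk]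
  rw [h0]
  refine le_trans ?_ (hfr z hz).c3
  apply sum_le_sum_of_subset_of_nonneg (subset_univ _)
  intro k _ _
  have := kap_pos (S.q_pos b k)
  positivity

theorem RD.PU_ (r : RD S L b s A ξ ξ2 ξ3 zs T tl) (h : S.Inv L b s Kb Bb) :
    ∀ z < S.N b, ∃ c e : κ → ℝ, (∀ k ∈ S.U b, S.P (refr S b s A) z k = c k + e k) ∧
      ∑ k ∈ S.U b, S.w b k * c k ^ 2 ≤ Kb ∧
      ∑ k ∈ S.U b, e k ^ 2 ≤ 393216 * (S.Sx b).card + S.x b ^ 3 := by
  have hN := r.hN
  have hx := r.hx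
  have hnub := r.hnub
  have hr1 := r.hr1
  have hnext := r.hnext
  have hcount := r.hcount
  have hA := r.hA
  have hA' := r.hA'
  have hmod := r.hmod
  have hAH := r.hAH
  have hfr := r.hfr
  have hF := r.hF
  have hnF := r.hnF
  have hQ := r.hQ
  have hct := r.hct
  have hT := r.hT
  have hz1 := r.hz1
  have hz2 := r.hz2
  have htl := r.htl
  have hP := r.hP
  have hLs := r.hLs
  have hDm : ∀ k ∈ S.Dm b, k ∉ S.F b := fun k hk => Dm_F hk
  intro z hz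
  obtain ⟨y, hy, hPy⟩ := hnext z hz
  refine ⟨fun k => (S.P s z k + S.P s y k) / 2,
    fun k => -(1 / 2) * ∑ e ∈ Bl s z ∩ S.H b, S.v e k + zs z k + ξ z k, ?_, ?_, ?_⟩
  · intro k hk
    have hkF : k ∉ S.F b := by
      unfold U at hk
      rw [mem_sdiff, mem_union] at hk
      tauto
    rw [hP z hz, hnF z hz k hkF]
    have h1 := P_step S s z k
    have h2 := sum_inter_add_sum_sdiff (Bl s z) (S.H b) (fun e => S.v e k)
    rw [hPy] at h1
    unfold Ls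
    linarith
  · have h1 := h.PU z hz
    have h2 := h.PU y hy
    have h3 : ∑ k ∈ S.U b, S.w b k * ((S.P s z k + S.P s y k) / 2) ^ 2 ≤
        1 / 2 * ∑ k ∈ S.U b, S.w b k * S.P s z k ^ 2 +
        1 / 2 * ∑ k ∈ S.U b, S.w b k * S.P s y k ^ 2 := by
      simp only [mul_sum, ← sum_add_distrib]
      apply sum_le_sum
      intro k _
      have h4 : ((S.P s z k + S.P s y k) / 2) ^ 2 ≤
          1 / 2 * S.P s z k ^ 2 + 1 / 2 * S.P s y k ^ 2 := by
        nlinarith [sq_nonneg (S.P s z k - S.P s y k)]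
      have := mul_le_mul_of_nonneg_left h4 (S.w_pos b k).le
      linarith
    linarith
  · have h1 := wsum3 (S.U b) (fun _ => 1)
      (fun k => -(1 / 2) * ∑ e ∈ Bl s z ∩ S.H b, S.v e k) (zs z) (ξ z)
      (fun _ _ => zero_le_one)
    simp only [one_mul] at h1
    refine h1.trans ?_
    have h2 : ∑ k ∈ S.U b, (-(1 / 2) * ∑ e ∈ Bl s z ∩ S.H b, S.v e k) ^ 2 ≤ S.x b ^ 2 := by
      have h3 : ∀ k, (-(1 / 2) * ∑ e ∈ Bl s z ∩ S.H b, S.v e k) ^ 2 ≤
          1 / 4 * (((Bl s z ∩ S.H b).card : ℝ) * ∑ e ∈ Bl s z ∩ S.H b, S.v e k ^ 2) := by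
        intro k
        have := sq_sum_le_card_mul_sum_sq (s := Bl s z ∩ S.H b) (f := fun e => S.v e k)
        rw [mul_pow]
        linarith
      have h4 : ∑ k ∈ S.U b, (-(1 / 2) * ∑ e ∈ Bl s z ∩ S.H b, S.v e k) ^ 2 ≤
          ∑ k, 1 / 4 * (((Bl s z ∩ S.H b).card : ℝ) * ∑ e ∈ Bl s z ∩ S.H b, S.v e k ^ 2) := by
        refine le_trans (sum_le_sum fun k _ => h3 k) ?_
        apply sum_le_sum_of_subset_of_nonneg (subset_univ _)
        intro k _ _
        positivity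
      have h5 : ∑ k, 1 / 4 * (((Bl s z ∩ S.H b).card : ℝ) *
          ∑ e ∈ Bl s z ∩ S.H b, S.v e k ^ 2) =
          1 / 4 * (((Bl s z ∩ S.H b).card : ℝ) * ∑ e ∈ Bl s z ∩ S.H b, ∑ k, S.v e k ^ 2) := by
        rw [← mul_sum, ← mul_sum, sum_comm]
      have h6 : ∑ e ∈ Bl s z ∩ S.H b, ∑ k, S.v e k ^ 2 ≤ ((Bl s z ∩ S.H b).card : ℝ) := by
        calc ∑ e ∈ Bl s z ∩ S.H b, ∑ k, S.v e k ^ 2 ≤ ∑ e ∈ Bl s z ∩ S.H b, (1 : ℝ) :=
              sum_le_sum fun e _ => S.hv e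
          _ = _ := by simp
      have h7 := hcount z hz
      have h8 : (0 : ℝ) ≤ ((Bl s z ∩ S.H b).card : ℝ) := Nat.cast_nonneg _
      rw [h5] at h4
      nlinarith
    have h3 : ∑ k ∈ S.U b, zs z k ^ 2 ≤ 1 := by
      refine le_trans ?_ (hz2 z hz)
      apply sum_le_sum_of_subset_of_nonneg
      · intro k hk
        unfold U at hk
        rw [mem_sdiff, mem_union] at hk
        rw [mem_sdiff]
        tauto
      · intro k _ _
        positivity
    have h4 : ∑ k ∈ S.U b, ξ z k ^ 2 ≤ 131072 * (S.Sx b).card + S.x b := by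
      refine le_trans ?_ (hfr z hz).c1
      apply sum_le_sum_of_subset_of_nonneg
      · intro k hk
        unfold U at hk
        unfold Sx
        rw [mem_sdiff, mem_union] at hk ⊢
        refine ⟨mem_univ _, ?_⟩
        rintro (h5 | h5)
        · exact hk.2 (Or.inl (S.F_anti b h5))
        · exact hk.2 (Or.inr h5)
      · intro k _ _
        positivity
    have h5 : S.x b ^ 3 = S.x b * S.x b ^ 2 := by ring
    have h6 : (0 : ℝ) ≤ S.x b ^ 2 := by positivity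
    rw [h5]
    nlinarith

theorem RD.PD_ (r : RD S L b s A ξ ξ2 ξ3 zs T tl) (h : S.Inv L b s Kb Bb) :
    ∀ z < S.N b, ∃ δ : κ → ℝ, (∀ k ∈ S.A b, S.P (refr S b s A) z k = S.P s z k + δ k) ∧
      ∑ k ∈ S.A b, S.om b k * δ k ^ 2 ≤ S.x b ^ 313 := by
  have hN := r.hN
  have hx := r.hx
  have hnub := r.hnub
  have hr1 := r.hr1
  have hnext := r.hnext
  have hcount := r.hcount
  have hA := r.hA
  have hA' := r.hA'
  have hmod := r.hmod
  have hAH := r.hAH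
  have hfr := r.hfr
  have hF := r.hF
  have hnF := r.hnF
  have hQ := r.hQ
  have hct := r.hct
  have hT := r.hT
  have hz1 := r.hz1
  have hz2 := r.hz2
  have htl := r.htl
  have hP := r.hP
  have hLs := r.hLs
  have hDm : ∀ k ∈ S.Dm b, k ∉ S.F b := fun k hk => Dm_F hk
  intro z hz
  refine ⟨fun k => ∑ e ∈ A z, S.v e k, fun k _ => hP z hz k, ?_⟩
  have hAD : S.A b ⊆ S.Dm b := S.A_sub_Dm b
  have h0 : ∑ k ∈ S.A b, S.om b k * (∑ e ∈ A z, S.v e k) ^ 2 =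
      ∑ k ∈ S.A b, S.om b k * (S.Ls b (Bl s z) k / 2 + zs z k + ξ z k) ^ 2 := by
    apply sum_congr rfl
    intro k hk
    rw [hnF z hz k (hDm k (hAD hk))]
  rw [h0]
  have h1 := wsum3 (S.A b) (S.om b) (fun k => S.Ls b (Bl s z) k / 2) (zs z) (ξ z)
    (fun i _ => (om_pos S b i).le)
  refine h1.trans ?_
  have hm : ∀ (I : Finset κ) (f : κ → ℝ), S.A b ⊆ I →
      ∑ k ∈ S.A b, S.om b k * f k ^ 2 ≤ ∑ k ∈ I, S.om b k * f k ^ 2 := by
    intro I f hI
    apply sum_le_sum_of_subset_of_nonneg hI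
    intro k _ _
    have := om_pos S b k
    positivity
  have h2 : ∑ k ∈ S.A b, S.om b k * (S.Ls b (Bl s z) k / 2) ^ 2 ≤ 1 / 4 * S.x b ^ 310 := by
    have h3 : ∑ k ∈ S.A b, S.om b k * (S.Ls b (Bl s z) k / 2) ^ 2 =
        1 / 4 * ∑ k ∈ S.A b, S.om b k * S.Ls b (Bl s z) k ^ 2 := by
      rw [mul_sum]
      apply sum_congr rfl
      intro k _
      ring
    rw [h3]
    have := (hm _ (S.Ls b (Bl s z)) hAD).trans (h.LD z hz)
    linarith
  have h3 := (hm (univ \ S.F b) (zs z) (fun k hk => mem_sdiff.2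
    ⟨mem_univ _, hDm k (hAD hk)⟩)).trans (hz1 z hz)
  have h4 := (hm (S.D b) (ξ z) (hAD.trans (S.Dm_sub_D b))).trans (hfr z hz).c5
  have h9 : (1 : ℝ) ≤ S.x b ^ 310 := one_le_pow₀ (by linarith)
  have h9' : S.x b ≤ S.x b ^ 310 := by
    calc S.x b = S.x b ^ 1 := by ring
      _ ≤ _ := pow_le_pow_right₀ (by linarith) (by norm_num)
  have h10 : S.x b ^ 313 = S.x b ^ 3 * S.x b ^ 310 := by ring
  have h12 : (7 : ℝ) ≤ S.x b ^ 3 := by
    calc (7 : ℝ) ≤ S.x b ^ 1 := by linarith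
      _ ≤ _ := pow_le_pow_right₀ (by linarith) (by norm_num)
  have h11 : 7 * S.x b ^ 310 ≤ S.x b ^ 3 * S.x b ^ 310 :=
    mul_le_mul_of_nonneg_right h12 (by positivity)
  rw [h10]
  linarith

end RDsec

end StateRaux

open StateRaux

theorem exists_refresh {L b : ℕ} (hb : b ≤ L) {s : St V κ} {Kb Bb : ℝ}
    (h : S.Inv L b s Kb Bb) :
    ∃ sR : St V κ, S.InvR L b s sR Kb := by
  classical
  have hN : 0 < S.N b := S.N_pos b
  have hNR : (0 : ℝ) < S.N b := by exact_mod_cast hN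
  have hx := x_big S b
  have hnub : (0 : ℝ) < S.nu b := by exact_mod_cast S.nu_pos b
  have hnext : ∀ z < S.N b, ∃ y < S.N b, ∀ k, S.P s (z + 1) k = S.P s y k := by
    intro z hz
    by_cases h1 : z + 1 < S.N b
    · exact ⟨z + 1, h1, fun _ => rfl⟩
    · refine ⟨0, hN, fun k => ?_⟩
      have : z + 1 = S.N b := by omega
      rw [this, P_last S h.pos_lt]
  have hr1 : ∀ l, b ≤ l → 1 ≤ (S.nu l : ℝ) / S.nu b := by
    intro l hl
    rw [one_le_div hnub]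
    exact_mod_cast S.nu_mono hl
  have hcount : ∀ z < S.N b, ((Bl s z ∩ S.H b).card : ℝ) ≤ 2 * S.x b := by
    intro z hz
    have h1 := h.cnt z hz b le_rfl hb
    have h2 : ((S.H b).card : ℝ) / (S.N b : ℝ) ≤ 1 := by
      rw [div_le_one hNR]
      have h3 := S.H_card b
      have h4 : (1 : ℝ) ≤ S.x b ^ 10 := one_le_pow₀ (by linarith)
      have h5 : (0 : ℝ) ≤ (S.H b).card := Nat.cast_nonneg _
      nlinarith
    rw [div_self hnub.ne', one_pow] at h1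
    linarith
  have hcl : ∀ z < S.N b, ∀ l, b < l → l ≤ L → ((Bl s z ∩ S.H l).card : ℝ) ≤
      2 * S.x b * ((S.nu l : ℝ) / S.nu b) ^ 8 := by
    intro z hz l hl hlL
    have h1 := h.cnt z hz l hl.le hlL
    have hr := hr1 l hl.le
    have h2 : ((S.H l).card : ℝ) / (S.N b : ℝ) ≤ ((S.nu l : ℝ) / S.nu b) ^ 8 := by
      rw [div_pow, div_le_div_iff₀ hNR (by positivity)]
      have h3 := S.H_card l
      have h4 : (1 : ℝ) ≤ S.x l ^ 10 := one_le_pow₀ (by linarith [x_big S l])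
      have h5 : (0 : ℝ) ≤ (S.H l).card := Nat.cast_nonneg _
      have h6 : ((S.H l).card : ℝ) ≤ S.N l := by nlinarith
      have h7 : (S.N l : ℝ) = (S.nu l : ℝ) ^ 8 := by
        unfold N
        push_cast
        ring
      have h8 : (S.N b : ℝ) = (S.nu b : ℝ) ^ 8 := by
        unfold N
        push_cast
        ring
      rw [h7] at h6
      rw [h8]
      exact mul_le_mul_of_nonneg_right h6 (by positivity)
    have h3 : ((S.nu l : ℝ) / S.nu b) ^ 6 ≤ ((S.nu l : ℝ) / S.nu b) ^ 8 :=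
      pow_le_pow_right₀ hr (by norm_num)
    have h4 : (0 : ℝ) ≤ ((S.nu l : ℝ) / S.nu b) ^ 8 := by positivity
    nlinarith
  have key : ∀ z, z < S.N b → ∃ (A : Finset V) (ξ : κ → ℝ) (ξ2 : κ → κ → ℝ) (ξ3 : ℕ → ℝ)
      (zs : κ → ℝ) (T : κ → κ → ℝ) (tl : ℕ → ℝ), A ⊆ Bl s z \ S.H b ∧ S.Fresh L b ξ ξ2 ξ3 ∧
      (∀ k ∈ S.F b, S.P s z k + ∑ e ∈ A, S.v e k = ξ k) ∧
      (∀ k ∉ S.F b, ∑ e ∈ A, S.v e k = S.Ls b (Bl s z) k / 2 + zs k + ξ k) ∧
      (∀ i k, ∑ e ∈ A, S.v e i * S.v e k = S.Qs b (Bl s z) i k / 2 + T i k + ξ2 i k) ∧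
      (∀ l, b < l → l ≤ L → ((A ∩ S.H l).card : ℝ) =
        (((Bl s z \ S.H b) ∩ S.H l).card : ℝ) / 2 + tl l + ξ3 l) ∧
      S.NX b T ≤ 1 ∧
      ∑ k ∈ univ \ S.F b, S.om b k * zs k ^ 2 ≤ 1 ∧
      ∑ k ∈ univ \ S.F b, zs k ^ 2 ≤ 1 ∧
      (∀ l, b < l → l ≤ L → |tl l| ≤ ((S.nu l : ℝ) / S.nu b) ^ 4) := by
    intro z hz
    obtain ⟨y, hy, hPy⟩ := hnext z hz
    obtain ⟨A, hA, ξ, ξ2, ξ3, zs, T, tl, hr⟩ := S.refresh_block L b (Bl s z) (S.P s z)
      (S.P s (z + 1)) (fun k => P_step S s z k) (h.X z hz) (h.PF2 z hz)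
      (by simp only [hPy]; exact h.PF2 y hy) (hcount z hz) (hcl z hz)
    exact ⟨A, ξ, ξ2, ξ3, zs, T, tl, hA, hr⟩
  choose! A ξ ξ2 ξ3 zs T tl hA hfr hF hnF hQ hct hT hz1 hz2 htl using key
  have r : RD S L b s A ξ ξ2 ξ3 zs T tl := ⟨hN, hx, hnub, h.pos_lt, hnext, hr1, hcount, hA, hfr,
    hF, hnF, hQ, hct, hT, hz1, hz2, htl⟩
  refine ⟨refr S b s A, ?_, r.X_ h, r.Lf_ h, r.LD_ h, r.cnt_ h, r.cnt0_, r.one_ h, r.PF1_, r.PFS_,
    r.PF2_, r.PU_ h, r.PD_ h⟩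
  intro e
  change (if e ∈ A (s.pos e) then (s.pos e + S.N b - 1) % S.N b else s.pos e) < S.N b
  split_ifs
  · exact Nat.mod_lt _ hN
  · exact h.pos_lt e

end Fam

end Vale.Agent.P262F
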